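import Vale.Agent.Lib.P150.EntTensC

/-!
W2: approximate tensorization of entropy from uniform covariance bounds.
-/

namespace Vale.Agent.P150

open Filter Topology

variable {n : ℕ}

open scoped MatrixOrder in
lemma exists_sqrt (J : Fin n → Fin n → ℝ) (hJ : ∀ i j, J i j = J j i) (Λ : ℝ)
    (hΛ : ∀ v : Fin n → ℝ, |∑ i, ∑ j, J i j * v i * v j| ≤ Λ * ∑ i, v i ^ 2) :
    ∃ B : Fin n → Fin n → ℝ, ∀ i j, ∑ k, B k i * B k j = J i j + if i = j then Λ else 0 := by
  set A : Matrix (Fin n) (Fin n) ℝ := Matrix.of fun i j => J i j + if i = j then Λ else 0 with hA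
  have hps : A.PosSemidef := by
    refine Matrix.PosSemidef.of_dotProduct_mulVec_nonneg ?_ ?_
    · ext i j
      rw [Matrix.conjTranspose_apply, hA, Matrix.of_apply, Matrix.of_apply, star_trivial, hJ j i]
      simp only [eq_comm]
    · intro v
      have e : star v ⬝ᵥ (A.mulVec v) = ∑ i, ∑ j, J i j * v i * v j + Λ * ∑ i, v i ^ 2 := by
        simp only [dotProduct, Matrix.mulVec, star_trivial, hA, Matrix.of_apply, add_mul,
          Finset.sum_add_distrib, mul_add, ite_mul, zero_mul, Finset.sum_ite_eq, Finset.mem_univ, if_true, Finset.mul_sum]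
        congr 1
        · exact Finset.sum_congr rfl fun i _ => Finset.sum_congr rfl fun j _ => by ring
        · exact Finset.sum_congr rfl fun i _ => by ring
      rw [e]
      have := (abs_le.mp (hΛ v)).1
      linarith
  obtain ⟨B, hB⟩ := CStarAlgebra.nonneg_iff_eq_star_mul_self.mp hps.nonneg
  refine ⟨B, fun i j => ?_⟩
  have h := congrFun (congrFun hB i) j
  rw [Matrix.mul_apply, hA, Matrix.of_apply] at h
  simp only [Matrix.star_apply, star_trivial] at h
  exact h.symm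

lemma linB_abs_le (B : Fin n → Fin n → ℝ) (k : Fin n) (x : Config n) :
    |linB B k x| ≤ ∑ k, ∑ j, |B k j| := by
  calc |linB B k x| ≤ ∑ j, |B k j * spin (x j)| := Finset.abs_sum_le_sum_abs _ _
    _ = ∑ j, |B k j| := Finset.sum_congr rfl fun j _ => by rw [abs_mul, abs_spin, mul_one]
    _ ≤ _ := Finset.single_le_sum (f := fun k => ∑ j, |B k j|)
        (fun k _ => Finset.sum_nonneg fun j _ => abs_nonneg _) (Finset.mem_univ k)

lemma sum_linB_sq (J B : Fin n → Fin n → ℝ) (Λ : ℝ)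
    (hB : ∀ i j, ∑ k, B k i * B k j = J i j + if i = j then Λ else 0) (x : Config n) :
    ∑ k, linB B k x ^ 2 = ∑ i, ∑ j, J i j * spin (x i) * spin (x j) + Λ * n := by
  have e1 : ∀ k, linB B k x ^ 2
      = ∑ i, ∑ j, (B k i * spin (x i)) * (B k j * spin (x j)) := by
    intro k
    rw [linB, sq, Finset.sum_mul_sum]
  simp only [e1]
  rw [Finset.sum_comm]
  have e2 : ∀ i, ∑ k, ∑ j, B k i * spin (x i) * (B k j * spin (x j))
      = ∑ j, (J i j + if i = j then Λ else 0) * (spin (x i) * spin (x j)) := by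
    intro i
    rw [Finset.sum_comm]
    refine Finset.sum_congr rfl fun j _ => ?_
    rw [← hB, Finset.sum_mul]
    exact Finset.sum_congr rfl fun k _ => by ring
  simp only [e2, add_mul, Finset.sum_add_distrib, ite_mul, zero_mul, Finset.sum_ite_eq,
    Finset.mem_univ, if_true, spin_mul_self, mul_one]
  congr 1
  · exact Finset.sum_congr rfl fun i _ => Finset.sum_congr rfl fun j _ => by ring
  · simp [mul_comm]

/-- bounds on the intermediate weights -/
lemma Wm_bounds (J B : Fin n → Fin n → ℝ) (Λ Y : ℝ) (hY : 0 ≤ Y)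
    (hB : ∀ i j, ∑ k, B k i * B k j = J i j + if i = j then Λ else 0)
    (hlin : ∀ k x, |linB B k x| ≤ Y) (a : ℝ) (m : ℕ) (θ : Fin n → ℝ) (x : Config n) :
    Wm B a m θ x ≤ Real.exp (m * a ^ 2 * Λ * n / 2) * isingW (fun i j => (m * a ^ 2) * J i j) θ x ∧
    Real.exp (m * a ^ 2 * Λ * n / 2 - m * n * (a * Y) ^ 4 / 4) *
      isingW (fun i j => (m * a ^ 2) * J i j) θ x ≤ Wm B a m θ x := by
  have hs := sum_linB_sq J B Λ hB x
  have hI : isingW (fun i j => (m * a ^ 2) * J i j) θ x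
      = Real.exp (m * a ^ 2 * (∑ i, ∑ j, J i j * spin (x i) * spin (x j)) / 2)
        * Real.exp (∑ i, θ i * spin (x i)) := by
    unfold isingW
    rw [← Real.exp_add]
    congr 2
    rw [Finset.mul_sum]
    congr 1
    refine Finset.sum_congr rfl fun i _ => ?_
    rw [Finset.mul_sum]
    exact Finset.sum_congr rfl fun j _ => by ring
  have hup : ∏ k, Real.cosh (a * linB B k x) ≤ Real.exp (a ^ 2 * (∑ k, linB B k x ^ 2) / 2) := by
    have e : Real.exp (a ^ 2 * (∑ k, linB B k x ^ 2) / 2)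
        = ∏ k, Real.exp ((a * linB B k x) ^ 2 / 2) := by
      rw [← Real.exp_sum]
      congr 1
      rw [Finset.mul_sum, Finset.sum_div]
      exact Finset.sum_congr rfl fun k _ => by ring
    rw [e]
    exact Finset.prod_le_prod (fun k _ => (Real.cosh_pos _).le)
      fun k _ => Real.cosh_le_exp_half_sq _
  have hlo : Real.exp (a ^ 2 * (∑ k, linB B k x ^ 2) / 2 - n * (a * Y) ^ 4 / 4)
      ≤ ∏ k, Real.cosh (a * linB B k x) := by
    have e : Real.exp (a ^ 2 * (∑ k, linB B k x ^ 2) / 2 - n * (a * Y) ^ 4 / 4)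
        = ∏ k, Real.exp ((a * linB B k x) ^ 2 / 2 - (a * Y) ^ 4 / 4) := by
      rw [← Real.exp_sum]
      congr 1
      rw [Finset.sum_sub_distrib, Finset.mul_sum, Finset.sum_div]
      congr 1
      · exact Finset.sum_congr rfl fun k _ => by ring
      · simp; ring
    rw [e]
    refine Finset.prod_le_prod (fun k _ => (Real.exp_pos _).le) fun k _ => ?_
    refine le_trans (Real.exp_le_exp.mpr ?_) (exp_sub_le_cosh _)
    have h1 : (a * linB B k x) ^ 4 ≤ (a * Y) ^ 4 := by
      have h2 : |a * linB B k x| ≤ |a * Y| := by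
        rw [abs_mul, abs_mul, abs_of_nonneg hY]
        exact mul_le_mul_of_nonneg_left (hlin k x) (abs_nonneg _)
      have h3 := pow_le_pow_left₀ (abs_nonneg _) h2 4
      have e4 : ∀ r : ℝ, |r| ^ 4 = r ^ 4 := fun r => by
        rw [show (4:ℕ) = 2 * 2 from rfl, pow_mul, sq_abs, ← pow_mul]
      rwa [e4, e4] at h3
    linarith
  have hP := prod_cosh_pos B a x
  constructor
  · unfold Wm
    rw [hI, ← mul_assoc]
    refine mul_le_mul_of_nonneg_right ?_ (Real.exp_pos _).le
    refine (pow_le_pow_left₀ hP.le hup m).trans (le_of_eq ?_)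
    rw [← Real.exp_nat_mul, ← Real.exp_add, hs]
    congr 1
    ring
  · unfold Wm
    rw [hI, ← mul_assoc]
    refine mul_le_mul_of_nonneg_right ?_ (Real.exp_pos _).le
    refine le_trans (le_of_eq ?_) (pow_le_pow_left₀ (Real.exp_pos _).le hlo m)
    rw [← Real.exp_nat_mul, ← Real.exp_add, hs]
    congr 1
    ring

lemma entW_smul (c : ℝ) (w f : Config n → ℝ) (hc : 0 < c) :
    entW (fun x => c * w x) f = c * entW w f := by
  unfold entW
  simp only [mul_assoc, ← Finset.mul_sum]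
  rw [mul_div_mul_left _ _ hc.ne']
  ring

lemma entLoc_smul (c : ℝ) (w f : Config n → ℝ) (hc : 0 < c) :
    entLoc (fun x => c * w x) f = c * entLoc w f := by
  unfold entLoc
  have h : ∀ i x, condE (fun x => c * w x) i f x = condE w i f x := by
    intro i x
    unfold condE
    rw [show c * w (Function.update x i true) * f (Function.update x i true)
        + c * w (Function.update x i false) * f (Function.update x i false)
        = c * (w (Function.update x i true) * f (Function.update x i true)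
          + w (Function.update x i false) * f (Function.update x i false)) by ring,
      ← mul_add, mul_div_mul_left _ _ hc.ne']
  simp only [h, mul_assoc, ← Finset.mul_sum]

lemma tendsto_entW {w : ℕ → Config n → ℝ} {w0 f : Config n → ℝ} (hw0 : ∀ x, 0 < w0 x)
    (hf : ∀ x, 0 < f x) (h : ∀ x, Tendsto (fun N => w N x) atTop (𝓝 (w0 x))) :
    Tendsto (fun N => entW (w N) f) atTop (𝓝 (entW w0 f)) := by
  unfold entW
  have hM : 0 < ∑ x, w0 x * f x := sum_pos' fun x => mul_pos (hw0 x) (hf x)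
  have hZ : 0 < ∑ x, w0 x := sum_pos' hw0
  have h1 : Tendsto (fun N => ∑ x, w N x * f x) atTop (𝓝 (∑ x, w0 x * f x)) :=
    tendsto_finsetSum _ fun x _ => (h x).mul_const _
  have h2 : Tendsto (fun N => ∑ x, w N x) atTop (𝓝 (∑ x, w0 x)) :=
    tendsto_finsetSum _ fun x _ => h x
  refine Tendsto.sub (tendsto_finsetSum _ fun x _ => (h x).mul_const _) ?_
  exact h1.mul ((h1.div h2 hZ.ne').log (div_pos hM hZ).ne')

lemma tendsto_entLoc {w : ℕ → Config n → ℝ} {w0 f : Config n → ℝ} (hw0 : ∀ x, 0 < w0 x)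
    (hf : ∀ x, 0 < f x) (h : ∀ x, Tendsto (fun N => w N x) atTop (𝓝 (w0 x))) :
    Tendsto (fun N => entLoc (w N) f) atTop (𝓝 (entLoc w0 f)) := by
  unfold entLoc
  refine tendsto_finsetSum _ fun i _ => tendsto_finsetSum _ fun x _ => ?_
  refine (h x).mul (Tendsto.const_mul _ (Tendsto.const_sub _ ?_))
  refine Tendsto.log ?_ (condE_pos w0 hw0 i hf x).ne'
  unfold condE
  refine Tendsto.div (((h _).mul_const _).add ((h _).mul_const _)) ((h _).add (h _)) ?_
  exact (add_pos (hw0 _) (hw0 _)).ne'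

/-- W2: approximate tensorization of entropy. -/
theorem entropy_tensorization (J : Fin n → Fin n → ℝ) (hJ : ∀ i j, J i j = J j i)
    (Λ K : ℝ) (hΛ0 : 0 ≤ Λ) (hK0 : 0 < K)
    (hΛ : ∀ v : Fin n → ℝ, |∑ i, ∑ j, J i j * v i * v j| ≤ Λ * ∑ i, v i ^ 2)
    (hK : ∀ t : ℝ, 0 ≤ t → t ≤ 1 → ∀ θ v : Fin n → ℝ,
      (∑ x, isingW (fun i j => t * J i j) θ x * (∑ i, v i * spin (x i)) ^ 2) *
          (∑ x, isingW (fun i j => t * J i j) θ x) -
        (∑ x, isingW (fun i j => t * J i j) θ x * (∑ i, v i * spin (x i))) ^ 2 ≤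
      K * (∑ i, v i ^ 2) * (∑ x, isingW (fun i j => t * J i j) θ x) ^ 2)
    (f : Config n → ℝ) (hf : ∀ x, 0 < f x) :
    entW (isingW J 0) f ≤ Real.exp (32 * Λ * K) * entLoc (isingW J 0) f := by
  obtain ⟨B, hB⟩ := exists_sqrt J hJ Λ hΛ
  set Y : ℝ := ∑ k, ∑ j, |B k j| with hYd
  have hY : 0 ≤ Y := Finset.sum_nonneg fun k _ => Finset.sum_nonneg fun j _ => abs_nonneg _
  have hlin : ∀ k x, |linB B k x| ≤ Y := fun k x => linB_abs_le B k x
  set a : ℕ → ℝ := fun N => Real.sqrt (1 / N) with ha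
  have ha0 : ∀ N, 0 ≤ a N := fun N => Real.sqrt_nonneg _
  have ha2 : ∀ N, a N ^ 2 = 1 / N := fun N => Real.sq_sqrt (by positivity)
  have hat : Tendsto a atTop (𝓝 0) := by
    have h1 : Tendsto (fun N : ℕ => (1 / N : ℝ)) atTop (𝓝 0) := tendsto_one_div_atTop_nhds_zero_nat
    have := h1.sqrt
    rw [Real.sqrt_zero] at this
    exact this
  have haY : Tendsto (fun N => a N * Y) atTop (𝓝 0) := by simpa using hat.mul_const Y
  -- eventually all smallness conditions hold
  have ev1 : ∀ᶠ N in atTop, a N * Y ≤ 1 := (haY.eventually_lt_const one_pos).mono fun N h => h.le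
  have ev2 : ∀ᶠ N in atTop, n * (a N * Y) ≤ 1 / 4 := by
    have : Tendsto (fun N => n * (a N * Y)) atTop (𝓝 0) := by simpa using haY.const_mul (n : ℝ)
    exact (this.eventually_lt_const (by norm_num : (0:ℝ) < 1 / 4)).mono fun N h => h.le
  have ev3 : ∀ᶠ N in atTop, n * (a N * Y) ^ 2 ≤ 1 := by
    have : Tendsto (fun N => n * (a N * Y) ^ 2) atTop (𝓝 0) := by
      simpa using (haY.pow 2).const_mul (n : ℝ)
    exact (this.eventually_lt_const one_pos).mono fun N h => h.le
  have ev4 : ∀ᶠ N in atTop, 16 * a N ^ 2 * Λ * (2 * K) ≤ 1 := by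
    have : Tendsto (fun N => 16 * a N ^ 2 * Λ * (2 * K)) atTop (𝓝 0) := by
      have := (((hat.pow 2).const_mul 16).mul_const Λ).mul_const (2 * K)
      simpa using this
    exact (this.eventually_lt_const one_pos).mono fun N h => h.le
  have ev5 : ∀ᶠ N : ℕ in atTop, (n : ℝ) * Y ^ 2 * (a N * Y) ^ 2 ≤ 1 := by
    have : Tendsto (fun N => (n : ℝ) * Y ^ 2 * (a N * Y) ^ 2) atTop (𝓝 0) := by
      simpa using (haY.pow 2).const_mul ((n : ℝ) * Y ^ 2)
    exact (this.eventually_lt_const one_pos).mono fun N h => h.le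
  -- covariance bounds
  have hcov : ∀ N : ℕ, 0 < N → (n : ℝ) * Y ^ 2 * (a N * Y) ^ 2 ≤ 1 →
      ∀ m, m ≤ N → ∀ θ, CovBd (Wm B (a N) m θ) (2 * K) := by
    intro N hN h5 m hm θ
    have hNr : (0:ℝ) < N := by exact_mod_cast hN
    have hmr : (m:ℝ) ≤ N := by exact_mod_cast hm
    have hb := Wm_bounds J B Λ Y hY hB hlin (a N) m θ
    have ht0 : 0 ≤ (m:ℝ) * a N ^ 2 := by positivity
    have ht1 : (m:ℝ) * a N ^ 2 ≤ 1 := by
      rw [ha2, mul_one_div, div_le_one hNr]; exact hmr
    have herr : (m:ℝ) * n * (a N * Y) ^ 4 / 4 ≤ 1 / 4 := by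
      have e : (m:ℝ) * n * (a N * Y) ^ 4 = (m * a N ^ 2) * (n * Y ^ 2 * (a N * Y) ^ 2) := by ring
      rw [e]
      have : (m * a N ^ 2) * (n * Y ^ 2 * (a N * Y) ^ 2) ≤ 1 * 1 :=
        mul_le_mul ht1 h5 (by positivity) zero_le_one
      linarith
    refine CovBd.perturb (w := isingW (fun i j => (m * a N ^ 2) * J i j) θ)
      (fun x => Real.exp_pos _) hK0.le (Real.exp_pos _) (Real.exp_pos _) ?_
      (fun x => (hb x).2) (fun x => (hb x).1) (hK (m * a N ^ 2) ht0 ht1 θ)
    rw [← Real.exp_nat_mul, ← Real.exp_nat_mul]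
    have e1 : Real.exp ((2:ℕ) * (m * a N ^ 2 * Λ * n / 2))
        = Real.exp ((2:ℕ) * (m * n * (a N * Y) ^ 4 / 4)) *
          Real.exp ((2:ℕ) * (m * a N ^ 2 * Λ * n / 2 - m * n * (a N * Y) ^ 4 / 4)) := by
      rw [← Real.exp_add]; congr 1; ring
    rw [e1]
    refine mul_le_mul_of_nonneg_right ?_ (Real.exp_pos _).le
    have h6 : Real.exp ((2:ℕ) * (m * n * (a N * Y) ^ 4 / 4)) ≤ Real.exp (1 / 2) := by
      refine Real.exp_le_exp.mpr ?_
      push_cast
      linarith
    refine h6.trans ?_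
    have h7 : Real.exp (1 / 2) ^ 2 = Real.exp 1 := by
      rw [← Real.exp_nat_mul]; norm_num
    have h8 := Real.exp_one_lt_d9
    have h9 := Real.exp_pos (1 / 2)
    nlinarith
  -- the inequality for large N
  set c0 : ℝ := Real.exp (Λ * n / 2) with hc0
  have hc0pos : 0 < c0 := Real.exp_pos _
  have hineq : ∀ᶠ N : ℕ in atTop,
      (1 + -(32 * Λ * K) / N) ^ N * entW (Wm B (a N) N 0) f ≤ entLoc (Wm B (a N) N 0) f
        + ((16 * n + 8 * n ^ 2) * Y ^ 2 * (a N * Y) ^ 2) * ∑ x, Wm B (a N) N 0 x * f x := by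
    filter_upwards [ev1, ev2, ev3, ev4, ev5, eventually_gt_atTop 0] with N h1 h2 h3 h4 h5 hN
    have h := ent_induction J B Λ (2 * K) Y (a N) hΛ0 (by positivity) hY (ha0 N) hB hΛ hlin
      h1 h2 h3 h4 f hf N (hcov N hN h5) N le_rfl 0
    have hNr : (0:ℝ) < N := by exact_mod_cast hN
    have e1 : 1 - 16 * a N ^ 2 * Λ * (2 * K) = 1 + -(32 * Λ * K) / N := by
      rw [ha2]; field_simp; ring
    have e2 : (N:ℝ) * ((16 * n + 8 * n ^ 2) * (a N * Y) ^ 4)
        = (16 * n + 8 * n ^ 2) * Y ^ 2 * (a N * Y) ^ 2 := by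
      have : (N:ℝ) * a N ^ 2 = 1 := by rw [ha2]; field_simp
      calc (N:ℝ) * ((16 * n + 8 * n ^ 2) * (a N * Y) ^ 4)
          = (N * a N ^ 2) * ((16 * n + 8 * n ^ 2) * Y ^ 2 * (a N * Y) ^ 2) := by ring
        _ = _ := by rw [this, one_mul]
    rw [e1, e2] at h
    exact h
  -- limits
  have hlimW : ∀ x, Tendsto (fun N => Wm B (a N) N 0 x) atTop (𝓝 (c0 * isingW J 0 x)) := by
    intro x
    have hup : ∀ᶠ N : ℕ in atTop, Wm B (a N) N 0 x ≤ c0 * isingW J 0 x := by
      filter_upwards [eventually_gt_atTop 0] with N hN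
      have hNr : (0:ℝ) < N := by exact_mod_cast hN
      have h := (Wm_bounds J B Λ Y hY hB hlin (a N) N 0 x).1
      have e : (N:ℝ) * a N ^ 2 = 1 := by rw [ha2]; field_simp
      simp only [e, one_mul] at h
      exact h
    have hlo : ∀ᶠ N : ℕ in atTop,
        Real.exp (-(n * Y ^ 2 * (a N * Y) ^ 2 / 4)) * (c0 * isingW J 0 x) ≤
          Wm B (a N) N 0 x := by
      filter_upwards [eventually_gt_atTop 0] with N hN
      have hNr : (0:ℝ) < N := by exact_mod_cast hN
      have h := (Wm_bounds J B Λ Y hY hB hlin (a N) N 0 x).2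
      have e : (N:ℝ) * a N ^ 2 = 1 := by rw [ha2]; field_simp
      have e2 : (N:ℝ) * n * (a N * Y) ^ 4 = n * Y ^ 2 * (a N * Y) ^ 2 := by
        calc (N:ℝ) * n * (a N * Y) ^ 4 = (N * a N ^ 2) * (n * Y ^ 2 * (a N * Y) ^ 2) := by ring
          _ = _ := by rw [e, one_mul]
      rw [e2] at h
      simp only [e, one_mul] at h
      refine le_trans (le_of_eq ?_) h
      rw [← mul_assoc, hc0, ← Real.exp_add]
      congr 2
      ring
    have h1 : Tendsto (fun N => Real.exp (-(n * Y ^ 2 * (a N * Y) ^ 2 / 4)) * (c0 * isingW J 0 x))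
        atTop (𝓝 (c0 * isingW J 0 x)) := by
      have h2 : Tendsto (fun N => -(n * Y ^ 2 * (a N * Y) ^ 2 / 4)) atTop (𝓝 0) := by
        have := (((haY.pow 2).const_mul ((n : ℝ) * Y ^ 2)).div_const 4).neg
        simpa using this
      have h3 := (Real.continuous_exp.tendsto 0).comp h2
      rw [Real.exp_zero] at h3
      have := h3.mul_const (c0 * isingW J 0 x)
      simpa using this
    exact tendsto_of_tendsto_of_tendsto_of_le_of_le' h1 tendsto_const_nhds hlo hup
  have hw0 : ∀ x, 0 < c0 * isingW J 0 x := fun x => mul_pos hc0pos (Real.exp_pos _)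
  have hl1 := tendsto_entW hw0 hf hlimW
  have hl2 := tendsto_entLoc hw0 hf hlimW
  have hl3 : Tendsto (fun N => ∑ x, Wm B (a N) N 0 x * f x) atTop
      (𝓝 (∑ x, c0 * isingW J 0 x * f x)) :=
    tendsto_finsetSum _ fun x _ => (hlimW x).mul_const _
  have hl4 := Real.tendsto_one_add_div_pow_exp (-(32 * Λ * K))
  have hl5 : Tendsto (fun N => ((16 * n + 8 * n ^ 2) * Y ^ 2 * (a N * Y) ^ 2 : ℝ)) atTop (𝓝 0) := by
    simpa using (haY.pow 2).const_mul ((16 * n + 8 * n ^ 2) * Y ^ 2 : ℝ)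
  have hfin := le_of_tendsto_of_tendsto (hl4.mul hl1) (hl2.add (hl5.mul hl3)) hineq
  rw [zero_mul, add_zero, entW_smul c0 _ f hc0pos, entLoc_smul c0 _ f hc0pos] at hfin
  have h1 : Real.exp (-(32 * Λ * K)) * entW (isingW J 0) f ≤ entLoc (isingW J 0) f := by
    have : c0 * (Real.exp (-(32 * Λ * K)) * entW (isingW J 0) f)
        ≤ c0 * entLoc (isingW J 0) f := by linarith
    exact le_of_mul_le_mul_left this hc0pos
  have h2 := mul_le_mul_of_nonneg_left h1 (Real.exp_pos (32 * Λ * K)).le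
  rw [← mul_assoc, ← Real.exp_add, add_neg_cancel, Real.exp_zero, one_mul] at h2
  exact h2

end Vale.Agent.P150
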