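import Mathlib

/-!
Definitions for P150: heat-bath (Glauber) dynamics for the zero-field
Sherrington-Kirkpatrick model.
-/

namespace Vale.Agent.P150

open MeasureTheory ProbabilityTheory

/-- A spin configuration on `n` sites: `true` stands for the spin `+1`, `false` for `-1`. -/
abbrev Config (n : ℕ) : Type := Fin n → Bool

/-- The value `±1` of a spin. -/
def spin (b : Bool) : ℝ := if b then 1 else -1

/-- The index set of the disorder: pairs `(i, j)` with `i < j`. -/
abbrev Pair (n : ℕ) : Type := {p : Fin n × Fin n // p.1 < p.2}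

/-- The law of the disorder: i.i.d. standard Gaussians indexed by the pairs `i < j`. -/
noncomputable def disorder (n : ℕ) : Measure (Pair n → ℝ) :=
  Measure.pi fun _ => gaussianReal 0 1

/-- The symmetric array `g_{ij} = g_{ji}`, with zero diagonal. -/
noncomputable def coupling {n : ℕ} (g : Pair n → ℝ) (i j : Fin n) : ℝ :=
  if h : i < j then g ⟨(i, j), h⟩ else if h : j < i then g ⟨(j, i), h⟩ else 0

/-- The unnormalised Gibbs weight `exp (β / √n * ∑_{i<j} g_{ij} x_i x_j)`. -/
noncomputable def gibbsWeight {n : ℕ} (β : ℝ) (g : Pair n → ℝ) (x : Config n) : ℝ :=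
  Real.exp (β / Real.sqrt n * ∑ p : Pair n, g p * spin (x p.1.1) * spin (x p.1.2))

/-- The zero-field Sherrington-Kirkpatrick Gibbs measure `μ`. -/
noncomputable def gibbs {n : ℕ} (β : ℝ) (g : Pair n → ℝ) (x : Config n) : ℝ :=
  gibbsWeight β g x / ∑ y : Config n, gibbsWeight β g y

/-- The local field `h_i = β n^{-1/2} ∑_{j ≠ i} g_{ij} x_j`. -/
noncomputable def localField {n : ℕ} (β : ℝ) (g : Pair n → ℝ) (x : Config n) (i : Fin n) : ℝ :=
  β / Real.sqrt n * ∑ j : Fin n, coupling g i j * spin (x j)

/-- The heat-bath update at site `i`, as a transition matrix: the spin at `i` is replaced by `s`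
with probability `e^{s h_i} / (2 cosh h_i)`, the other spins are kept. -/
noncomputable def heatBath {n : ℕ} (β : ℝ) (g : Pair n → ℝ) (i : Fin n) :
    Matrix (Config n) (Config n) ℝ :=
  fun x y => ∑ s : Bool, if y = Function.update x i s then
    Real.exp (spin s * localField β g x i) / (2 * Real.cosh (localField β g x i)) else 0

/-- The generator `∑_i (Q_i - I)`: every site is updated at rate one. -/
noncomputable def generator {n : ℕ} (β : ℝ) (g : Pair n → ℝ) :
    Matrix (Config n) (Config n) ℝ :=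
  ∑ i : Fin n, (heatBath β g i - 1)

/-- The continuous-time kernel `P_t = exp (t L)`. -/
noncomputable def kernel {n : ℕ} (β : ℝ) (g : Pair n → ℝ) (t : ℝ) :
    Matrix (Config n) (Config n) ℝ :=
  NormedSpace.exp (t • generator β g)

/-- The total variation distance `‖P_t(x, ·) - μ‖_TV`. -/
noncomputable def tvDist {n : ℕ} (β : ℝ) (g : Pair n → ℝ) (t : ℝ) (x : Config n) : ℝ :=
  (∑ y : Config n, |kernel β g t x y - gibbs β g y|) / 2

/-- The mixing time `t_mix = inf {t : max_x ‖P_t(x, ·) - μ‖_TV ≤ 1/4}`. -/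
noncomputable def mixingTime {n : ℕ} (β : ℝ) (g : Pair n → ℝ) : ℝ :=
  sInf {t : ℝ | 0 ≤ t ∧ ∀ x : Config n, tvDist β g t x ≤ 1 / 4}

/-- The expectation of `f` under `μ`. -/
noncomputable def expect {n : ℕ} (β : ℝ) (g : Pair n → ℝ) (f : Config n → ℝ) : ℝ :=
  ∑ x : Config n, gibbs β g x * f x

/-- The variance of `f` under `μ`. -/
noncomputable def variance {n : ℕ} (β : ℝ) (g : Pair n → ℝ) (f : Config n → ℝ) : ℝ :=
  expect β g (fun x => (f x - expect β g f) ^ 2)

/-- The Dirichlet form `⟨f, -L f⟩_μ`. -/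
noncomputable def dirichlet {n : ℕ} (β : ℝ) (g : Pair n → ℝ) (f : Config n → ℝ) : ℝ :=
  expect β g (fun x => f x * -(generator β g).mulVec f x)

/-- The spectral gap of `-L` on `L²(μ)`: the infimum of the Rayleigh quotient
`⟨f, -L f⟩_μ / Var_μ f` over all non-constant `f`. -/
noncomputable def spectralGap {n : ℕ} (β : ℝ) (g : Pair n → ℝ) : ℝ :=
  sInf {r : ℝ | ∃ f : Config n → ℝ, variance β g f ≠ 0 ∧ r = dirichlet β g f / variance β g f}

end Vale.Agent.P150
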