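import Mathlib

/-!
Gaussian integration by parts for finite products of standard Gaussians.
-/

namespace Vale.Agent.P150

open MeasureTheory ProbabilityTheory

/-- the standard Gaussian law on `ι → ℝ`. -/
noncomputable abbrev stdG (ι : Type*) [Fintype ι] : Measure (ι → ℝ) :=
  Measure.pi fun _ => gaussianReal 0 1

theorem integrable_exp_abs (C : ℝ) :
    Integrable (fun x : ℝ => Real.exp (C * |x|)) (gaussianReal 0 1) := by
  have h1 := (integrable_exp_mul_gaussianReal (μ := 0) (v := 1) C).add
    (integrable_exp_mul_gaussianReal (μ := 0) (v := 1) (-C))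
  refine h1.mono' (by fun_prop) (Filter.Eventually.of_forall fun x => ?_)
  simp only [Real.norm_eq_abs, Real.abs_exp, Pi.add_apply]
  rcases abs_cases x with ⟨h, _⟩ | ⟨h, _⟩ <;> rw [h]
  · have := Real.exp_pos (-C * x); linarith
  · have := Real.exp_pos (C * x)
    have h2 : C * -x = -C * x := by ring
    rw [h2]; linarith

theorem integrable_of_growth {u : ℝ → ℝ} (hu : Measurable u) {M C : ℝ}
    (hM : ∀ x, |u x| ≤ M * Real.exp (C * |x|)) : Integrable u (gaussianReal 0 1) :=
  ((integrable_exp_abs C).const_mul M).mono' hu.aestronglyMeasurable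
    (Filter.Eventually.of_forall fun x => by simpa using hM x)

theorem integrable_smul_pdf {u : ℝ → ℝ} (h : Integrable u (gaussianReal 0 1)) :
    Integrable (fun x => gaussianPDFReal 0 1 x * u x) := by
  rw [gaussianReal_of_var_ne_zero 0 (by norm_num : (1 : NNReal) ≠ 0)] at h
  rw [integrable_withDensity_iff_integrable_smul' (measurable_gaussianPDF 0 1)
    (Filter.Eventually.of_forall fun x => gaussianPDF_lt_top)] at h
  refine h.congr (Filter.Eventually.of_forall fun x => ?_)
  simp [toReal_gaussianPDF]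

theorem hasDerivAt_pdf (x : ℝ) :
    HasDerivAt (gaussianPDFReal 0 1) (-x * gaussianPDFReal 0 1 x) x := by
  have h : gaussianPDFReal 0 1 = fun x => (Real.sqrt (2 * Real.pi * (1 : NNReal)))⁻¹ *
      Real.exp (-(x - 0) ^ 2 / (2 * (1 : NNReal))) := by
    funext y; simp [gaussianPDFReal]
  rw [h]
  have h1 : HasDerivAt (fun x : ℝ => -(x - 0) ^ 2 / (2 * ((1 : NNReal) : ℝ))) (-x) x := by
    have h3 : HasDerivAt (fun x : ℝ => (x - 0) ^ 2) (2 * (x - 0)) x := by
      simpa using ((hasDerivAt_id' x).sub_const 0).fun_pow 2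
    have := h3.neg.div_const (2 * ((1 : NNReal) : ℝ))
    have e : -(2 * (x - 0)) / (2 * ((1 : NNReal) : ℝ)) = -x := by
      simp only [NNReal.coe_one]; ring
    rwa [e] at this
  have h2 := (h1.exp).const_mul ((Real.sqrt (2 * Real.pi * (1 : NNReal)))⁻¹)
  have e : (Real.sqrt (2 * Real.pi * (1 : NNReal)))⁻¹ *
      (Real.exp (-(x - 0) ^ 2 / (2 * ((1 : NNReal) : ℝ))) * -x) =
      -x * (fun x => (Real.sqrt (2 * Real.pi * (1 : NNReal)))⁻¹ *
      Real.exp (-(x - 0) ^ 2 / (2 * (1 : NNReal)))) x := by
    simp only; ring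
  rwa [e] at h2

theorem stein_one {u u' : ℝ → ℝ} (hu : Measurable u) (hu' : Measurable u')
    (hd : ∀ x, HasDerivAt u (u' x) x) {M C : ℝ}
    (hM : ∀ x, |u x| ≤ M * Real.exp (C * |x|)) (hM' : ∀ x, |u' x| ≤ M * Real.exp (C * |x|)) :
    ∫ x, x * u x ∂(gaussianReal 0 1) = ∫ x, u' x ∂(gaussianReal 0 1) := by
  have hMx : ∀ x, |x * u x| ≤ M * Real.exp ((C + 1) * |x|) := by
    intro x
    have h0 : |x| ≤ Real.exp |x| := (by linarith [Real.add_one_le_exp |x|])
    have h1 : (0 : ℝ) ≤ M * Real.exp (C * |x|) := (abs_nonneg _).trans (hM x)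
    rw [abs_mul]
    calc |x| * |u x| ≤ Real.exp |x| * (M * Real.exp (C * |x|)) :=
          mul_le_mul h0 (hM x) (abs_nonneg _) (Real.exp_pos _).le
      _ = M * Real.exp ((C + 1) * |x|) := by
          rw [add_mul, one_mul, Real.exp_add]; ring
  have i1 := integrable_smul_pdf (integrable_of_growth hu hM)
  have i2 := integrable_smul_pdf (integrable_of_growth hu' hM')
  have i3 := integrable_smul_pdf (integrable_of_growth (u := fun x => x * u x)
    (measurable_id.mul hu) hMx)
  rw [integral_gaussianReal_eq_integral_smul (by norm_num),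
    integral_gaussianReal_eq_integral_smul (by norm_num)]
  have key := integral_mul_deriv_eq_deriv_mul_of_integrable (u := u)
    (v := gaussianPDFReal 0 1) (u' := u') (v' := fun x => -x * gaussianPDFReal 0 1 x)
    (fun x _ => hd x) (fun x _ => hasDerivAt_pdf x)
    (by
      refine (i3.neg).congr (Filter.Eventually.of_forall fun x => ?_)
      simp only [Pi.neg_apply, Pi.mul_apply]; ring)
    (by
      refine i2.congr (Filter.Eventually.of_forall fun x => ?_)
      simp only [Pi.mul_apply]; ring)
    (by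
      refine i1.congr (Filter.Eventually.of_forall fun x => ?_)
      simp only [Pi.mul_apply]; ring)
  have e1 : ∫ x, gaussianPDFReal 0 1 x • (x * u x) =
      - ∫ x, u x * (-x * gaussianPDFReal 0 1 x) := by
    rw [← integral_neg]
    congr 1; funext x; simp only [smul_eq_mul]; ring
  have e2 : ∫ x, gaussianPDFReal 0 1 x • (u' x) = ∫ x, u' x * gaussianPDFReal 0 1 x := by
    congr 1; funext x; simp only [smul_eq_mul]; ring
  rw [e1, key, e2, neg_neg]

section Multi

variable {ι : Type*} [Fintype ι] [DecidableEq ι]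

theorem measurePreserving_update (k : ι) :
    MeasurePreserving (fun p : (ι → ℝ) × ℝ => Function.update p.1 k p.2)
      ((stdG ι).prod (gaussianReal 0 1)) (stdG ι) := by
  have hm : Measurable (fun p : (ι → ℝ) × ℝ => Function.update p.1 k p.2) := by
    refine measurable_pi_iff.2 fun i => ?_
    by_cases hi : i = k
    · subst hi; simpa using measurable_snd
    · simp only [Function.update_of_ne hi]; fun_prop
  refine ⟨hm, ?_⟩
  symm
  refine Measure.pi_eq fun s hs => ?_
  rw [Measure.map_apply hm (MeasurableSet.univ_pi hs)]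
  have hpre : (fun p : (ι → ℝ) × ℝ => Function.update p.1 k p.2) ⁻¹' (Set.univ.pi s) =
      (Set.univ.pi (Function.update s k Set.univ)) ×ˢ (s k) := by
    ext p
    simp only [Set.mem_preimage, Set.mem_pi, Set.mem_univ, forall_true_left, Set.mem_prod]
    constructor
    · intro h
      refine ⟨fun i => ?_, by simpa using h k⟩
      by_cases hi : i = k
      · subst hi; simp
      · simpa [hi] using h i
    · rintro ⟨h1, h2⟩ i
      by_cases hi : i = k
      · subst hi; simpa using h2
      · simpa [hi] using h1 i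
  rw [hpre, Measure.prod_prod, Measure.pi_pi]
  rw [← Finset.mul_prod_erase Finset.univ _ (Finset.mem_univ k),
    ← Finset.mul_prod_erase Finset.univ (fun i => (gaussianReal 0 1) (s i)) (Finset.mem_univ k)]
  have : ∏ x ∈ Finset.univ.erase k, (gaussianReal 0 1) (Function.update s k Set.univ x) =
      ∏ x ∈ Finset.univ.erase k, (gaussianReal 0 1) (s x) := by
    refine Finset.prod_congr rfl fun i hi => ?_
    rw [Function.update_of_ne (Finset.ne_of_mem_erase hi)]
  rw [this]
  simp [mul_comm]

omit [DecidableEq ι] in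
theorem integrable_exp_sum_abs (C : ℝ) :
    Integrable (fun x : ι → ℝ => Real.exp (C * ∑ i, |x i|)) (stdG ι) := by
  have h := Integrable.fintype_prod (ι := ι) (𝕜 := ℝ) (f := fun _ (x : ℝ) => Real.exp (C * |x|))
    (μ := fun _ => gaussianReal 0 1) (fun _ => integrable_exp_abs C)
  refine h.congr (Filter.Eventually.of_forall fun x => ?_)
  simp only [Finset.mul_sum, Real.exp_sum]

omit [DecidableEq ι] in
theorem integrable_of_growth_pi {f : (ι → ℝ) → ℝ} (hf : Measurable f) {M C : ℝ}
    (hM : ∀ x, |f x| ≤ M * Real.exp (C * ∑ i, |x i|)) : Integrable f (stdG ι) :=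
  ((integrable_exp_sum_abs C).const_mul M).mono' hf.aestronglyMeasurable
    (Filter.Eventually.of_forall fun x => by simpa using hM x)

theorem integral_update (k : ι) {f : (ι → ℝ) → ℝ} (hf : Measurable f)
    (hi : Integrable f (stdG ι)) :
    ∫ x, f x ∂(stdG ι) = ∫ x, ∫ t, f (Function.update x k t) ∂(gaussianReal 0 1) ∂(stdG ι) := by
  have hmp := measurePreserving_update (ι := ι) k
  conv_lhs => rw [← hmp.map_eq]
  rw [integral_map hmp.measurable.aemeasurable hf.aestronglyMeasurable, integral_prod]
  exact hmp.integrable_comp_of_integrable hi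

theorem sum_abs_update_le (k : ι) (x : ι → ℝ) (t : ℝ) :
    ∑ i, |Function.update x k t i| ≤ ∑ i, |x i| + |t| := by
  have h1 : ∑ i, |Function.update x k t i| ≤ ∑ i, (|x i| + if i = k then |t| else 0) := by
    refine Finset.sum_le_sum fun i _ => ?_
    by_cases hi : i = k
    · subst hi; simp
    · simp [hi]
  refine h1.trans ?_
  rw [Finset.sum_add_distrib]; simp

/-- Gaussian integration by parts. -/
theorem stein_pi (k : ι) {f f' : (ι → ℝ) → ℝ} (hf : Measurable f) (hf' : Measurable f')
    (hd : ∀ x, ∀ t, HasDerivAt (fun s => f (Function.update x k s))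
      (f' (Function.update x k t)) t)
    {M C : ℝ} (hC : 0 ≤ C)
    (hM : ∀ x, |f x| ≤ M * Real.exp (C * ∑ i, |x i|))
    (hM' : ∀ x, |f' x| ≤ M * Real.exp (C * ∑ i, |x i|)) :
    ∫ x, x k * f x ∂(stdG ι) = ∫ x, f' x ∂(stdG ι) := by
  have hM0 : 0 ≤ M := by
    have := (abs_nonneg _).trans (hM 0)
    exact nonneg_of_mul_nonneg_left this (Real.exp_pos _)
  have hmk : Measurable fun x : ι → ℝ => x k := measurable_pi_apply k
  have hMx : ∀ x : ι → ℝ, |x k * f x| ≤ M * Real.exp ((C + 1) * ∑ i, |x i|) := by
    intro x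
    have h0 : |x k| ≤ Real.exp (∑ i, |x i|) := by
      have h1 : |x k| ≤ ∑ i, |x i| :=
        Finset.single_le_sum (f := fun i => |x i|) (fun i _ => abs_nonneg _) (Finset.mem_univ k)
      linarith [Real.add_one_le_exp (∑ i, |x i|)]
    rw [abs_mul]
    calc |x k| * |f x| ≤ Real.exp (∑ i, |x i|) * (M * Real.exp (C * ∑ i, |x i|)) :=
          mul_le_mul h0 (hM x) (abs_nonneg _) (Real.exp_pos _).le
      _ = M * Real.exp ((C + 1) * ∑ i, |x i|) := by
          rw [add_mul, one_mul, Real.exp_add]; ring
  have hmf : Measurable fun x : ι → ℝ => x k * f x := hmk.mul hf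
  rw [integral_update k (f := fun x => x k * f x) hmf (integrable_of_growth_pi hmf hMx),
    integral_update k hf' (integrable_of_growth_pi hf' hM')]
  congr 1; funext x
  have hmu : Measurable fun s : ℝ => Function.update x k s := measurable_update x
  have hbd : ∀ (g : (ι → ℝ) → ℝ), (∀ x, |g x| ≤ M * Real.exp (C * ∑ i, |x i|)) → ∀ s,
      |g (Function.update x k s)| ≤ (M * Real.exp (C * ∑ i, |x i|)) * Real.exp (C * |s|) := by
    intro g hg s
    refine (hg _).trans ?_
    rw [mul_assoc, ← Real.exp_add, ← mul_add]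
    exact mul_le_mul_of_nonneg_left (Real.exp_le_exp.2
      (mul_le_mul_of_nonneg_left (sum_abs_update_le k x s) hC)) hM0
  have := stein_one (u := fun s => f (Function.update x k s))
    (u' := fun s => f' (Function.update x k s)) (hf.comp hmu) (hf'.comp hmu)
    (fun t => hd x t) (hbd f hM) (hbd f' hM')
  simpa using this

end Multi

end Vale.Agent.P150
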