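import Mathlib
import Vale.Agent.Lib.P150.Stein

/-!
A Gaussian comparison inequality of Kahane / Sudakov-Fernique type for
`(∑ exp (b X_v)) ^ p`, `0 < p ≤ 1`.
-/

namespace Vale.Agent.P150

open MeasureTheory ProbabilityTheory

section Calc

variable {T : Type*} [Fintype T]

/-- the partition function. -/
noncomputable def partS (b : ℝ) (z : T → ℝ) : ℝ := ∑ v, Real.exp (b * z v)

theorem partS_pos [Nonempty T] (b : ℝ) (z : T → ℝ) : 0 < partS b z :=
  Finset.sum_pos (fun _ _ => Real.exp_pos _) Finset.univ_nonempty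

theorem hasDerivAt_partS (b : ℝ) {z : ℝ → T → ℝ} {z' : T → ℝ} {t : ℝ}
    (hz : ∀ v, HasDerivAt (fun s => z s v) (z' v) t) :
    HasDerivAt (fun s => partS b (z s)) (∑ v, Real.exp (b * z t v) * (b * z' v)) t := by
  unfold partS
  refine HasDerivAt.fun_sum fun v _ => ?_
  exact ((hz v).const_mul b).exp

theorem hasDerivAt_partS_rpow [Nonempty T] (b p : ℝ) {z : ℝ → T → ℝ} {z' : T → ℝ} {t : ℝ}
    (hz : ∀ v, HasDerivAt (fun s => z s v) (z' v) t) :
    HasDerivAt (fun s => partS b (z s) ^ p)
      ((∑ v, Real.exp (b * z t v) * (b * z' v)) * p * partS b (z t) ^ (p - 1)) t :=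
  (hasDerivAt_partS b hz).rpow_const (Or.inl (partS_pos b (z t)).ne')

theorem hasDerivAt_G [Nonempty T] (b p : ℝ) {z : ℝ → T → ℝ} {z' : T → ℝ} {t : ℝ} (v : T)
    (hz : ∀ v, HasDerivAt (fun s => z s v) (z' v) t) :
    HasDerivAt (fun s => Real.exp (b * z s v) * partS b (z s) ^ (p - 1))
      (Real.exp (b * z t v) * (b * z' v) * partS b (z t) ^ (p - 1) +
        Real.exp (b * z t v) * ((∑ w, Real.exp (b * z t w) * (b * z' w)) * (p - 1) *
          partS b (z t) ^ (p - 2))) t := by
  have h1 := ((hz v).const_mul b).exp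
  have h2 := hasDerivAt_partS_rpow b (p - 1) hz
  have h3 := h1.fun_mul h2
  have e : p - 1 - 1 = p - 2 := by ring
  rw [e] at h3
  exact h3

theorem exp_le_partS (b : ℝ) (z : T → ℝ) (v : T) : Real.exp (b * z v) ≤ partS b z :=
  Finset.single_le_sum (f := fun v => Real.exp (b * z v)) (fun _ _ => (Real.exp_pos _).le)
    (Finset.mem_univ v)

theorem partS_rpow_le [Nonempty T] {b p : ℝ} (hb : 0 ≤ b) (hp0 : 0 ≤ p) (hp1 : p ≤ 1)
    (z : T → ℝ) {R : ℝ} (hR : 0 ≤ R) (hz : ∀ v, |z v| ≤ R) :
    partS b z ^ p ≤ Fintype.card T * Real.exp (b * R) := by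
  have h1 : partS b z ≤ Fintype.card T * Real.exp (b * R) := by
    unfold partS
    calc ∑ v, Real.exp (b * z v) ≤ ∑ _v : T, Real.exp (b * R) := by
          refine Finset.sum_le_sum fun v _ => Real.exp_le_exp.2 ?_
          exact mul_le_mul_of_nonneg_left ((le_abs_self _).trans (hz v)) hb
      _ = _ := by simp
  have hc : (1 : ℝ) ≤ Fintype.card T := by exact_mod_cast Fintype.card_pos
  have h2 : (1 : ℝ) ≤ Fintype.card T * Real.exp (b * R) := by
    have : (1 : ℝ) ≤ Real.exp (b * R) := Real.one_le_exp (mul_nonneg hb hR)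
    nlinarith
  calc partS b z ^ p ≤ (Fintype.card T * Real.exp (b * R)) ^ p :=
        Real.rpow_le_rpow (partS_pos b z).le h1 hp0
    _ ≤ (Fintype.card T * Real.exp (b * R)) ^ (1 : ℝ) :=
        Real.rpow_le_rpow_of_exponent_le h2 hp1
    _ = _ := Real.rpow_one _

theorem G_le [Nonempty T] (b p : ℝ) (z : T → ℝ) (v : T) :
    Real.exp (b * z v) * partS b z ^ (p - 1) ≤ partS b z ^ p := by
  have h := partS_pos b z
  calc Real.exp (b * z v) * partS b z ^ (p - 1) ≤ partS b z * partS b z ^ (p - 1) :=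
        mul_le_mul_of_nonneg_right (exp_le_partS b z v) (Real.rpow_nonneg h.le _)
    _ = partS b z ^ p := by
        rw [Real.rpow_sub_one h.ne']; field_simp

theorem sum_exp_mul_abs_le [Nonempty T] {b : ℝ} (hb : 0 ≤ b) (z z' : T → ℝ) {R : ℝ}
    (hz' : ∀ v, |z' v| ≤ R) :
    |∑ w, Real.exp (b * z w) * (b * z' w)| ≤ b * R * partS b z := by
  refine (Finset.abs_sum_le_sum_abs _ _).trans ?_
  unfold partS
  rw [Finset.mul_sum]
  refine Finset.sum_le_sum fun w _ => ?_
  rw [abs_mul, Real.abs_exp, abs_mul, abs_of_nonneg hb]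
  have := mul_le_mul_of_nonneg_left (hz' w) hb
  have h2 := mul_le_mul_of_nonneg_left this (Real.exp_pos (b * z w)).le
  linarith

theorem G'_le [Nonempty T] {b p : ℝ} (hb : 0 ≤ b) (hp0 : 0 ≤ p) (hp1 : p ≤ 1)
    (z z' : T → ℝ) (v : T) {R : ℝ} (hz' : ∀ v, |z' v| ≤ R) :
    |Real.exp (b * z v) * (b * z' v) * partS b z ^ (p - 1) +
        Real.exp (b * z v) * ((∑ w, Real.exp (b * z w) * (b * z' w)) * (p - 1) *
          partS b z ^ (p - 2))| ≤ 2 * (b * R) * partS b z ^ p := by
  have h := partS_pos b z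
  have hR : 0 ≤ R := (abs_nonneg _).trans (hz' v)
  have hg := G_le b p z v
  have hS1 : partS b z ^ (p - 1) = partS b z * partS b z ^ (p - 2) := by
    have : p - 2 = (p - 1) - 1 := by ring
    rw [this, Real.rpow_sub_one h.ne' (p - 1), mul_div_cancel₀ _ h.ne']
  have e1 : |Real.exp (b * z v) * (b * z' v) * partS b z ^ (p - 1)| ≤
      (b * R) * partS b z ^ p := by
    rw [abs_mul, abs_mul, Real.abs_exp, abs_mul, abs_of_nonneg hb,
      abs_of_nonneg (Real.rpow_nonneg h.le _)]
    calc Real.exp (b * z v) * (b * |z' v|) * partS b z ^ (p - 1) =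
        (b * |z' v|) * (Real.exp (b * z v) * partS b z ^ (p - 1)) := by ring
      _ ≤ (b * R) * partS b z ^ p := by
        refine mul_le_mul (mul_le_mul_of_nonneg_left (hz' v) hb) hg ?_ (mul_nonneg hb hR)
        exact mul_nonneg (Real.exp_pos _).le (Real.rpow_nonneg h.le _)
  have e2 : |Real.exp (b * z v) * ((∑ w, Real.exp (b * z w) * (b * z' w)) * (p - 1) *
          partS b z ^ (p - 2))| ≤ (b * R) * partS b z ^ p := by
    have hp : |p - 1| ≤ 1 := by rw [abs_le]; constructor <;> linarith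
    rw [abs_mul, abs_mul, abs_mul, Real.abs_exp, abs_of_nonneg (Real.rpow_nonneg h.le (p - 2))]
    have h3 := sum_exp_mul_abs_le hb z z' hz'
    have h4 : |∑ w, Real.exp (b * z w) * (b * z' w)| * |p - 1| ≤ b * R * partS b z * 1 :=
      mul_le_mul h3 hp (abs_nonneg _) (mul_nonneg (mul_nonneg hb hR) h.le)
    have h5 : Real.exp (b * z v) * (|∑ w, Real.exp (b * z w) * (b * z' w)| * |p - 1| *
        partS b z ^ (p - 2)) ≤ Real.exp (b * z v) * ((b * R * partS b z * 1) *
        partS b z ^ (p - 2)) :=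
      mul_le_mul_of_nonneg_left (mul_le_mul_of_nonneg_right h4 (Real.rpow_nonneg h.le _))
        (Real.exp_pos _).le
    refine h5.trans ?_
    calc Real.exp (b * z v) * ((b * R * partS b z * 1) * partS b z ^ (p - 2)) =
        (b * R) * (Real.exp (b * z v) * (partS b z * partS b z ^ (p - 2))) := by ring
      _ = (b * R) * (Real.exp (b * z v) * partS b z ^ (p - 1)) := by rw [hS1]
      _ ≤ _ := mul_le_mul_of_nonneg_left hg (mul_nonneg hb hR)
  refine (abs_add_le _ _).trans ?_
  linarith

end Calc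

section Kahane

variable {ι T : Type*} [Fintype ι] [Fintype T]

/-- the interpolating coefficients. -/
noncomputable def rotL (a c : T → ι → ℝ) (θ : ℝ) (v : T) (k : ι) : ℝ :=
  Real.cos θ * a v k + Real.sin θ * c v k

/-- the derivative of the interpolating coefficients. -/
noncomputable def rotL' (a c : T → ι → ℝ) (θ : ℝ) (v : T) (k : ι) : ℝ :=
  -Real.sin θ * a v k + Real.cos θ * c v k

/-- the interpolating process. -/
noncomputable def rotZ (a c : T → ι → ℝ) (θ : ℝ) (g : ι → ℝ) (v : T) : ℝ :=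
  ∑ k, rotL a c θ v k * g k

noncomputable def rotZ' (a c : T → ι → ℝ) (θ : ℝ) (g : ι → ℝ) (v : T) : ℝ :=
  ∑ k, rotL' a c θ v k * g k

/-- a bound for all the coefficients. -/
noncomputable def coefB (a c : T → ι → ℝ) : ℝ := ∑ v, ∑ k, (|a v k| + |c v k|)

theorem coefB_nonneg (a c : T → ι → ℝ) : 0 ≤ coefB a c :=
  Finset.sum_nonneg fun _ _ => Finset.sum_nonneg fun _ _ => by positivity

theorem le_coefB (a c : T → ι → ℝ) (v : T) (k : ι) : |a v k| + |c v k| ≤ coefB a c := by
  unfold coefB
  calc |a v k| + |c v k| ≤ ∑ k, (|a v k| + |c v k|) :=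
        Finset.single_le_sum (f := fun k => |a v k| + |c v k|) (fun _ _ => by positivity)
          (Finset.mem_univ k)
    _ ≤ _ := Finset.single_le_sum (f := fun v => ∑ k, (|a v k| + |c v k|))
        (fun _ _ => Finset.sum_nonneg fun _ _ => by positivity) (Finset.mem_univ v)

theorem abs_rotL_le (a c : T → ι → ℝ) (θ : ℝ) (v : T) (k : ι) : |rotL a c θ v k| ≤ coefB a c := by
  refine le_trans ?_ (le_coefB a c v k)
  unfold rotL
  refine (abs_add_le _ _).trans ?_
  rw [abs_mul, abs_mul]
  have h1 := Real.abs_cos_le_one θ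
  have h2 := Real.abs_sin_le_one θ
  nlinarith [abs_nonneg (a v k), abs_nonneg (c v k)]

theorem abs_rotL'_le (a c : T → ι → ℝ) (θ : ℝ) (v : T) (k : ι) :
    |rotL' a c θ v k| ≤ coefB a c := by
  refine le_trans ?_ (le_coefB a c v k)
  unfold rotL'
  refine (abs_add_le _ _).trans ?_
  rw [abs_mul, abs_mul, abs_neg]
  have h1 := Real.abs_cos_le_one θ
  have h2 := Real.abs_sin_le_one θ
  nlinarith [abs_nonneg (a v k), abs_nonneg (c v k)]

theorem abs_rotZ_le (a c : T → ι → ℝ) (θ : ℝ) (g : ι → ℝ) (v : T) :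
    |rotZ a c θ g v| ≤ coefB a c * ∑ k, |g k| := by
  unfold rotZ
  refine (Finset.abs_sum_le_sum_abs _ _).trans ?_
  rw [Finset.mul_sum]
  refine Finset.sum_le_sum fun k _ => ?_
  rw [abs_mul]
  exact mul_le_mul_of_nonneg_right (abs_rotL_le a c θ v k) (abs_nonneg _)

theorem abs_rotZ'_le (a c : T → ι → ℝ) (θ : ℝ) (g : ι → ℝ) (v : T) :
    |rotZ' a c θ g v| ≤ coefB a c * ∑ k, |g k| := by
  unfold rotZ'
  refine (Finset.abs_sum_le_sum_abs _ _).trans ?_
  rw [Finset.mul_sum]
  refine Finset.sum_le_sum fun k _ => ?_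
  rw [abs_mul]
  exact mul_le_mul_of_nonneg_right (abs_rotL'_le a c θ v k) (abs_nonneg _)

omit [Fintype T] in
theorem hasDerivAt_rotZ (a c : T → ι → ℝ) (θ : ℝ) (g : ι → ℝ) (v : T) :
    HasDerivAt (fun s => rotZ a c s g v) (rotZ' a c θ g v) θ := by
  unfold rotZ rotZ'
  refine HasDerivAt.fun_sum fun k _ => ?_
  refine HasDerivAt.mul_const ?_ _
  unfold rotL rotL'
  exact ((Real.hasDerivAt_cos θ).mul_const _).add ((Real.hasDerivAt_sin θ).mul_const _)

omit [Fintype T] in
theorem continuous_rotZ (a c : T → ι → ℝ) (θ : ℝ) (v : T) :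
    Continuous fun g : ι → ℝ => rotZ a c θ g v := by
  unfold rotZ; fun_prop

omit [Fintype T] in
theorem continuous_rotZ' (a c : T → ι → ℝ) (θ : ℝ) (v : T) :
    Continuous fun g : ι → ℝ => rotZ' a c θ g v := by
  unfold rotZ'; fun_prop

theorem continuous_partS_rot [Nonempty T] (a c : T → ι → ℝ) (b p θ : ℝ) :
    Continuous fun g : ι → ℝ => partS b (rotZ a c θ g) ^ p := by
  have h : Continuous fun g : ι → ℝ => partS b (rotZ a c θ g) := by
    unfold partS
    refine continuous_finsetSum _ fun v _ => ?_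
    exact Real.continuous_exp.comp (continuous_const.mul (continuous_rotZ a c θ v))
  exact h.rpow_const fun g => Or.inl (partS_pos b _).ne'

omit [Fintype T] in
theorem rotZ_update [DecidableEq ι] (a c : T → ι → ℝ) (θ : ℝ) (g : ι → ℝ) (k : ι) (v : T)
    (t : ℝ) :
    HasDerivAt (fun s => rotZ a c θ (Function.update g k s) v) (rotL a c θ v k) t := by
  unfold rotZ
  have h : (fun s => ∑ j, rotL a c θ v j * Function.update g k s j) = fun s =>
      rotL a c θ v k * s + ∑ j ∈ Finset.univ.erase k, rotL a c θ v j * g j := by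
    funext s
    rw [← Finset.add_sum_erase Finset.univ _ (Finset.mem_univ k)]
    congr 1
    · simp
    · refine Finset.sum_congr rfl fun j hj => ?_
      rw [Function.update_of_ne (Finset.ne_of_mem_erase hj)]
  rw [h]
  simpa using ((hasDerivAt_id t).const_mul (rotL a c θ v k)).add_const
    (∑ j ∈ Finset.univ.erase k, rotL a c θ v j * g j)

theorem partS_rot_le [Nonempty T] (a c : T → ι → ℝ) {b p : ℝ} (hb : 0 ≤ b) (hp0 : 0 ≤ p)
    (hp1 : p ≤ 1) (θ : ℝ) (g : ι → ℝ) :
    partS b (rotZ a c θ g) ^ p ≤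
      Fintype.card T * Real.exp (b * coefB a c * ∑ k, |g k|) := by
  have h := partS_rpow_le hb hp0 hp1 (rotZ a c θ g)
    (R := coefB a c * ∑ k, |g k|)
    (mul_nonneg (coefB_nonneg a c) (Finset.sum_nonneg fun _ _ => abs_nonneg _))
    (abs_rotZ_le a c θ g)
  rwa [mul_assoc]

/-- Gaussian integration by parts for one term. -/
theorem ibp_term [Nonempty T] (a c : T → ι → ℝ) {b p : ℝ} (hb : 0 ≤ b) (hp0 : 0 ≤ p)
    (hp1 : p ≤ 1) (θ : ℝ) (v : T) (k : ι) :
    ∫ g, g k * (Real.exp (b * rotZ a c θ g v) * partS b (rotZ a c θ g) ^ (p - 1)) ∂(stdG ι) =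
    ∫ g, (Real.exp (b * rotZ a c θ g v) * (b * rotL a c θ v k) *
        partS b (rotZ a c θ g) ^ (p - 1) +
        Real.exp (b * rotZ a c θ g v) *
          ((∑ w, Real.exp (b * rotZ a c θ g w) * (b * rotL a c θ w k)) * (p - 1) *
          partS b (rotZ a c θ g) ^ (p - 2))) ∂(stdG ι) := by
  classical
  set B := coefB a c with hB
  have hB0 : 0 ≤ B := coefB_nonneg a c
  have hcS : ∀ q : ℝ, Continuous fun g : ι → ℝ => partS b (rotZ a c θ g) ^ q := fun q =>
    continuous_partS_rot a c b q θ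
  have hcE : ∀ v, Continuous fun g : ι → ℝ => Real.exp (b * rotZ a c θ g v) := fun v =>
    Real.continuous_exp.comp (continuous_const.mul (continuous_rotZ a c θ v))
  refine stein_pi k (M := (1 + 2 * (b * B)) * Fintype.card T) (C := b * B) ?_ ?_ ?_
    (mul_nonneg hb hB0) ?_ ?_
  · exact ((hcE v).mul (hcS _)).measurable
  · refine Continuous.measurable ?_
    refine (((hcE v).mul continuous_const).mul (hcS _)).add ((hcE v).mul ?_)
    refine Continuous.mul (Continuous.mul ?_ continuous_const) (hcS _)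
    exact continuous_finsetSum _ fun w _ => (hcE w).mul continuous_const
  · intro x t
    exact hasDerivAt_G b p v (fun w => rotZ_update a c θ x k w t)
  · intro x
    have h1 := G_le b p (rotZ a c θ x) v
    have h2 := partS_rot_le a c hb hp0 hp1 θ x
    have h3 : 0 ≤ Real.exp (b * rotZ a c θ x v) * partS b (rotZ a c θ x) ^ (p - 1) :=
      mul_nonneg (Real.exp_pos _).le (Real.rpow_nonneg (partS_pos _ _).le _)
    rw [abs_of_nonneg h3]
    have h4 : 0 ≤ (2 * (b * B)) * (Fintype.card T * Real.exp (b * B * ∑ i, |x i|)) := by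
      positivity
    nlinarith
  · intro x
    have h1 := G'_le hb hp0 hp1 (rotZ a c θ x) (fun w => rotL a c θ w k) v (R := B)
      (fun w => abs_rotL_le a c θ w k)
    have h2 := partS_rot_le a c hb hp0 hp1 θ x
    have h3 : 2 * (b * B) * partS b (rotZ a c θ x) ^ p ≤
        2 * (b * B) * (Fintype.card T * Real.exp (b * B * ∑ i, |x i|)) :=
      mul_le_mul_of_nonneg_left h2 (by positivity)
    have h4 : 0 ≤ Fintype.card T * Real.exp (b * B * ∑ i, |x i|) := by positivity
    nlinarith

theorem integrable_ibp_left [Nonempty T] (a c : T → ι → ℝ) {b p : ℝ} (hb : 0 ≤ b)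
    (hp0 : 0 ≤ p) (hp1 : p ≤ 1) (θ : ℝ) (v : T) (k : ι) :
    Integrable (fun g : ι → ℝ => g k *
      (Real.exp (b * rotZ a c θ g v) * partS b (rotZ a c θ g) ^ (p - 1))) (stdG ι) := by
  have hcS : Continuous fun g : ι → ℝ => partS b (rotZ a c θ g) ^ (p - 1) :=
    continuous_partS_rot a c b _ θ
  have hcE : Continuous fun g : ι → ℝ => Real.exp (b * rotZ a c θ g v) :=
    Real.continuous_exp.comp (continuous_const.mul (continuous_rotZ a c θ v))
  refine integrable_of_growth_pi (M := Fintype.card T) (C := b * coefB a c + 1) ?_ fun x => ?_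
  · exact ((continuous_apply k).mul (hcE.mul hcS)).measurable
  · have h0 : |x k| ≤ Real.exp (∑ i, |x i|) := by
      have h1 : |x k| ≤ ∑ i, |x i| :=
        Finset.single_le_sum (f := fun i => |x i|) (fun i _ => abs_nonneg _) (Finset.mem_univ k)
      linarith [Real.add_one_le_exp (∑ i, |x i|)]
    have h3 : 0 ≤ Real.exp (b * rotZ a c θ x v) * partS b (rotZ a c θ x) ^ (p - 1) :=
      mul_nonneg (Real.exp_pos _).le (Real.rpow_nonneg (partS_pos _ _).le _)
    rw [abs_mul, abs_of_nonneg h3]
    calc _ ≤ Real.exp (∑ i, |x i|) *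
        (Fintype.card T * Real.exp (b * coefB a c * ∑ k, |x k|)) :=
          mul_le_mul h0 ((G_le b p _ v).trans (partS_rot_le a c hb hp0 hp1 θ x)) h3
            (Real.exp_pos _).le
      _ = _ := by rw [add_mul, one_mul, Real.exp_add]; ring

theorem integrable_ibp_right [Nonempty T] (a c : T → ι → ℝ) {b p : ℝ} (hb : 0 ≤ b)
    (hp0 : 0 ≤ p) (hp1 : p ≤ 1) (θ : ℝ) (v : T) (k : ι) :
    Integrable (fun g : ι → ℝ => (Real.exp (b * rotZ a c θ g v) * (b * rotL a c θ v k) *
        partS b (rotZ a c θ g) ^ (p - 1) +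
        Real.exp (b * rotZ a c θ g v) *
          ((∑ w, Real.exp (b * rotZ a c θ g w) * (b * rotL a c θ w k)) * (p - 1) *
          partS b (rotZ a c θ g) ^ (p - 2)))) (stdG ι) := by
  have hcS : ∀ q : ℝ, Continuous fun g : ι → ℝ => partS b (rotZ a c θ g) ^ q := fun q =>
    continuous_partS_rot a c b q θ
  have hcE : ∀ v, Continuous fun g : ι → ℝ => Real.exp (b * rotZ a c θ g v) := fun v =>
    Real.continuous_exp.comp (continuous_const.mul (continuous_rotZ a c θ v))
  refine integrable_of_growth_pi (M := 2 * (b * coefB a c) * Fintype.card T)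
    (C := b * coefB a c) ?_ fun x => ?_
  · refine Continuous.measurable ?_
    refine (((hcE v).mul continuous_const).mul (hcS _)).add ((hcE v).mul ?_)
    refine Continuous.mul (Continuous.mul ?_ continuous_const) (hcS _)
    exact continuous_finsetSum _ fun w _ => (hcE w).mul continuous_const
  · have h1 := G'_le hb hp0 hp1 (rotZ a c θ x) (fun w => rotL a c θ w k) v (R := coefB a c)
      (fun w => abs_rotL_le a c θ w k)
    have h2 := partS_rot_le a c hb hp0 hp1 θ x
    have hB0 := coefB_nonneg a c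
    have h3 : 2 * (b * coefB a c) * partS b (rotZ a c θ x) ^ p ≤
        2 * (b * coefB a c) * (Fintype.card T * Real.exp (b * coefB a c * ∑ i, |x i|)) :=
      mul_le_mul_of_nonneg_left h2 (by positivity)
    refine (h1.trans h3).trans (le_of_eq ?_)
    ring

/-- the pointwise integrand of the derivative after integration by parts is nonnegative. -/
theorem pointwise_nonneg [Nonempty T] (a c : T → ι → ℝ)
    (horth : ∀ v w, ∑ k, a v k * c w k = 0)
    (hvar : ∀ v, ∑ k, a v k ^ 2 ≤ ∑ k, c v k ^ 2)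
    (hinc : ∀ v w, ∑ k, (a v k - a w k) ^ 2 ≤ ∑ k, (c v k - c w k) ^ 2)
    {b p : ℝ} (hb : 0 ≤ b) (hp0 : 0 ≤ p) (hp1 : p ≤ 1) {θ : ℝ} (hs : 0 ≤ Real.sin θ)
    (hc : 0 ≤ Real.cos θ) (z : T → ℝ) :
    0 ≤ ∑ v, ∑ k, rotL' a c θ v k * (Real.exp (b * z v) * (b * rotL a c θ v k) *
        partS b z ^ (p - 1) +
        Real.exp (b * z v) *
          ((∑ w, Real.exp (b * z w) * (b * rotL a c θ w k)) * (p - 1) *
          partS b z ^ (p - 2))) := by
  have hS := partS_pos b z
  set sc := Real.sin θ * Real.cos θ with hsc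
  have hsc0 : 0 ≤ sc := mul_nonneg hs hc
  set A : T → T → ℝ := fun v w => ∑ k, a v k * a w k with hA
  set C : T → T → ℝ := fun v w => ∑ k, c v k * c w k with hC
  have hM : ∀ v w, ∑ k, rotL' a c θ v k * rotL a c θ w k = sc * (C v w - A v w) := by
    intro v w
    have e : ∀ k, rotL' a c θ v k * rotL a c θ w k =
        Real.sin θ * Real.cos θ * (c v k * c w k) - Real.sin θ * Real.cos θ * (a v k * a w k)
        + Real.cos θ ^ 2 * (a w k * c v k) - Real.sin θ ^ 2 * (a v k * c w k) := by
      intro k; unfold rotL rotL'; ring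
    simp only [e, Finset.sum_sub_distrib, Finset.sum_add_distrib, ← Finset.mul_sum]
    rw [horth w v, horth v w]
    simp only [hA, hC, hsc]; ring
  have hS1 : partS b z ^ (p - 1) = partS b z * partS b z ^ (p - 2) := by
    have : p - 2 = (p - 1) - 1 := by ring
    rw [this, Real.rpow_sub_one hS.ne' (p - 1), mul_div_cancel₀ _ hS.ne']
  set e : T → ℝ := fun v => Real.exp (b * z v) with he
  have he0 : ∀ v, 0 ≤ e v := fun v => (Real.exp_pos _).le
  have hSe : partS b z = ∑ w, e w := rfl
  have key : ∑ v, ∑ k, rotL' a c θ v k * (Real.exp (b * z v) * (b * rotL a c θ v k) *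
        partS b z ^ (p - 1) +
        Real.exp (b * z v) *
          ((∑ w, Real.exp (b * z w) * (b * rotL a c θ w k)) * (p - 1) *
          partS b z ^ (p - 2))) =
      b * sc * partS b z ^ (p - 2) * ∑ v, ∑ w, e v * e w *
        ((C v v - A v v) - (1 - p) * (C v w - A v w)) := by
    have h1 : ∀ v, ∑ k, rotL' a c θ v k * (Real.exp (b * z v) * (b * rotL a c θ v k) *
        partS b z ^ (p - 1) +
        Real.exp (b * z v) *
          ((∑ w, Real.exp (b * z w) * (b * rotL a c θ w k)) * (p - 1) *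
          partS b z ^ (p - 2))) =
        b * partS b z ^ (p - 2) * ∑ w, e v * e w *
          ((∑ k, rotL' a c θ v k * rotL a c θ v k) -
            (1 - p) * (∑ k, rotL' a c θ v k * rotL a c θ w k)) := by
      intro v
      have h2 : ∀ k, rotL' a c θ v k * (Real.exp (b * z v) * (b * rotL a c θ v k) *
          partS b z ^ (p - 1) +
          Real.exp (b * z v) *
          ((∑ w, Real.exp (b * z w) * (b * rotL a c θ w k)) * (p - 1) *
          partS b z ^ (p - 2))) =
          ∑ w, b * partS b z ^ (p - 2) * (e v * e w * (rotL' a c θ v k * rotL a c θ v k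
            - (1 - p) * (rotL' a c θ v k * rotL a c θ w k))) := by
        intro k
        rw [hS1]
        generalize partS b z ^ (p - 2) = P2
        rw [hSe]
        have r : ∑ w, b * P2 * (e v * e w * (rotL' a c θ v k * rotL a c θ v k
            - (1 - p) * (rotL' a c θ v k * rotL a c θ w k))) =
            b * P2 * e v * rotL' a c θ v k * rotL a c θ v k * ∑ w, e w -
            (1 - p) * b * P2 * e v * rotL' a c θ v k * ∑ w, e w * rotL a c θ w k := by
          rw [Finset.mul_sum, Finset.mul_sum, ← Finset.sum_sub_distrib]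
          exact Finset.sum_congr rfl fun w _ => by ring
        have r2 : ∑ w, Real.exp (b * z w) * (b * rotL a c θ w k) =
            b * ∑ w, e w * rotL a c θ w k := by
          rw [Finset.mul_sum]
          exact Finset.sum_congr rfl fun w _ => by simp only [he]; ring
        rw [r, r2]
        simp only [he]
        ring
      simp only [h2]
      rw [Finset.sum_comm, Finset.mul_sum]
      refine Finset.sum_congr rfl fun w _ => ?_
      rw [← Finset.mul_sum, ← Finset.mul_sum, Finset.sum_sub_distrib, ← Finset.mul_sum]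
    simp only [h1]
    rw [← Finset.mul_sum]
    simp only [hM]
    have h3 : ∀ v w, e v * e w * (sc * (C v v - A v v) - (1 - p) * (sc * (C v w - A v w))) =
        sc * (e v * e w * ((C v v - A v v) - (1 - p) * (C v w - A v w))) := by
      intro v w; ring
    simp only [h3, ← Finset.mul_sum]
    ring
  rw [key]
  refine mul_nonneg (mul_nonneg (mul_nonneg hb hsc0) (Real.rpow_nonneg hS.le _)) ?_
  have hsym : ∑ v, ∑ w, e v * e w * ((C v v - A v v) - (1 - p) * (C v w - A v w)) =
      ∑ v, ∑ w, e v * e w * ((C w w - A w w) - (1 - p) * (C w v - A w v)) := by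
    rw [Finset.sum_comm]
    refine Finset.sum_congr rfl fun v _ => Finset.sum_congr rfl fun w _ => ?_
    ring
  have hpos : 0 ≤ ∑ v, ∑ w, (e v * e w * ((C v v - A v v) - (1 - p) * (C v w - A v w)) +
      e v * e w * ((C w w - A w w) - (1 - p) * (C w v - A w v))) := by
    refine Finset.sum_nonneg fun v _ => Finset.sum_nonneg fun w _ => ?_
    have hcomm1 : C w v = C v w := by
      simp only [hC]; exact Finset.sum_congr rfl fun k _ => mul_comm _ _
    have hcomm2 : A w v = A v w := by
      simp only [hA]; exact Finset.sum_congr rfl fun k _ => mul_comm _ _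
    have hi := hinc v w
    have ea : ∑ k, (a v k - a w k) ^ 2 = A v v + A w w - 2 * A v w := by
      simp only [hA, Finset.mul_sum, ← Finset.sum_add_distrib, ← Finset.sum_sub_distrib]
      refine Finset.sum_congr rfl fun k _ => ?_; ring
    have ec : ∑ k, (c v k - c w k) ^ 2 = C v v + C w w - 2 * C v w := by
      simp only [hC, Finset.mul_sum, ← Finset.sum_add_distrib, ← Finset.sum_sub_distrib]
      refine Finset.sum_congr rfl fun k _ => ?_; ring
    rw [ea, ec] at hi
    have hv := hvar v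
    have hw := hvar w
    have ev1 : ∑ k, a v k ^ 2 = A v v := by
      simp only [hA]; exact Finset.sum_congr rfl fun k _ => by ring
    have ev2 : ∑ k, c v k ^ 2 = C v v := by
      simp only [hC]; exact Finset.sum_congr rfl fun k _ => by ring
    have ew1 : ∑ k, a w k ^ 2 = A w w := by
      simp only [hA]; exact Finset.sum_congr rfl fun k _ => by ring
    have ew2 : ∑ k, c w k ^ 2 = C w w := by
      simp only [hC]; exact Finset.sum_congr rfl fun k _ => by ring
    rw [ev1, ev2] at hv
    rw [ew1, ew2] at hw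
    rw [hcomm1, hcomm2, ← mul_add]
    refine mul_nonneg (mul_nonneg (he0 v) (he0 w)) ?_
    nlinarith [mul_nonneg hp0 (sub_nonneg.2 hv), mul_nonneg hp0 (sub_nonneg.2 hw),
      mul_nonneg (sub_nonneg.2 hp1) (sub_nonneg.2 hi)]
  have : ∑ v, ∑ w, (e v * e w * ((C v v - A v v) - (1 - p) * (C v w - A v w)) +
      e v * e w * ((C w w - A w w) - (1 - p) * (C w v - A w v))) =
      2 * ∑ v, ∑ w, e v * e w * ((C v v - A v v) - (1 - p) * (C v w - A v w)) := by
    simp only [Finset.sum_add_distrib]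
    rw [← hsym]; ring
  rw [this] at hpos
  linarith

/-- the interpolation has a nonnegative derivative. -/
theorem hasDerivAt_interp [Nonempty T] (a c : T → ι → ℝ) {b p : ℝ} (hb : 0 ≤ b)
    (hp0 : 0 ≤ p) (hp1 : p ≤ 1) (θ : ℝ) :
    HasDerivAt (fun s => ∫ g, partS b (rotZ a c s g) ^ p ∂(stdG ι))
      (∫ g, (∑ v, Real.exp (b * rotZ a c θ g v) * (b * rotZ' a c θ g v)) * p *
        partS b (rotZ a c θ g) ^ (p - 1) ∂(stdG ι)) θ := by
  set B := coefB a c with hB
  have hB0 : 0 ≤ B := coefB_nonneg a c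
  have hcS : ∀ (q θ : ℝ), Continuous fun g : ι → ℝ => partS b (rotZ a c θ g) ^ q := fun q θ =>
    continuous_partS_rot a c b q θ
  have hcE : ∀ θ v, Continuous fun g : ι → ℝ => Real.exp (b * rotZ a c θ g v) := fun θ v =>
    Real.continuous_exp.comp (continuous_const.mul (continuous_rotZ a c θ v))
  refine (hasDerivAt_integral_of_dominated_loc_of_deriv_le (μ := stdG ι)
    (F := fun s g => partS b (rotZ a c s g) ^ p)
    (F' := fun s g => (∑ v, Real.exp (b * rotZ a c s g v) * (b * rotZ' a c s g v)) * p *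
        partS b (rotZ a c s g) ^ (p - 1))
    (bound := fun g => (b * B * Fintype.card T) * Real.exp ((b * B + 1) * ∑ i, |g i|))
    (x₀ := θ) (s := Set.univ) Filter.univ_mem ?_ ?_ ?_ ?_ ?_ ?_).2
  · exact Filter.Eventually.of_forall fun s => (hcS p s).aestronglyMeasurable
  · refine integrable_of_growth_pi (hcS p θ).measurable (M := Fintype.card T) (C := b * B)
      fun x => ?_
    rw [abs_of_nonneg (Real.rpow_nonneg (partS_pos _ _).le _)]
    exact partS_rot_le a c hb hp0 hp1 θ x
  · refine Continuous.aestronglyMeasurable ?_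
    refine Continuous.mul (Continuous.mul ?_ continuous_const) (hcS _ _)
    exact continuous_finsetSum _ fun w _ => (hcE _ w).mul
      (continuous_const.mul (continuous_rotZ' a c θ w))
  · refine Filter.Eventually.of_forall fun g s _ => ?_
    have hS := partS_pos b (rotZ a c s g)
    have h1 := sum_exp_mul_abs_le hb (rotZ a c s g) (rotZ' a c s g) (abs_rotZ'_le a c s g)
    have hR0 : 0 ≤ B * ∑ k, |g k| :=
      mul_nonneg hB0 (Finset.sum_nonneg fun _ _ => abs_nonneg _)
    rw [Real.norm_eq_abs, abs_mul, abs_mul, abs_of_nonneg hp0,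
      abs_of_nonneg (Real.rpow_nonneg hS.le _)]
    have h2 : |∑ v, Real.exp (b * rotZ a c s g v) * (b * rotZ' a c s g v)| * p ≤
        b * (B * ∑ k, |g k|) * partS b (rotZ a c s g) * 1 :=
      mul_le_mul h1 hp1 hp0 (by positivity)
    have h3 := mul_le_mul_of_nonneg_right h2 (Real.rpow_nonneg hS.le (p - 1))
    refine h3.trans ?_
    have e1 : b * (B * ∑ k, |g k|) * partS b (rotZ a c s g) * 1 *
        partS b (rotZ a c s g) ^ (p - 1) = b * (B * ∑ k, |g k|) * partS b (rotZ a c s g) ^ p := by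
      rw [Real.rpow_sub_one hS.ne' p]; field_simp
    rw [e1]
    have h4 := partS_rot_le a c hb hp0 hp1 s g
    have h5 : ∑ k, |g k| ≤ Real.exp (∑ k, |g k|) := by
      linarith [Real.add_one_le_exp (∑ i, |g i|)]
    calc b * (B * ∑ k, |g k|) * partS b (rotZ a c s g) ^ p ≤
        b * (B * Real.exp (∑ k, |g k|)) *
          (Fintype.card T * Real.exp (b * B * ∑ k, |g k|)) := by
          refine mul_le_mul ?_ h4 (Real.rpow_nonneg hS.le _) (by positivity)
          exact mul_le_mul_of_nonneg_left (mul_le_mul_of_nonneg_left h5 hB0) hb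
      _ = _ := by rw [add_mul, one_mul, Real.exp_add]; ring
  · exact (integrable_exp_sum_abs _).const_mul _
  · refine Filter.Eventually.of_forall fun g s _ => ?_
    exact hasDerivAt_partS_rpow b p (fun v => hasDerivAt_rotZ a c s g v)

theorem interp_deriv_nonneg [Nonempty T] (a c : T → ι → ℝ)
    (horth : ∀ v w, ∑ k, a v k * c w k = 0)
    (hvar : ∀ v, ∑ k, a v k ^ 2 ≤ ∑ k, c v k ^ 2)
    (hinc : ∀ v w, ∑ k, (a v k - a w k) ^ 2 ≤ ∑ k, (c v k - c w k) ^ 2)
    {b p : ℝ} (hb : 0 ≤ b) (hp0 : 0 ≤ p) (hp1 : p ≤ 1) {θ : ℝ} (hs : 0 ≤ Real.sin θ)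
    (hc : 0 ≤ Real.cos θ) :
    0 ≤ ∫ g, (∑ v, Real.exp (b * rotZ a c θ g v) * (b * rotZ' a c θ g v)) * p *
        partS b (rotZ a c θ g) ^ (p - 1) ∂(stdG ι) := by
  have e1 : ∫ g, (∑ v, Real.exp (b * rotZ a c θ g v) * (b * rotZ' a c θ g v)) * p *
        partS b (rotZ a c θ g) ^ (p - 1) ∂(stdG ι) =
      b * p * ∑ v, ∑ k, rotL' a c θ v k * ∫ g, g k *
        (Real.exp (b * rotZ a c θ g v) * partS b (rotZ a c θ g) ^ (p - 1)) ∂(stdG ι) := by
    have hfun : (fun g : ι → ℝ => (∑ v, Real.exp (b * rotZ a c θ g v) * (b * rotZ' a c θ g v)) *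
        p * partS b (rotZ a c θ g) ^ (p - 1)) = fun g => b * p * ∑ v, ∑ k, rotL' a c θ v k *
        (g k * (Real.exp (b * rotZ a c θ g v) * partS b (rotZ a c θ g) ^ (p - 1))) := by
      funext g
      simp only [Finset.mul_sum, Finset.sum_mul]
      refine Finset.sum_congr rfl fun v _ => ?_
      unfold rotZ'
      simp only [Finset.mul_sum, Finset.sum_mul]
      refine Finset.sum_congr rfl fun k _ => ?_
      ring
    rw [hfun, integral_const_mul]
    congr 1
    rw [integral_finsetSum]
    · refine Finset.sum_congr rfl fun v _ => ?_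
      rw [integral_finsetSum]
      · refine Finset.sum_congr rfl fun k _ => ?_
        rw [integral_const_mul]
      · exact fun k _ => (integrable_ibp_left a c hb hp0 hp1 θ v k).const_mul _
    · exact fun v _ => integrable_finsetSum _ fun k _ =>
        (integrable_ibp_left a c hb hp0 hp1 θ v k).const_mul _
  rw [e1]
  refine mul_nonneg (mul_nonneg hb hp0) ?_
  simp only [ibp_term a c hb hp0 hp1 θ]
  have e2 : ∑ v, ∑ k, rotL' a c θ v k * ∫ g, (Real.exp (b * rotZ a c θ g v) *
        (b * rotL a c θ v k) * partS b (rotZ a c θ g) ^ (p - 1) +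
        Real.exp (b * rotZ a c θ g v) *
          ((∑ w, Real.exp (b * rotZ a c θ g w) * (b * rotL a c θ w k)) * (p - 1) *
          partS b (rotZ a c θ g) ^ (p - 2))) ∂(stdG ι) =
      ∫ g, ∑ v, ∑ k, rotL' a c θ v k * (Real.exp (b * rotZ a c θ g v) *
        (b * rotL a c θ v k) * partS b (rotZ a c θ g) ^ (p - 1) +
        Real.exp (b * rotZ a c θ g v) *
          ((∑ w, Real.exp (b * rotZ a c θ g w) * (b * rotL a c θ w k)) * (p - 1) *
          partS b (rotZ a c θ g) ^ (p - 2))) ∂(stdG ι) := by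
    rw [integral_finsetSum]
    · refine Finset.sum_congr rfl fun v _ => ?_
      rw [integral_finsetSum]
      · refine Finset.sum_congr rfl fun k _ => ?_
        rw [integral_const_mul]
      · exact fun k _ => (integrable_ibp_right a c hb hp0 hp1 θ v k).const_mul _
    · exact fun v _ => integrable_finsetSum _ fun k _ =>
        (integrable_ibp_right a c hb hp0 hp1 θ v k).const_mul _
  rw [e2]
  exact integral_nonneg fun g => pointwise_nonneg a c horth hvar hinc hb hp0 hp1 hs hc _

/-- **Comparison**: if the increments and the variances of `X_v = ∑ a v k g_k` are at most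
those of `Y_v = ∑ c v k g_k`, and `X`, `Y` are independent, then
`E (∑ exp (b X_v))^p ≤ E (∑ exp (b Y_v))^p`. -/
theorem comparison [Nonempty T] (a c : T → ι → ℝ)
    (horth : ∀ v w, ∑ k, a v k * c w k = 0)
    (hvar : ∀ v, ∑ k, a v k ^ 2 ≤ ∑ k, c v k ^ 2)
    (hinc : ∀ v w, ∑ k, (a v k - a w k) ^ 2 ≤ ∑ k, (c v k - c w k) ^ 2)
    {b p : ℝ} (hb : 0 ≤ b) (hp0 : 0 ≤ p) (hp1 : p ≤ 1) :
    ∫ g, (∑ v, Real.exp (b * ∑ k, a v k * g k)) ^ p ∂(stdG ι) ≤
      ∫ g, (∑ v, Real.exp (b * ∑ k, c v k * g k)) ^ p ∂(stdG ι) := by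
  have hmono : MonotoneOn (fun s => ∫ g, partS b (rotZ a c s g) ^ p ∂(stdG ι))
      (Set.Icc 0 (Real.pi / 2)) := by
    refine monotoneOn_of_deriv_nonneg (convex_Icc _ _) ?_ ?_ ?_
    · exact fun s _ => (hasDerivAt_interp a c hb hp0 hp1 s).continuousAt.continuousWithinAt
    · exact fun s _ => (hasDerivAt_interp a c hb hp0 hp1 s).differentiableAt.differentiableWithinAt
    · intro s hs
      rw [interior_Icc] at hs
      rw [(hasDerivAt_interp a c hb hp0 hp1 s).deriv]
      refine interp_deriv_nonneg a c horth hvar hinc hb hp0 hp1 ?_ ?_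
      · exact Real.sin_nonneg_of_nonneg_of_le_pi hs.1.le (by linarith [hs.2, Real.pi_pos])
      · exact Real.cos_nonneg_of_neg_pi_div_two_le_of_le (by linarith [hs.1, Real.pi_pos]) hs.2.le
  have h := hmono (Set.left_mem_Icc.2 (by positivity)) (Set.right_mem_Icc.2 (by positivity))
    (by positivity)
  simpa [partS, rotZ, rotL] using h

end Kahane

end Vale.Agent.P150
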