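import Mathlib
import Vale.Agent.Lib.P150.Defs
import Vale.Agent.Lib.P150.Kahane

/-!
Gaussian estimates for the disorder: operator norm, row norms, entries.
-/

namespace Vale.Agent.P150

open MeasureTheory ProbabilityTheory Filter Topology

section ChiSquare

theorem integrable_gaussian_of_smul {u : ℝ → ℝ}
    (h : Integrable (fun x => gaussianPDFReal 0 1 x * u x)) :
    Integrable u (gaussianReal 0 1) := by
  rw [gaussianReal_of_var_ne_zero 0 (by norm_num : (1 : NNReal) ≠ 0)]
  rw [integrable_withDensity_iff_integrable_smul' (measurable_gaussianPDF 0 1)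
    (Filter.Eventually.of_forall fun x => gaussianPDF_lt_top)]
  refine h.congr (Filter.Eventually.of_forall fun x => ?_)
  simp [toReal_gaussianPDF]

theorem pdf_mul_exp_sq (a x : ℝ) : gaussianPDFReal 0 1 x * Real.exp (a * x ^ 2) =
    (Real.sqrt (2 * Real.pi))⁻¹ * Real.exp (-(1 / 2 - a) * x ^ 2) := by
  simp only [gaussianPDFReal, NNReal.coe_one, mul_one, sub_zero]
  rw [mul_assoc, ← Real.exp_add]
  congr 2; ring

theorem integrable_exp_sq {a : ℝ} (ha : a < 1 / 2) :
    Integrable (fun x : ℝ => Real.exp (a * x ^ 2)) (gaussianReal 0 1) := by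
  refine integrable_gaussian_of_smul ?_
  simp only [pdf_mul_exp_sq]
  exact (integrable_exp_neg_mul_sq (by linarith)).const_mul _

theorem integral_exp_sq {a : ℝ} (ha : a < 1 / 2) :
    ∫ x, Real.exp (a * x ^ 2) ∂(gaussianReal 0 1) = Real.sqrt (1 / (1 - 2 * a)) := by
  rw [integral_gaussianReal_eq_integral_smul (by norm_num)]
  simp only [smul_eq_mul, pdf_mul_exp_sq]
  rw [integral_const_mul, integral_gaussian, ← Real.sqrt_inv, ← Real.sqrt_mul (by positivity)]
  congr 1
  have h1 : (1 / 2 - a) ≠ 0 := by linarith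
  have h2 : (1 - 2 * a) ≠ 0 := by linarith
  have h3 := Real.pi_ne_zero
  field_simp

theorem sqrt_inv_le_exp {x : ℝ} (hx0 : 0 ≤ x) (hx1 : x ≤ 1 / 2) :
    Real.sqrt (1 / (1 - x)) ≤ Real.exp ((x + x ^ 2) / 2) := by
  have h1 : 1 / (1 - x) ≤ Real.exp (x + x ^ 2) := by
    rw [div_le_iff₀ (by linarith)]
    have h2 := Real.quadratic_le_exp_of_nonneg (x := x + x ^ 2) (by positivity)
    have h3 : 1 ≤ (1 + (x + x ^ 2) + (x + x ^ 2) ^ 2 / 2) * (1 - x) := by
      nlinarith [pow_nonneg hx0 2, pow_nonneg hx0 3, pow_nonneg hx0 4, mul_nonneg hx0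
        (sub_nonneg.2 hx1), mul_nonneg (pow_nonneg hx0 2) (sub_nonneg.2 hx1),
        mul_nonneg (pow_nonneg hx0 3) (sub_nonneg.2 hx1),
        mul_nonneg (pow_nonneg hx0 4) (sub_nonneg.2 hx1)]
    exact h3.trans (mul_le_mul_of_nonneg_right h2 (by linarith))
  calc Real.sqrt (1 / (1 - x)) ≤ Real.sqrt (Real.exp (x + x ^ 2)) := Real.sqrt_le_sqrt h1
    _ = Real.exp ((x + x ^ 2) / 2) := by rw [← Real.exp_half]

variable {ι : Type*} [Fintype ι]

theorem integrable_exp_sum_sq {a : ℝ} (ha : a < 1 / 2) :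
    Integrable (fun x : ι → ℝ => Real.exp (a * ∑ i, x i ^ 2)) (stdG ι) := by
  have h := Integrable.fintype_prod (ι := ι) (𝕜 := ℝ) (f := fun _ (x : ℝ) => Real.exp (a * x ^ 2))
    (μ := fun _ => gaussianReal 0 1) (fun _ => integrable_exp_sq ha)
  refine h.congr (Filter.Eventually.of_forall fun x => ?_)
  simp only [Finset.mul_sum, Real.exp_sum]

theorem integral_exp_sum_sq_le {a : ℝ} (ha0 : 0 ≤ a) (ha : a ≤ 1 / 4) :
    ∫ x : ι → ℝ, Real.exp (a * ∑ i, x i ^ 2) ∂(stdG ι) ≤
      Real.exp (Fintype.card ι * (a + 2 * a ^ 2)) := by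
  have h1 : ∀ x : ι → ℝ, Real.exp (a * ∑ i, x i ^ 2) = ∏ i, Real.exp (a * x i ^ 2) := fun x => by
    simp only [Finset.mul_sum, Real.exp_sum]
  simp only [h1]
  rw [integral_fintype_prod_eq_pow (fun x : ℝ => Real.exp (a * x ^ 2)),
    integral_exp_sq (by linarith)]
  have h2 := sqrt_inv_le_exp (x := 2 * a) (by linarith) (by linarith)
  calc Real.sqrt (1 / (1 - 2 * a)) ^ Fintype.card ι ≤
      Real.exp ((2 * a + (2 * a) ^ 2) / 2) ^ Fintype.card ι :=
        pow_le_pow_left₀ (Real.sqrt_nonneg _) h2 _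
    _ = _ := by rw [← Real.exp_nat_mul]; congr 1; ring

end ChiSquare

section Marginals

variable {A B : Type*} [Fintype A] [Fintype B]

theorem measurePreserving_inl :
    MeasurePreserving (fun (g : A ⊕ B → ℝ) (i : A) => g (Sum.inl i)) (stdG (A ⊕ B)) (stdG A) := by
  have hm : Measurable (fun (g : A ⊕ B → ℝ) (i : A) => g (Sum.inl i)) := by
    refine measurable_pi_iff.2 fun i => measurable_pi_apply _
  refine ⟨hm, ?_⟩
  symm
  refine Measure.pi_eq fun s hs => ?_
  rw [Measure.map_apply hm (MeasurableSet.univ_pi hs)]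
  have hpre : (fun (g : A ⊕ B → ℝ) (i : A) => g (Sum.inl i)) ⁻¹' (Set.univ.pi s) =
      Set.univ.pi (fun k : A ⊕ B => Sum.elim s (fun _ => Set.univ) k) := by
    ext g
    simp [Set.mem_pi]
  rw [hpre, Measure.pi_pi, Fintype.prod_sum_type]
  simp

theorem measurePreserving_inr :
    MeasurePreserving (fun (g : A ⊕ B → ℝ) (i : B) => g (Sum.inr i)) (stdG (A ⊕ B)) (stdG B) := by
  have hm : Measurable (fun (g : A ⊕ B → ℝ) (i : B) => g (Sum.inr i)) := by
    refine measurable_pi_iff.2 fun i => measurable_pi_apply _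
  refine ⟨hm, ?_⟩
  symm
  refine Measure.pi_eq fun s hs => ?_
  rw [Measure.map_apply hm (MeasurableSet.univ_pi hs)]
  have hpre : (fun (g : A ⊕ B → ℝ) (i : B) => g (Sum.inr i)) ⁻¹' (Set.univ.pi s) =
      Set.univ.pi (fun k : A ⊕ B => Sum.elim (fun _ => Set.univ) s k) := by
    ext g
    simp [Set.mem_pi]
  rw [hpre, Measure.pi_pi, Fintype.prod_sum_type]
  simp

end Marginals

section Pairs

variable {n : ℕ}

theorem sum_pair_eq (f : Fin n → Fin n → ℝ) :
    ∑ p : Pair n, f p.1.1 p.1.2 = ∑ i, ∑ j, if i < j then f i j else 0 := by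
  rw [← Finset.sum_product', ← Finset.sum_filter, Finset.univ_product_univ]
  rw [← Finset.sum_subtype (Finset.univ.filter fun p : Fin n × Fin n => p.1 < p.2)
    (p := fun p : Fin n × Fin n => p.1 < p.2) (by simp) (fun p => f p.1 p.2)]

theorem sum_symm_eq (f : Fin n → Fin n → ℝ) (hf : ∀ i j, f i j = f j i) :
    ∑ i, ∑ j, f i j = 2 * ∑ p : Pair n, f p.1.1 p.1.2 + ∑ i, f i i := by
  have h1 : ∑ i, ∑ j, f i j = ∑ i, ∑ j, ((if i < j then f i j else 0) +
      (if j < i then f j i else 0) + (if i = j then f i j else 0)) := by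
    refine Finset.sum_congr rfl fun i _ => Finset.sum_congr rfl fun j _ => ?_
    rcases lt_trichotomy i j with h | h | h
    · simp [h, h.not_gt, h.ne]
    · subst h; simp
    · simp [h, h.not_gt, h.ne', hf i j]
  rw [h1]
  simp only [Finset.sum_add_distrib]
  rw [Finset.sum_comm (f := fun i j => if j < i then f j i else 0), ← sum_pair_eq]
  simp
  ring

theorem coupling_symm (g : Pair n → ℝ) (i j : Fin n) : coupling g i j = coupling g j i := by
  unfold coupling
  rcases lt_trichotomy i j with h | h | h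
  · simp [h, h.not_gt]
  · subst h; simp
  · simp [h, h.not_gt]

theorem coupling_self (g : Pair n → ℝ) (i : Fin n) : coupling g i i = 0 := by
  simp [coupling]

theorem coupling_pair (g : Pair n → ℝ) (p : Pair n) : coupling g p.1.1 p.1.2 = g p := by
  unfold coupling
  rw [dif_pos p.2]

theorem quad_eq (g : Pair n → ℝ) (v : Fin n → ℝ) :
    ∑ i, ∑ j, coupling g i j * v i * v j = ∑ p : Pair n, (2 * v p.1.1 * v p.1.2) * g p := by
  rw [sum_symm_eq _ (fun i j => by rw [coupling_symm]; ring)]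
  simp only [coupling_self, coupling_pair]
  rw [Finset.mul_sum]
  simp only [zero_mul, Finset.sum_const_zero, add_zero]
  exact Finset.sum_congr rfl fun p _ => by ring

end Pairs

section Norm

variable {n : ℕ}

/-- coefficients of `σ v^T A v`. -/
noncomputable def coA (σ : ℝ) (v : Fin n → ℝ) : Pair n ⊕ Fin n → ℝ :=
  Sum.elim (fun p => σ * (2 * v p.1.1 * v p.1.2)) (fun _ => 0)

/-- coefficients of `2 ⟨v, g⟩`. -/
noncomputable def coC (v : Fin n → ℝ) : Pair n ⊕ Fin n → ℝ :=
  Sum.elim (fun _ => 0) (fun i => 2 * v i)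

theorem exp_bound (σ : ℝ) (hσ : σ ^ 2 = 1) (hn : 16 ≤ n) (T : Finset (Fin n → ℝ))
    (hT : ∀ v ∈ T, ∑ i, v i ^ 2 = 1) (hne : T.Nonempty) {b : ℝ}
    (hb1 : 1 ≤ b) (hbT : Real.log T.card ≤ b) :
    ∫ g, (∑ v : T, Real.exp (b * ∑ p : Pair n, σ * (2 * v.1 p.1.1 * v.1 p.1.2) * g p)) ^ (1 / b)
      ∂(disorder n) ≤ Real.exp (2 * Real.sqrt n + 3) := by
  have : Nonempty T := ⟨⟨hne.choose, hne.choose_spec⟩⟩
  have hb0 : 0 < b := by linarith
  have hsqrt : 4 ≤ Real.sqrt n := by
    rw [show (4 : ℝ) = Real.sqrt (4 ^ 2) by rw [Real.sqrt_sq]; norm_num]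
    refine Real.sqrt_le_sqrt ?_
    have : (16 : ℝ) ≤ n := by exact_mod_cast hn
    linarith
  have hsq : Real.sqrt n ^ 2 = n := Real.sq_sqrt (Nat.cast_nonneg n)
  have hcmp := comparison (ι := Pair n ⊕ Fin n) (T := T) (fun v => coA σ v.1) (fun v => coC v.1)
    (b := b) (p := 1 / b) (by
      intro v w
      rw [Fintype.sum_sum_type]
      simp [coA, coC])
    (by
      intro v
      rw [Fintype.sum_sum_type, Fintype.sum_sum_type]
      simp only [coA, coC, Sum.elim_inl, Sum.elim_inr]
      have hv := hT v.1 v.2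
      have e1 : ∀ p : Pair n, (σ * (2 * v.1 p.1.1 * v.1 p.1.2)) ^ 2 =
          4 * (v.1 p.1.1 ^ 2 * v.1 p.1.2 ^ 2) := by
        intro p
        rw [mul_pow, hσ]; ring
      have e2 : ∀ i, (2 * v.1 i) ^ 2 = 4 * v.1 i ^ 2 := by intro i; ring
      simp only [e1, e2, ← Finset.mul_sum, hv]
      have h := sum_symm_eq (fun i j => v.1 i ^ 2 * v.1 j ^ 2) (fun i j => mul_comm _ _)
      have h0 : 0 ≤ ∑ i, v.1 i ^ 2 * v.1 i ^ 2 := Finset.sum_nonneg fun i _ => by positivity
      have h1 : ∑ i, ∑ j, v.1 i ^ 2 * v.1 j ^ 2 = 1 := by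
        simp only [← Finset.mul_sum, ← Finset.sum_mul, hv, one_mul]
      rw [h1] at h
      simp only [Finset.sum_const_zero, ne_eq, OfNat.ofNat_ne_zero, not_false_eq_true, zero_pow,
        add_zero, zero_add]
      linarith)
    (by
      intro v w
      rw [Fintype.sum_sum_type, Fintype.sum_sum_type]
      simp only [coA, coC, Sum.elim_inl, Sum.elim_inr]
      have hv := hT v.1 v.2
      have hw := hT w.1 w.2
      set c := ∑ i, v.1 i * w.1 i with hc
      have e1 : ∀ p : Pair n, (σ * (2 * v.1 p.1.1 * v.1 p.1.2) -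
          σ * (2 * w.1 p.1.1 * w.1 p.1.2)) ^ 2 =
          4 * (v.1 p.1.1 * v.1 p.1.2 - w.1 p.1.1 * w.1 p.1.2) ^ 2 := by
        intro p
        rw [← mul_sub, mul_pow, hσ]; ring
      simp only [e1, ← Finset.mul_sum]
      have h := sum_symm_eq (fun i j => (v.1 i * v.1 j - w.1 i * w.1 j) ^ 2)
        (fun i j => by ring)
      have h0 : 0 ≤ ∑ i, (v.1 i * v.1 i - w.1 i * w.1 i) ^ 2 :=
        Finset.sum_nonneg fun i _ => by positivity
      have h1 : ∑ i, ∑ j, (v.1 i * v.1 j - w.1 i * w.1 j) ^ 2 = 2 - 2 * c ^ 2 := by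
        have e3 : ∀ i j, (v.1 i * v.1 j - w.1 i * w.1 j) ^ 2 = v.1 i ^ 2 * v.1 j ^ 2
            + w.1 i ^ 2 * w.1 j ^ 2 - 2 * ((v.1 i * w.1 i) * (v.1 j * w.1 j)) := by
          intro i j; ring
        simp only [e3, Finset.sum_sub_distrib, Finset.sum_add_distrib, ← Finset.mul_sum,
          ← Finset.sum_mul, hv, hw, ← hc]
        ring
      rw [h1] at h
      have e4 : ∑ i, (2 * v.1 i - 2 * w.1 i) ^ 2 = 8 - 8 * c := by
        have e5 : ∀ i, (2 * v.1 i - 2 * w.1 i) ^ 2 = 4 * v.1 i ^ 2 + 4 * w.1 i ^ 2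
            - 8 * (v.1 i * w.1 i) := by intro i; ring
        simp only [e5, Finset.sum_sub_distrib, Finset.sum_add_distrib, ← Finset.mul_sum, hv, hw,
          ← hc]
        ring
      simp only [sub_zero, Finset.sum_const_zero, ne_eq, OfNat.ofNat_ne_zero, not_false_eq_true,
        zero_pow, add_zero, zero_add]
      rw [e4]
      nlinarith [sq_nonneg (1 - c)])
    hb0.le (by positivity) (by rw [div_le_one hb0]; exact hb1)
  -- left side
  have hL : ∫ g, (∑ v : T, Real.exp (b * ∑ p : Pair n, σ * (2 * v.1 p.1.1 * v.1 p.1.2) * g p))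
      ^ (1 / b) ∂(disorder n) =
      ∫ g, (∑ v : T, Real.exp (b * ∑ k, coA σ v.1 k * g k)) ^ (1 / b)
        ∂(stdG (Pair n ⊕ Fin n)) := by
    have hmp := measurePreserving_inl (A := Pair n) (B := Fin n)
    have : disorder n = stdG (Pair n) := rfl
    rw [this, ← hmp.map_eq, integral_map hmp.measurable.aemeasurable]
    · congr 1; funext g
      simp only [Fintype.sum_sum_type, coA, Sum.elim_inl, Sum.elim_inr, zero_mul,
        Finset.sum_const_zero, add_zero]
    · refine Continuous.aestronglyMeasurable ?_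
      refine Continuous.rpow_const (by fun_prop) fun g => Or.inl ?_
      exact (Finset.sum_pos (fun _ _ => Real.exp_pos _) Finset.univ_nonempty).ne'
  rw [hL]
  refine hcmp.trans ?_
  -- right side
  have hcard : (T.card : ℝ) ≠ 0 := by
    have := Finset.card_pos.2 hne
    exact_mod_cast this.ne'
  have hcard0 : (0 : ℝ) < T.card := by
    have := Finset.card_pos.2 hne
    exact_mod_cast this
  have hpt : ∀ g : Pair n ⊕ Fin n → ℝ,
      (∑ v : T, Real.exp (b * ∑ k, coC v.1 k * g k)) ^ (1 / b) ≤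
      Real.exp (1 + Real.sqrt n) * Real.exp ((1 / Real.sqrt n) * ∑ i, (g (Sum.inr i)) ^ 2) := by
    intro g
    have h1 : ∀ v : T, Real.exp (b * ∑ k, coC v.1 k * g k) ≤
        Real.exp (b * (Real.sqrt n + (1 / Real.sqrt n) * ∑ i, (g (Sum.inr i)) ^ 2)) := by
      intro v
      refine Real.exp_le_exp.2 (mul_le_mul_of_nonneg_left ?_ hb0.le)
      simp only [Fintype.sum_sum_type, coC, Sum.elim_inl, Sum.elim_inr, zero_mul,
        Finset.sum_const_zero, zero_add]
      have hv := hT v.1 v.2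
      calc ∑ i, 2 * v.1 i * g (Sum.inr i) ≤
          ∑ i, (Real.sqrt n * v.1 i ^ 2 + (1 / Real.sqrt n) * (g (Sum.inr i)) ^ 2) := by
            refine Finset.sum_le_sum fun i _ => ?_
            have hs : 0 < Real.sqrt n := by linarith
            have : 0 ≤ (1 / Real.sqrt n) * (Real.sqrt n * v.1 i - g (Sum.inr i)) ^ 2 := by
              positivity
            have e : (1 / Real.sqrt n) * (Real.sqrt n * v.1 i - g (Sum.inr i)) ^ 2 =
                Real.sqrt n * v.1 i ^ 2 - 2 * v.1 i * g (Sum.inr i) +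
                (1 / Real.sqrt n) * (g (Sum.inr i)) ^ 2 := by
              field_simp; ring
            linarith
        _ = _ := by
            rw [Finset.sum_add_distrib, ← Finset.mul_sum, ← Finset.mul_sum, hv, mul_one]
    have h2 : ∑ v : T, Real.exp (b * ∑ k, coC v.1 k * g k) ≤
        T.card * Real.exp (b * (Real.sqrt n + (1 / Real.sqrt n) * ∑ i, (g (Sum.inr i)) ^ 2)) := by
      refine (Finset.sum_le_sum fun v _ => h1 v).trans (le_of_eq ?_)
      simp
    have h3 : T.card * Real.exp (b * (Real.sqrt n + (1 / Real.sqrt n) *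
        ∑ i, (g (Sum.inr i)) ^ 2)) ≤
        Real.exp (b * (1 + Real.sqrt n + (1 / Real.sqrt n) * ∑ i, (g (Sum.inr i)) ^ 2)) := by
      rw [← Real.exp_log hcard0, ← Real.exp_add]
      refine Real.exp_le_exp.2 ?_
      nlinarith
    calc (∑ v : T, Real.exp (b * ∑ k, coC v.1 k * g k)) ^ (1 / b) ≤
        (Real.exp (b * (1 + Real.sqrt n + (1 / Real.sqrt n) * ∑ i, (g (Sum.inr i)) ^ 2)))
          ^ (1 / b) := by
          refine Real.rpow_le_rpow ?_ (h2.trans h3) (by positivity)
          exact Finset.sum_nonneg fun _ _ => (Real.exp_pos _).le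
      _ = Real.exp (1 + Real.sqrt n) *
          Real.exp ((1 / Real.sqrt n) * ∑ i, (g (Sum.inr i)) ^ 2) := by
          rw [← Real.exp_mul, ← Real.exp_add]
          congr 1
          field_simp
  have ha4 : 1 / Real.sqrt n ≤ 1 / 4 := one_div_le_one_div_of_le (by norm_num) hsqrt
  have hmp := measurePreserving_inr (A := Pair n) (B := Fin n)
  have hint : Integrable (fun g : Pair n ⊕ Fin n → ℝ =>
      Real.exp (1 + Real.sqrt n) * Real.exp ((1 / Real.sqrt n) * ∑ i, (g (Sum.inr i)) ^ 2))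
      (stdG (Pair n ⊕ Fin n)) := by
    refine Integrable.const_mul ?_ _
    exact hmp.integrable_comp_of_integrable
      (integrable_exp_sum_sq (ι := Fin n) (a := 1 / Real.sqrt n) (by linarith))
  calc ∫ g, (∑ v : T, Real.exp (b * ∑ k, coC v.1 k * g k)) ^ (1 / b) ∂(stdG (Pair n ⊕ Fin n))
      ≤ ∫ g, Real.exp (1 + Real.sqrt n) *
        Real.exp ((1 / Real.sqrt n) * ∑ i, (g (Sum.inr i)) ^ 2) ∂(stdG (Pair n ⊕ Fin n)) := by
        refine integral_mono_of_nonneg (Filter.Eventually.of_forall fun g => ?_) hint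
          (Filter.Eventually.of_forall hpt)
        exact Real.rpow_nonneg (Finset.sum_nonneg fun _ _ => (Real.exp_pos _).le) _
    _ = Real.exp (1 + Real.sqrt n) *
        ∫ x : Fin n → ℝ, Real.exp ((1 / Real.sqrt n) * ∑ i, x i ^ 2) ∂(stdG (Fin n)) := by
        rw [integral_const_mul]
        congr 1
        rw [← hmp.map_eq, integral_map hmp.measurable.aemeasurable]
        exact Continuous.aestronglyMeasurable (by fun_prop)
    _ ≤ Real.exp (1 + Real.sqrt n) * Real.exp (Real.sqrt n + 2) := by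
        refine mul_le_mul_of_nonneg_left ?_ (Real.exp_pos _).le
        refine (integral_exp_sum_sq_le (ι := Fin n) (a := 1 / Real.sqrt n) (by positivity)
          ha4).trans (le_of_eq ?_)
        congr 1
        have hs : Real.sqrt n ≠ 0 := by linarith
        rw [Fintype.card_fin]
        nth_rw 1 [← hsq]
        field_simp
    _ = Real.exp (2 * Real.sqrt n + 3) := by rw [← Real.exp_add]; congr 1; ring

theorem integrable_F (σ : ℝ) (T : Finset (Fin n → ℝ)) (hne : T.Nonempty) {b : ℝ}
    (hb1 : 1 ≤ b) :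
    Integrable (fun g : Pair n → ℝ =>
      (∑ v : T, Real.exp (b * ∑ p : Pair n, σ * (2 * v.1 p.1.1 * v.1 p.1.2) * g p)) ^ (1 / b))
      (disorder n) := by
  have : Nonempty T := ⟨⟨hne.choose, hne.choose_spec⟩⟩
  have hb0 : 0 < b := by linarith
  set a : T → Pair n → ℝ := fun v p => σ * (2 * v.1 p.1.1 * v.1 p.1.2) with ha
  have e : ∀ g : Pair n → ℝ,
      (∑ v : T, Real.exp (b * ∑ p : Pair n, σ * (2 * v.1 p.1.1 * v.1 p.1.2) * g p)) ^ (1 / b) =
      partS b (rotZ a 0 0 g) ^ (1 / b) := by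
    intro g
    simp [partS, rotZ, rotL, ha]
  simp only [e]
  refine integrable_of_growth_pi (M := Fintype.card T) (C := b * coefB a 0)
    (continuous_partS_rot a 0 b (1 / b) 0).measurable fun x => ?_
  rw [abs_of_nonneg (Real.rpow_nonneg (partS_pos _ _).le _)]
  exact partS_rot_le a 0 hb0.le (by positivity) (by rw [div_le_one hb0]; exact hb1) 0 x

theorem prob_finite (hn : 16 ≤ n) (T : Finset (Fin n → ℝ))
    (hT : ∀ v ∈ T, ∑ i, v i ^ 2 = 1) (σ : ℝ) (hσ : σ ^ 2 = 1) (t : ℝ) :
    disorder n {g | ∃ v ∈ T, t < σ * ∑ i, ∑ j, coupling g i j * v i * v j} ≤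
      ENNReal.ofReal (Real.exp (2 * Real.sqrt n + 3 - t)) := by
  have : IsProbabilityMeasure (disorder n) := by unfold disorder; infer_instance
  rcases T.eq_empty_or_nonempty with rfl | hne
  · simp
  set b : ℝ := 1 + Real.log T.card with hb
  have hcard1 : (1 : ℝ) ≤ T.card := by
    have := Finset.card_pos.2 hne
    exact_mod_cast this
  have hlog : 0 ≤ Real.log T.card := Real.log_nonneg hcard1
  have hb1 : 1 ≤ b := by linarith
  have hb0 : 0 < b := by linarith
  set F : (Pair n → ℝ) → ℝ := fun g =>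
    (∑ v : T, Real.exp (b * ∑ p : Pair n, σ * (2 * v.1 p.1.1 * v.1 p.1.2) * g p)) ^ (1 / b)
    with hF
  have hI := exp_bound σ hσ hn T hT hne hb1 (by linarith)
  have hint := integrable_F σ T hne hb1
  have hF0 : ∀ g, 0 ≤ F g := fun g =>
    Real.rpow_nonneg (Finset.sum_nonneg fun _ _ => (Real.exp_pos _).le) _
  have hmarkov := mul_meas_ge_le_integral_of_nonneg (μ := disorder n) (f := F)
    (Filter.Eventually.of_forall hF0) hint (Real.exp t)
  have hsub : {g | ∃ v ∈ T, t < σ * ∑ i, ∑ j, coupling g i j * v i * v j} ⊆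
      {g | Real.exp t ≤ F g} := by
    rintro g ⟨v, hv, h⟩
    simp only [Set.mem_ofPred_eq, hF]
    rw [quad_eq, Finset.mul_sum] at h
    have h1 : Real.exp (b * t) ≤
        ∑ v : T, Real.exp (b * ∑ p : Pair n, σ * (2 * v.1 p.1.1 * v.1 p.1.2) * g p) := by
      refine le_trans ?_ (Finset.single_le_sum
        (f := fun v : T => Real.exp (b * ∑ p : Pair n, σ * (2 * v.1 p.1.1 * v.1 p.1.2) * g p))
        (fun _ _ => (Real.exp_pos _).le) (Finset.mem_univ (⟨v, hv⟩ : T)))
      refine Real.exp_le_exp.2 (mul_le_mul_of_nonneg_left ?_ hb0.le)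
      refine h.le.trans (le_of_eq ?_)
      exact Finset.sum_congr rfl fun p _ => by ring
    calc Real.exp t = (Real.exp (b * t)) ^ (1 / b) := by
          rw [← Real.exp_mul]; congr 1; field_simp
      _ ≤ _ := Real.rpow_le_rpow (Real.exp_pos _).le h1 (by positivity)
  refine (measure_mono hsub).trans ?_
  have hreal : (disorder n).real {g | Real.exp t ≤ F g} ≤
      Real.exp (2 * Real.sqrt n + 3 - t) := by
    have h2 : Real.exp t * (disorder n).real {g | Real.exp t ≤ F g} ≤
        Real.exp (2 * Real.sqrt n + 3) := hmarkov.trans hI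
    rw [Real.exp_sub, le_div_iff₀ (Real.exp_pos _)]
    linarith
  rw [← ENNReal.ofReal_toReal (measure_ne_top (disorder n) {g | Real.exp t ≤ F g})]
  exact ENNReal.ofReal_le_ofReal hreal

theorem continuous_quad (g : Pair n → ℝ) :
    Continuous fun v : Fin n → ℝ => ∑ i, ∑ j, coupling g i j * v i * v j := by
  fun_prop

theorem prob_norm (hn : 16 ≤ n) (ε : ℝ) :
    disorder n {g | ∃ v : Fin n → ℝ,
      (2 + ε) * Real.sqrt n * ∑ i, v i ^ 2 < |∑ i, ∑ j, coupling g i j * v i * v j|} ≤
      2 * ENNReal.ofReal (Real.exp (3 - ε * Real.sqrt n)) := by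
  classical
  set D : ℕ → (Fin n → ℝ) := TopologicalSpace.denseSeq (Fin n → ℝ) with hD
  set E : ℕ → Set (Pair n → ℝ) := fun k => {g | (2 + ε) * Real.sqrt n * ∑ i, (D k) i ^ 2 <
    |∑ i, ∑ j, coupling g i j * (D k) i * (D k) j|} with hE
  have hsub : {g | ∃ v : Fin n → ℝ,
      (2 + ε) * Real.sqrt n * ∑ i, v i ^ 2 < |∑ i, ∑ j, coupling g i j * v i * v j|} ⊆
      ⋃ k, E k := by
    rintro g ⟨v, hv⟩
    have hopen : IsOpen {v : Fin n → ℝ | (2 + ε) * Real.sqrt n * ∑ i, v i ^ 2 <
        |∑ i, ∑ j, coupling g i j * v i * v j|} := by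
      refine isOpen_lt (by fun_prop) (continuous_quad g).abs
    obtain ⟨w, hw, k, rfl⟩ := (TopologicalSpace.denseRange_denseSeq (Fin n → ℝ)).inter_open_nonempty
      _ hopen ⟨v, hv⟩
    exact Set.mem_iUnion.2 ⟨k, hw⟩
  refine (measure_mono hsub).trans ?_
  rw [measure_iUnion_eq_iSup_accumulate]
  refine iSup_le fun N => ?_
  set nrm : (Fin n → ℝ) → (Fin n → ℝ) := fun v i => v i / Real.sqrt (∑ i, v i ^ 2) with hnrm
  set T : Finset (Fin n → ℝ) :=
    ((Finset.range (N + 1)).filter fun k => ∑ i, (D k) i ^ 2 ≠ 0).image fun k => nrm (D k)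
    with hT
  have hTn : ∀ v ∈ T, ∑ i, v i ^ 2 = 1 := by
    intro v hv
    simp only [hT, Finset.mem_image, Finset.mem_filter] at hv
    obtain ⟨k, ⟨_, hk⟩, rfl⟩ := hv
    have h0 : 0 ≤ ∑ i, (D k) i ^ 2 := Finset.sum_nonneg fun _ _ => sq_nonneg _
    simp only [hnrm, div_pow, Real.sq_sqrt h0, ← Finset.sum_div]
    exact div_self hk
  have h1 := prob_finite hn T hTn 1 (by norm_num) ((2 + ε) * Real.sqrt n)
  have h2 := prob_finite hn T hTn (-1) (by norm_num) ((2 + ε) * Real.sqrt n)
  have hacc : Set.accumulate E N ⊆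
      {g | ∃ v ∈ T, (2 + ε) * Real.sqrt n < 1 * ∑ i, ∑ j, coupling g i j * v i * v j} ∪
      {g | ∃ v ∈ T, (2 + ε) * Real.sqrt n < -1 * ∑ i, ∑ j, coupling g i j * v i * v j} := by
    intro g hg
    rw [Set.mem_accumulate] at hg
    obtain ⟨k, hk, hgk⟩ := hg
    simp only [hE, Set.mem_ofPred_eq] at hgk
    have hne : ∑ i, (D k) i ^ 2 ≠ 0 := by
      intro h0
      have hz : ∀ i, (D k) i = 0 := by
        intro i
        have := (Finset.sum_eq_zero_iff_of_nonneg (fun i _ => sq_nonneg ((D k) i))).1 h0 i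
          (Finset.mem_univ i)
        exact pow_eq_zero_iff (two_ne_zero) |>.1 this
      rw [h0] at hgk
      simp only [hz] at hgk
      simp at hgk
    have h0 : 0 ≤ ∑ i, (D k) i ^ 2 := Finset.sum_nonneg fun _ _ => sq_nonneg _
    have hpos : 0 < ∑ i, (D k) i ^ 2 := lt_of_le_of_ne h0 (Ne.symm hne)
    have hmem : nrm (D k) ∈ T := by
      simp only [hT, Finset.mem_image, Finset.mem_filter, Finset.mem_range]
      exact ⟨k, ⟨by omega, hne⟩, rfl⟩
    have hq : ∑ i, ∑ j, coupling g i j * (nrm (D k)) i * (nrm (D k)) j =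
        (∑ i, ∑ j, coupling g i j * (D k) i * (D k) j) / ∑ i, (D k) i ^ 2 := by
      simp only [Finset.sum_div]
      refine Finset.sum_congr rfl fun i _ => Finset.sum_congr rfl fun j _ => ?_
      simp only [hnrm]
      have hs := Real.mul_self_sqrt h0
      rw [mul_assoc, div_mul_div_comm, hs]
      ring
    have hkey : (2 + ε) * Real.sqrt n <
        |(∑ i, ∑ j, coupling g i j * (D k) i * (D k) j) / ∑ i, (D k) i ^ 2| := by
      rw [abs_div, abs_of_pos hpos, lt_div_iff₀ hpos]
      exact hgk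
    rw [← hq] at hkey
    rcases lt_abs.1 hkey with h | h
    · exact Or.inl ⟨_, hmem, by rw [one_mul]; exact h⟩
    · exact Or.inr ⟨_, hmem, by rw [neg_one_mul]; exact h⟩
  refine (measure_mono hacc).trans ((measure_union_le _ _).trans ?_)
  have e : 2 * Real.sqrt n + 3 - (2 + ε) * Real.sqrt n = 3 - ε * Real.sqrt n := by ring
  rw [e] at h1 h2
  calc _ ≤ ENNReal.ofReal (Real.exp (3 - ε * Real.sqrt n)) +
        ENNReal.ofReal (Real.exp (3 - ε * Real.sqrt n)) := add_le_add h1 h2
    _ = _ := by rw [two_mul]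

end Norm

/-- W1 -/
theorem goe_norm (ε : ℝ) (hε : 0 < ε) :
    Tendsto (fun n : ℕ => disorder n {g | ∃ v : Fin n → ℝ,
      (2 + ε) * Real.sqrt n * ∑ i, v i ^ 2 < |∑ i, ∑ j, coupling g i j * v i * v j|})
      atTop (𝓝 0) := by
  have hlim : Tendsto (fun n : ℕ => 2 * ENNReal.ofReal (Real.exp (3 - ε * Real.sqrt n)))
      atTop (𝓝 0) := by
    have h1 : Tendsto (fun n : ℕ => ε * Real.sqrt n) atTop atTop :=
      (Real.tendsto_sqrt_atTop.comp tendsto_natCast_atTop_atTop).const_mul_atTop hε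
    have h2 : Tendsto (fun n : ℕ => 3 - ε * Real.sqrt n) atTop atBot := by
      have := tendsto_atBot_add_const_left atTop (3 : ℝ) (tendsto_neg_atTop_atBot.comp h1)
      simpa [sub_eq_add_neg] using this
    have h3 := ENNReal.tendsto_ofReal (Real.tendsto_exp_atBot.comp h2)
    rw [ENNReal.ofReal_zero] at h3
    have h4 := ENNReal.Tendsto.const_mul (a := 2) h3 (Or.inr (by norm_num))
    simpa using h4
  refine tendsto_of_tendsto_of_tendsto_of_le_of_le' tendsto_const_nhds hlim
    (Filter.Eventually.of_forall fun _ => zero_le) ?_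
  filter_upwards [eventually_ge_atTop 16] with n hn
  exact prob_norm hn ε


section Rows

variable {n : ℕ}

theorem row_sum_eq (g : Pair n → ℝ) (i : Fin n) :
    ∑ j, coupling g i j ^ 2 =
      ∑ p : Pair n, if p.1.1 = i ∨ p.1.2 = i then g p ^ 2 else 0 := by
  have h := sum_symm_eq (fun a b : Fin n => if a = i ∨ b = i then coupling g a b ^ 2 else 0)
    (fun a b => by rw [coupling_symm g a b]; simp [or_comm])
  simp only [coupling_pair, coupling_self] at h
  have h1 : ∑ a, ∑ b, (if a = i ∨ b = i then coupling g a b ^ 2 else 0) =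
      2 * ∑ j, coupling g i j ^ 2 := by
    have e : ∀ a b : Fin n, (if a = i ∨ b = i then coupling g a b ^ 2 else 0) =
        (if a = i then coupling g a b ^ 2 else 0) + (if b = i then coupling g a b ^ 2 else 0) := by
      intro a b
      by_cases ha : a = i
      · by_cases hb : b = i
        · subst ha; subst hb; simp [coupling_self]
        · simp [ha, hb]
      · simp [ha]
    simp only [e, Finset.sum_add_distrib]
    rw [Finset.sum_comm (f := fun a b => if a = i then coupling g a b ^ 2 else 0)]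
    simp only [Finset.sum_ite_eq', Finset.mem_univ, if_true]
    simp only [coupling_symm g _ i]
    ring
  rw [h1] at h
  simp at h
  linarith

theorem card_row_le (i : Fin n) :
    ((Finset.univ.filter fun p : Pair n => p.1.1 = i ∨ p.1.2 = i).card : ℝ) ≤ n := by
  have h := row_sum_eq (fun _ => (1 : ℝ)) i
  have h1 : ∑ p : Pair n, (if p.1.1 = i ∨ p.1.2 = i then (1 : ℝ) ^ 2 else 0) =
      (Finset.univ.filter fun p : Pair n => p.1.1 = i ∨ p.1.2 = i).card := by
    simp
  rw [← h1, ← h]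
  calc ∑ j, coupling (fun _ => (1 : ℝ)) i j ^ 2 ≤ ∑ _j : Fin n, (1 : ℝ) := by
        refine Finset.sum_le_sum fun j _ => ?_
        unfold coupling
        split_ifs <;> norm_num
    _ = n := by simp

theorem exp_row_le {a : ℝ} (ha0 : 0 ≤ a) (ha : a ≤ 1 / 4) (i : Fin n) :
    Integrable (fun g : Pair n → ℝ => Real.exp (a * ∑ j, coupling g i j ^ 2)) (disorder n) ∧
    ∫ g, Real.exp (a * ∑ j, coupling g i j ^ 2) ∂(disorder n) ≤
      Real.exp (n * (a + 2 * a ^ 2)) := by
  have e : ∀ g : Pair n → ℝ, Real.exp (a * ∑ j, coupling g i j ^ 2) =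
      ∏ p : Pair n, Real.exp ((if p.1.1 = i ∨ p.1.2 = i then a else 0) * g p ^ 2) := by
    intro g
    rw [row_sum_eq, Finset.mul_sum, Real.exp_sum]
    refine Finset.prod_congr rfl fun p _ => ?_
    split_ifs <;> simp
  simp only [e]
  refine ⟨?_, ?_⟩
  · refine Integrable.fintype_prod (ι := Pair n) (𝕜 := ℝ)
      (f := fun p x => Real.exp ((if p.1.1 = i ∨ p.1.2 = i then a else 0) * x ^ 2))
      (μ := fun _ => gaussianReal 0 1) fun p => integrable_exp_sq ?_
    split_ifs <;> linarith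
  · unfold disorder
    rw [integral_fintype_prod_eq_prod
      (f := fun (p : Pair n) (x : ℝ) =>
        Real.exp ((if p.1.1 = i ∨ p.1.2 = i then a else 0) * x ^ 2))]
    have h1 : ∀ p : Pair n, ∫ x, Real.exp ((if p.1.1 = i ∨ p.1.2 = i then a else 0) * x ^ 2)
        ∂(gaussianReal 0 1) ≤ if p.1.1 = i ∨ p.1.2 = i then Real.exp (a + 2 * a ^ 2) else 1 := by
      intro p
      split_ifs with h
      · rw [integral_exp_sq (by linarith)]
        refine (sqrt_inv_le_exp (x := 2 * a) (by linarith) (by linarith)).trans (le_of_eq ?_)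
        congr 1; ring
      · simp
    calc _ ≤ ∏ p : Pair n, (if p.1.1 = i ∨ p.1.2 = i then Real.exp (a + 2 * a ^ 2) else 1) :=
          Finset.prod_le_prod (fun p _ => integral_nonneg fun x => (Real.exp_pos _).le)
            (fun p _ => h1 p)
      _ = Real.exp (a + 2 * a ^ 2) ^
          (Finset.univ.filter fun p : Pair n => p.1.1 = i ∨ p.1.2 = i).card := by
          rw [Finset.prod_ite]; simp
      _ ≤ _ := by
          rw [← Real.exp_nat_mul]
          refine Real.exp_le_exp.2 (mul_le_mul_of_nonneg_right (card_row_le i) (by positivity))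

theorem prob_row {a : ℝ} (ha0 : 0 ≤ a) (ha : a ≤ 1 / 4) (i : Fin n) (t : ℝ) :
    disorder n {g | t < ∑ j, coupling g i j ^ 2} ≤
      ENNReal.ofReal (Real.exp (n * (a + 2 * a ^ 2) - a * t)) := by
  have : IsProbabilityMeasure (disorder n) := by unfold disorder; infer_instance
  obtain ⟨hint, hI⟩ := exp_row_le ha0 ha i
  have hmarkov := mul_meas_ge_le_integral_of_nonneg (μ := disorder n)
    (f := fun g => Real.exp (a * ∑ j, coupling g i j ^ 2))
    (Filter.Eventually.of_forall fun g => (Real.exp_pos _).le) hint (Real.exp (a * t))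
  have hsub : {g | t < ∑ j, coupling g i j ^ 2} ⊆
      {g | Real.exp (a * t) ≤ Real.exp (a * ∑ j, coupling g i j ^ 2)} := by
    intro g hg
    exact Real.exp_le_exp.2 (mul_le_mul_of_nonneg_left (le_of_lt hg) ha0)
  refine (measure_mono hsub).trans ?_
  rw [← ENNReal.ofReal_toReal (measure_ne_top (disorder n) _)]
  refine ENNReal.ofReal_le_ofReal ?_
  rw [Real.exp_sub, le_div_iff₀ (Real.exp_pos _)]
  have h3 := hmarkov.trans hI
  rw [mul_comm] at h3
  exact h3

theorem prob_entry (i j : Fin n) (t : ℝ) (ht : 0 ≤ t) :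
    disorder n {g | t < |coupling g i j|} ≤
      ENNReal.ofReal (Real.exp (1 - t ^ 2 / 4)) := by
  have : IsProbabilityMeasure (disorder n) := by unfold disorder; infer_instance
  have key : ∀ p : Pair n, disorder n {g | t < |g p|} ≤
      ENNReal.ofReal (Real.exp (1 - t ^ 2 / 4)) := by
    intro p
    have hint : Integrable (fun x : ℝ => Real.exp (1 / 4 * x ^ 2)) (gaussianReal 0 1) :=
      integrable_exp_sq (by norm_num)
    have hmp := measurePreserving_eval (fun _ : Pair n => gaussianReal 0 1) p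
    have hmarkov := mul_meas_ge_le_integral_of_nonneg (μ := gaussianReal 0 1)
      (f := fun x => Real.exp (1 / 4 * x ^ 2))
      (Filter.Eventually.of_forall fun g => (Real.exp_pos _).le) hint
      (Real.exp (1 / 4 * t ^ 2))
    rw [integral_exp_sq (by norm_num)] at hmarkov
    have hb : Real.sqrt (1 / (1 - 2 * (1 / 4))) ≤ Real.exp 1 := by
      have h := sqrt_inv_le_exp (x := 1 / 2) (by norm_num) le_rfl
      have e : (1 : ℝ) - 2 * (1 / 4) = 1 - 1 / 2 := by norm_num
      rw [e]
      exact h.trans (Real.exp_le_exp.2 (by norm_num))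
    have hset : {g : Pair n → ℝ | t < |g p|} = (fun g : Pair n → ℝ => g p) ⁻¹' {x | t < |x|} := rfl
    have hms : MeasurableSet {x : ℝ | t < |x|} :=
      measurableSet_lt measurable_const measurable_id.abs
    have e1 : disorder n {g | t < |g p|} = gaussianReal 0 1 {x | t < |x|} := by
      rw [hset]
      exact hmp.measure_preimage hms.nullMeasurableSet
    rw [e1]
    have hsub : {x : ℝ | t < |x|} ⊆ {x | Real.exp (1 / 4 * t ^ 2) ≤ Real.exp (1 / 4 * x ^ 2)} := by
      intro x hx
      refine Real.exp_le_exp.2 ?_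
      have h5 : t ^ 2 ≤ x ^ 2 := by
        rw [← sq_abs x]
        exact pow_le_pow_left₀ ht (le_of_lt hx) 2
      linarith
    refine (measure_mono hsub).trans ?_
    rw [← ENNReal.ofReal_toReal (measure_ne_top (gaussianReal 0 1) _)]
    refine ENNReal.ofReal_le_ofReal ?_
    rw [Real.exp_sub, le_div_iff₀ (Real.exp_pos _)]
    have h3 := hmarkov.trans hb
    rw [mul_comm] at h3
    have e2 : t ^ 2 / 4 = 1 / 4 * t ^ 2 := by ring
    rw [e2]
    exact h3
  rcases lt_trichotomy i j with h | h | h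
  · have e : ∀ g : Pair n → ℝ, coupling g i j = g ⟨(i, j), h⟩ := fun g => by
      unfold coupling; rw [dif_pos h]
    simp only [e]; exact key _
  · subst h
    simp only [coupling_self, abs_zero, not_lt.2 ht]
    simp
  · have e : ∀ g : Pair n → ℝ, coupling g i j = g ⟨(j, i), h⟩ := fun g => by
      unfold coupling; rw [dif_neg h.not_gt, dif_pos h]
    simp only [e]; exact key _

end Rows

/-- W1b -/
theorem row_norm (ε : ℝ) (hε : 0 < ε) :
    Tendsto (fun n : ℕ => disorder n {g | ∃ i : Fin n,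
      (1 + ε) * n < ∑ j, coupling g i j ^ 2}) atTop (𝓝 0) := by
  set a : ℝ := min (1 / 4) (ε / 4) with ha
  have ha0 : 0 < a := lt_min (by norm_num) (by positivity)
  have ha1 : a ≤ 1 / 4 := min_le_left _ _
  have ha2 : a ≤ ε / 4 := min_le_right _ _
  set c : ℝ := a * ε / 2 with hc
  have hc0 : 0 < c := by positivity
  have hbound : ∀ n : ℕ, disorder n {g | ∃ i : Fin n, (1 + ε) * n < ∑ j, coupling g i j ^ 2} ≤
      ENNReal.ofReal (n * Real.exp (-(c * n))) := by
    intro n
    have hset : {g : Pair n → ℝ | ∃ i : Fin n, (1 + ε) * n < ∑ j, coupling g i j ^ 2} =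
        ⋃ i : Fin n, {g | (1 + ε) * n < ∑ j, coupling g i j ^ 2} := by
      ext g; simp
    rw [hset]
    refine (measure_iUnion_le _).trans ?_
    rw [tsum_fintype]
    calc ∑ i : Fin n, disorder n {g | (1 + ε) * n < ∑ j, coupling g i j ^ 2} ≤
        ∑ _i : Fin n, ENNReal.ofReal (Real.exp (-(c * n))) := by
          refine Finset.sum_le_sum fun i _ => (prob_row ha0.le ha1 i _).trans ?_
          refine ENNReal.ofReal_le_ofReal (Real.exp_le_exp.2 ?_)
          have hn : (0 : ℝ) ≤ n := Nat.cast_nonneg n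
          have h1 : n * (a + 2 * a ^ 2) - a * ((1 + ε) * n) = -((a * ε - 2 * a ^ 2) * n) := by
            ring
          rw [h1]
          have h2 : c ≤ a * ε - 2 * a ^ 2 := by rw [hc]; nlinarith
          nlinarith
      _ = _ := by
          rw [Finset.sum_const, Finset.card_univ, Fintype.card_fin, nsmul_eq_mul,
            ENNReal.ofReal_mul (Nat.cast_nonneg n), ENNReal.ofReal_natCast]
  have hlim : Tendsto (fun n : ℕ => ENNReal.ofReal (n * Real.exp (-(c * n)))) atTop (𝓝 0) := by
    have h1 := (Real.tendsto_pow_mul_exp_neg_atTop_nhds_zero 1).comp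
      ((tendsto_natCast_atTop_atTop (R := ℝ)).const_mul_atTop hc0)
    have h2 := h1.const_mul c⁻¹
    have h3 : Tendsto (fun n : ℕ => (n : ℝ) * Real.exp (-(c * n))) atTop (𝓝 0) := by
      rw [mul_zero] at h2
      refine h2.congr fun n => ?_
      simp only [Function.comp, pow_one]
      field_simp
    have h4 := ENNReal.tendsto_ofReal h3
    simpa using h4
  exact tendsto_of_tendsto_of_tendsto_of_le_of_le tendsto_const_nhds hlim
    (fun _ => zero_le) hbound

/-- W1c -/
theorem entry_bound (ε : ℝ) (hε : 0 < ε) :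
    Tendsto (fun n : ℕ => disorder n {g | ∃ i j : Fin n,
      ε * Real.sqrt n < |coupling g i j|}) atTop (𝓝 0) := by
  set c : ℝ := ε ^ 2 / 4 with hc
  have hc0 : 0 < c := by positivity
  have hbound : ∀ n : ℕ, disorder n {g | ∃ i j : Fin n, ε * Real.sqrt n < |coupling g i j|} ≤
      ENNReal.ofReal ((n : ℝ) ^ 2 * Real.exp (1 - c * n)) := by
    intro n
    have hset : {g : Pair n → ℝ | ∃ i j : Fin n, ε * Real.sqrt n < |coupling g i j|} =
        ⋃ q : Fin n × Fin n, {g | ε * Real.sqrt n < |coupling g q.1 q.2|} := by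
      ext g; simp
    rw [hset]
    refine (measure_iUnion_le _).trans ?_
    rw [tsum_fintype]
    calc ∑ q : Fin n × Fin n, disorder n {g | ε * Real.sqrt n < |coupling g q.1 q.2|} ≤
        ∑ _q : Fin n × Fin n, ENNReal.ofReal (Real.exp (1 - c * n)) := by
          refine Finset.sum_le_sum fun q _ => (prob_entry q.1 q.2 _ (by positivity)).trans ?_
          refine ENNReal.ofReal_le_ofReal (Real.exp_le_exp.2 (le_of_eq ?_))
          rw [mul_pow, Real.sq_sqrt (Nat.cast_nonneg n), hc]; ring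
      _ = _ := by
          rw [Finset.sum_const, Finset.card_univ, Fintype.card_prod, Fintype.card_fin,
            nsmul_eq_mul, ENNReal.ofReal_mul (by positivity)]
          congr 1
          rw [← ENNReal.ofReal_natCast]
          congr 1
          push_cast; ring
  have hlim : Tendsto (fun n : ℕ => ENNReal.ofReal ((n : ℝ) ^ 2 * Real.exp (1 - c * n))) atTop
      (𝓝 0) := by
    have h1 := (Real.tendsto_pow_mul_exp_neg_atTop_nhds_zero 2).comp
      ((tendsto_natCast_atTop_atTop (R := ℝ)).const_mul_atTop hc0)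
    have h2 := h1.const_mul ((c ^ 2)⁻¹ * Real.exp 1)
    have h3 : Tendsto (fun n : ℕ => (n : ℝ) ^ 2 * Real.exp (1 - c * n)) atTop (𝓝 0) := by
      rw [mul_zero] at h2
      refine h2.congr fun n => ?_
      simp only [Function.comp]
      rw [sub_eq_add_neg, Real.exp_add]
      field_simp
    have h4 := ENNReal.tendsto_ofReal h3
    simpa using h4
  exact tendsto_of_tendsto_of_tendsto_of_le_of_le tendsto_const_nhds hlim
    (fun _ => zero_le) hbound

end Vale.Agent.P150
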