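import Vale.Agent.Lib.P150.Connect
import Vale.Agent.Lib.P150.GOE
import Vale.Agent.Lib.P150.EntropyTens

namespace Vale.Agent.P150

open MeasureTheory ProbabilityTheory Filter Topology

variable {n : ℕ}

/-- deterministic conditions on the coupling array -/
structure GoodJ (J : Fin n → Fin n → ℝ) (b δ : ℝ) : Prop where
  symm : ∀ i j, J i j = J j i
  diag : ∀ i, J i i = 0
  norm : ∀ v : Fin n → ℝ, |∑ i, ∑ j, J i j * v i * v j| ≤ 2 * b * ∑ i, v i ^ 2
  row : ∀ i, ∑ j, J i j ^ 2 ≤ b ^ 2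
  ent : ∀ i j, |J i j| ≤ δ

lemma GoodJ.smul {J : Fin n → Fin n → ℝ} {b δ : ℝ} (h : GoodJ J b δ) (t : ℝ) (ht0 : 0 ≤ t)
    (ht1 : t ≤ 1) : GoodJ (fun i j => t * J i j) b δ where
  symm i j := by simp only [h.symm i j]
  diag i := by simp only [h.diag i, mul_zero]
  norm v := by
    have e : ∑ i, ∑ j, t * J i j * v i * v j = t * ∑ i, ∑ j, J i j * v i * v j := by
      rw [Finset.mul_sum]
      refine Finset.sum_congr rfl fun i _ => ?_
      rw [Finset.mul_sum]
      refine Finset.sum_congr rfl fun j _ => ?_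
      ring
    rw [e, abs_mul, abs_of_nonneg ht0]
    calc t * |∑ i, ∑ j, J i j * v i * v j| ≤ 1 * |∑ i, ∑ j, J i j * v i * v j| :=
          mul_le_mul_of_nonneg_right ht1 (abs_nonneg _)
      _ ≤ _ := by rw [one_mul]; exact h.norm v
  row i := by
    refine le_trans ?_ (h.row i)
    refine Finset.sum_le_sum fun j _ => ?_
    rw [mul_pow]
    have : t ^ 2 ≤ 1 := pow_le_one₀ ht0 ht1
    calc t ^ 2 * J i j ^ 2 ≤ 1 * J i j ^ 2 := mul_le_mul_of_nonneg_right this (sq_nonneg _)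
      _ = _ := one_mul _
  ent i j := by
    rw [abs_mul, abs_of_nonneg ht0]
    calc t * |J i j| ≤ 1 * |J i j| := mul_le_mul_of_nonneg_right ht1 (abs_nonneg _)
      _ ≤ δ := by rw [one_mul]; exact h.ent i j

lemma GoodJ.gap {J : Fin n → Fin n → ℝ} {b δ κ : ℝ} (h : GoodJ J b δ) (hb0 : 0 ≤ b) (hb : b ≤ 1)
    (hδ0 : 0 ≤ δ) (hδ : δ ≤ 1 / 20) (hκ : κ ≤ 1 - 2 * b - 200 * δ) (θ : Fin n → ℝ)
    (f : Config n → ℝ) :
    κ * ((∑ x, isingW J θ x * f x ^ 2) * (∑ x, isingW J θ x) - (∑ x, isingW J θ x * f x) ^ 2) ≤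
    (∑ x, isingW J θ x) * ∑ i, ∑ x, isingW J θ x * (f x - condE (isingW J θ) i f x) ^ 2 := by
  have h1 := gap_bound J h.symm h.diag (2 * b) (b ^ 2) δ (sq_nonneg _) hδ0 hδ
    (fun v => (le_abs_self _).trans (h.norm v)) h.row (by nlinarith) h.ent θ f
  refine le_trans ?_ h1
  refine mul_le_mul_of_nonneg_right ?_ ?_
  · have : b ^ 2 ≤ 1 := pow_le_one₀ hb0 hb
    nlinarith
  · -- variance is nonnegative
    have hw : ∀ x, 0 < isingW J θ x := fun x => Real.exp_pos _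
    have := Finset.sum_mul_sq_le_sq_mul_sq Finset.univ (fun x => Real.sqrt (isingW J θ x) * f x)
      (fun x => Real.sqrt (isingW J θ x))
    have e1 : ∑ x, Real.sqrt (isingW J θ x) * f x * Real.sqrt (isingW J θ x)
        = ∑ x, isingW J θ x * f x := by
      refine Finset.sum_congr rfl fun x _ => ?_
      have := Real.mul_self_sqrt (hw x).le
      linear_combination f x * this
    have e2 : ∑ x, (Real.sqrt (isingW J θ x) * f x) ^ 2 = ∑ x, isingW J θ x * f x ^ 2 := by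
      refine Finset.sum_congr rfl fun x _ => ?_
      rw [mul_pow, Real.sq_sqrt (hw x).le]
    have e3 : ∑ x, Real.sqrt (isingW J θ x) ^ 2 = ∑ x, isingW J θ x := by
      refine Finset.sum_congr rfl fun x _ => ?_
      rw [Real.sq_sqrt (hw x).le]
    rw [e1, e2, e3] at this
    linarith

lemma sum_condE_linear_le {w : Config n → ℝ} {T : Fin n → Config n → ℝ} (h : CondMean w T)
    (v : Fin n → ℝ) :
    ∑ i, ∑ x, w x * ((∑ k, v k * spin (x k)) - condE w i (fun y => ∑ k, v k * spin (y k)) x) ^ 2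
      ≤ (∑ i, v i ^ 2) * ∑ x, w x := by
  rw [Finset.sum_mul]
  refine Finset.sum_le_sum fun i _ => ?_
  have hdd : ∀ x : Config n, dd i (fun y => ∑ k, v k * spin (y k)) x = v i := by
    intro x
    rw [dd_sum]
    simp only [dd_const_mul, dd_spin]
    simp
  have e : ∑ x, w x * ((∑ k, v k * spin (x k))
      - condE w i (fun y => ∑ k, v k * spin (y k)) x) ^ 2
      = ∑ x, w x * ((1 - T i x ^ 2) * v i ^ 2) := by
    have := h.diag i (fun y => ∑ k, v k * spin (y k))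
    simp only [hdd] at this
    rw [← this]
    refine Finset.sum_congr rfl fun x _ => ?_
    have hc := condE_sub h i (fun y => ∑ k, v k * spin (y k)) x
    rw [hdd] at hc
    rw [hc]; ring
  rw [e, Finset.mul_sum]
  refine Finset.sum_le_sum fun x _ => ?_
  have h1 : (1 - T i x ^ 2) * v i ^ 2 ≤ 1 * v i ^ 2 :=
    mul_le_mul_of_nonneg_right (by linarith [sq_nonneg (T i x)]) (sq_nonneg _)
  have := mul_le_mul_of_nonneg_left h1 (h.pos x).le
  linarith

lemma GoodJ.cov {J : Fin n → Fin n → ℝ} {b δ κ : ℝ} (h : GoodJ J b δ) (hb0 : 0 ≤ b) (hb : b ≤ 1)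
    (hδ0 : 0 ≤ δ) (hδ : δ ≤ 1 / 20) (hκ : κ ≤ 1 - 2 * b - 200 * δ) (hκ0 : 0 < κ)
    (θ v : Fin n → ℝ) :
    (∑ x, isingW J θ x * (∑ i, v i * spin (x i)) ^ 2) * (∑ x, isingW J θ x) -
        (∑ x, isingW J θ x * (∑ i, v i * spin (x i))) ^ 2 ≤
      κ⁻¹ * (∑ i, v i ^ 2) * (∑ x, isingW J θ x) ^ 2 := by
  have h1 := h.gap hb0 hb hδ0 hδ hκ θ (fun x => ∑ i, v i * spin (x i))
  have hc := condMean_ising J h.symm h.diag θ
  have h2 := sum_condE_linear_le hc v
  have hZ : 0 < ∑ x, isingW J θ x :=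
    Finset.sum_pos (fun x _ => hc.pos x) ⟨fun _ => true, Finset.mem_univ _⟩
  have h3 := mul_le_mul_of_nonneg_left h2 hZ.le
  have h4 := h1.trans h3
  rw [mul_assoc, inv_mul_eq_div, le_div_iff₀ hκ0]
  calc _ = κ * ((∑ x, isingW J θ x * (∑ i, v i * spin (x i)) ^ 2) * (∑ x, isingW J θ x) -
        (∑ x, isingW J θ x * (∑ i, v i * spin (x i))) ^ 2) := by ring
    _ ≤ _ := h4
    _ = _ := by ring

/-- the uniform bound for all `t ∈ [0,1]` -/
lemma GoodJ.tv {J : Fin n → Fin n → ℝ} {b δ κ : ℝ} (h : GoodJ J b δ) (hb0 : 0 ≤ b) (hb : b ≤ 1)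
    (hδ0 : 0 ≤ δ) (hδ : δ ≤ 1 / 20) (hκ : κ ≤ 1 - 2 * b - 200 * δ) (hκ0 : 0 < κ)
    (t : ℝ) (ht : 0 ≤ t) (x : Config n) :
    (∑ y, |(NormedSpace.exp (t • genMat (isingW J 0))) x y
        - isingW J 0 y / ∑ z, isingW J 0 z|) / 2 ≤
      Real.sqrt (Real.exp (-t / Real.exp (32 * (2 * b) * κ⁻¹))
        * Real.log ((∑ z, isingW J 0 z) / isingW J 0 x)) := by
  refine tv_of_entropy_tensorization (isingW J 0) (fun x => Real.exp_pos _)
    (Real.exp (32 * (2 * b) * κ⁻¹)) (Real.exp_pos _) (fun f hf => ?_) t ht x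
  refine entropy_tensorization J h.symm (2 * b) κ⁻¹ (by positivity) (inv_pos.mpr hκ0) h.norm
    (fun t ht0 ht1 θ v => ?_) f hf
  exact (h.smul t ht0 ht1).cov hb0 hb hδ0 hδ hκ hκ0 θ v

lemma GoodJ.log_bound {J : Fin n → Fin n → ℝ} {b δ : ℝ} (h : GoodJ J b δ) (hb : b ≤ 1 / 2)
    (x : Config n) :
    Real.log ((∑ z, isingW J 0 z) / isingW J 0 x) ≤ 2 * n := by
  have hE : ∀ y : Config n, |(∑ i, ∑ j, J i j * spin (y i) * spin (y j)) / 2| ≤ n / 2 := by
    intro y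
    have h1 := h.norm (fun i => spin (y i))
    have h2 : ∑ i, spin (y i) ^ 2 = (n : ℝ) := by simp [spin_sq]
    rw [h2] at h1
    rw [abs_div, abs_two]
    have : 2 * b * (n : ℝ) ≤ 1 * n := mul_le_mul_of_nonneg_right (by linarith) (Nat.cast_nonneg n)
    linarith
  have hw : ∀ y : Config n, isingW J 0 y
      = Real.exp ((∑ i, ∑ j, J i j * spin (y i) * spin (y j)) / 2) := by
    intro y; unfold isingW; simp
  have hup : ∀ y : Config n, isingW J 0 y ≤ Real.exp (n / 2) := by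
    intro y; rw [hw]; exact Real.exp_le_exp.mpr (abs_le.mp (hE y)).2
  have hlo : Real.exp (-(n / 2)) ≤ isingW J 0 x := by
    rw [hw]; exact Real.exp_le_exp.mpr (abs_le.mp (hE x)).1
  have hZ : ∑ z : Config n, isingW J 0 z ≤ 2 ^ n * Real.exp (n / 2) := by
    calc ∑ z : Config n, isingW J 0 z ≤ ∑ _z : Config n, Real.exp (n / 2) :=
          Finset.sum_le_sum fun z _ => hup z
      _ = _ := by simp
  have hZ0 : 0 < ∑ z : Config n, isingW J 0 z :=
    Finset.sum_pos (fun z _ => Real.exp_pos _) ⟨fun _ => true, Finset.mem_univ _⟩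
  have hx0 : 0 < isingW J 0 x := Real.exp_pos _
  have h1 : (∑ z, isingW J 0 z) / isingW J 0 x ≤ 2 ^ n * Real.exp n := by
    rw [div_le_iff₀ hx0]
    calc ∑ z, isingW J 0 z ≤ 2 ^ n * Real.exp (n / 2) := hZ
      _ = 2 ^ n * Real.exp n * Real.exp (-(n / 2)) := by
          rw [mul_assoc, ← Real.exp_add]; congr 2; ring
      _ ≤ 2 ^ n * Real.exp n * isingW J 0 x := mul_le_mul_of_nonneg_left hlo (by positivity)
  calc Real.log ((∑ z, isingW J 0 z) / isingW J 0 x) ≤ Real.log (2 ^ n * Real.exp n) :=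
        Real.log_le_log (div_pos hZ0 hx0) h1
    _ = n * Real.log 2 + n := by
        rw [Real.log_mul (by positivity) (Real.exp_pos _).ne', Real.log_pow, Real.log_exp]
    _ ≤ 2 * n := by
        have := Real.log_two_lt_d9
        have hn : (0:ℝ) ≤ n := Nat.cast_nonneg n
        nlinarith

end Vale.Agent.P150
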