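import Vale.Agent.Lib.P150.PairBound

namespace Vale.Agent.P150

variable {n : ℕ}

lemma CondMean.diag {w : Config n → ℝ} {T : Fin n → Config n → ℝ} (h : CondMean w T)
    (i : Fin n) (f : Config n → ℝ) :
    ∑ x, w x * ((spin (x i) - T i x) * dd i f x * ((spin (x i) - T i x) * dd i f x))
      = ∑ x, w x * ((1 - T i x ^ 2) * dd i f x ^ 2) := by
  have s := h.ibp i (fun y => (spin (y i) - T i y) * (dd i f y * dd i f y))
  have l : ∀ x, dd i (fun y => (spin (y i) - T i y) * (dd i f y * dd i f y)) x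
      = dd i f x ^ 2 := by
    intro x
    rw [dd_mul i (fun y => spin (y i) - T i y) (fun y => dd i f y * dd i f y),
      dd_sub i (fun y => spin (y i)) (T i), dd_spin_self,
      dd_eq_zero_of_indep (i := i) (f := T i) (h.indep i),
      dd_eq_zero_of_indep (i := i) (f := fun y => dd i f y * dd i f y)
        (fun y b => by simp only [dd_update_self])]
    ring
  simp only [l] at s
  rw [← s]
  refine Finset.sum_congr rfl fun x _ => ?_
  ring

lemma schur_sq (A : Fin n → Fin n → ℝ) (hA : ∀ i j, 0 ≤ A i j) (hs : ∀ i j, A i j = A j i)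
    (R : ℝ) (hR : ∀ i, ∑ j, A i j ≤ R) (a b : Fin n → ℝ) :
    ∑ i, ∑ j, A i j * (a i * b j) ≤ R * (∑ i, a i ^ 2 + ∑ i, b i ^ 2) / 2 := by
  have h1 : ∀ i j, A i j * (a i * b j) ≤ A i j * a i ^ 2 / 2 + A i j * b j ^ 2 / 2 := by
    intro i j
    nlinarith [mul_nonneg (hA i j) (sq_nonneg (a i - b j))]
  calc ∑ i, ∑ j, A i j * (a i * b j)
      ≤ ∑ i, ∑ j, (A i j * a i ^ 2 / 2 + A i j * b j ^ 2 / 2) :=
        Finset.sum_le_sum fun i _ => Finset.sum_le_sum fun j _ => h1 i j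
    _ = ∑ i, (∑ j, A i j) * (a i ^ 2 / 2) + ∑ j, (∑ i, A j i) * (b j ^ 2 / 2) := by
        simp only [Finset.sum_add_distrib]
        congr 1
        · refine Finset.sum_congr rfl fun i _ => ?_
          rw [Finset.sum_mul]; refine Finset.sum_congr rfl fun j _ => by ring
        · rw [Finset.sum_comm]
          refine Finset.sum_congr rfl fun j _ => ?_
          rw [Finset.sum_mul]; refine Finset.sum_congr rfl fun i _ => by rw [hs i j]; ring
    _ ≤ ∑ i, R * (a i ^ 2 / 2) + ∑ j, R * (b j ^ 2 / 2) := by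
        gcongr with i _ j _
        · exact hR i
        · exact hR j
    _ = _ := by
        rw [← Finset.mul_sum, ← Finset.mul_sum, ← Finset.sum_div, ← Finset.sum_div]; ring

/-- L²-Bochner inequality -/
theorem CondMean.bochner {w : Config n → ℝ} {T : Fin n → Config n → ℝ} (h : CondMean w T)
    (τ : Fin n → Fin n → ℝ) (hs : ∀ i j, τ i j = τ j i) (h0 : ∀ i, τ i i = 0)
    (hder : ∀ i j x, dd j (T i) x * (1 - 2 * τ i j * spin (x j) * T i x)
      = τ i j * (1 - T i x ^ 2))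
    (lam R δ : ℝ) (hδ : δ ≤ 1 / 20) (hent : ∀ i j, |τ i j| ≤ δ)
    (hrow : ∀ i, ∑ j, τ i j ^ 2 ≤ R) (hR : 2 * R ≤ lam)
    (hlam : ∀ v : Fin n → ℝ, ∑ i, ∑ j, τ i j * (v i * v j) ≤ lam * ∑ i, v i ^ 2)
    (f : Config n → ℝ) :
    (1 - lam - 24 * δ * R) * ∑ x, w x * ∑ i, (1 - T i x ^ 2) * dd i f x ^ 2
      ≤ ∑ x, w x * (∑ i, (spin (x i) - T i x) * dd i f x) ^ 2 := by
  rcases Nat.eq_zero_or_pos n with hn | hn
  · subst hn; simp
  have hδ0 : 0 ≤ δ := (abs_nonneg _).trans (hent ⟨0, hn⟩ ⟨0, hn⟩)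
  have hR0 : 0 ≤ R := (Finset.sum_nonneg fun j _ => sq_nonneg _).trans (hrow ⟨0, hn⟩)
  -- expand the square
  have e1 : ∑ x, w x * (∑ i, (spin (x i) - T i x) * dd i f x) ^ 2
      = ∑ i, ∑ j, ∑ x, w x * ((spin (x i) - T i x) * dd i f x *
          ((spin (x j) - T j x) * dd j f x)) := by
    have : ∀ x, w x * (∑ i, (spin (x i) - T i x) * dd i f x) ^ 2
        = ∑ i, ∑ j, w x * ((spin (x i) - T i x) * dd i f x *
          ((spin (x j) - T j x) * dd j f x)) := by
      intro x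
      rw [sq, Finset.sum_mul_sum, Finset.mul_sum]
      refine Finset.sum_congr rfl fun i _ => ?_
      rw [Finset.mul_sum]
    simp only [this]
    rw [Finset.sum_comm]
    refine Finset.sum_congr rfl fun i _ => ?_
    rw [Finset.sum_comm]
  rw [e1]
  -- lower bound of each pair
  have hpair : ∀ i j, (if i = j then ∑ x, w x * ((1 - T i x ^ 2) * dd i f x ^ 2) else 0)
      + ∑ x, w x * ((1 - T i x ^ 2) * (1 - T j x ^ 2) * (-τ i j * dd i f x * dd j f x
        - 2 * τ i j ^ 2 * T i x * T j x * dd i f x * dd j f x)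
        - 12 * |τ i j| ^ 3 * ((1 - T i x ^ 2) * dd i f x ^ 2 + (1 - T j x ^ 2) * dd j f x ^ 2))
      ≤ ∑ x, w x * ((spin (x i) - T i x) * dd i f x * ((spin (x j) - T j x) * dd j f x)) := by
    intro i j
    by_cases hij : i = j
    · subst hij
      rw [if_pos rfl, h0, h.diag]
      simp
    · rw [if_neg hij, zero_add]
      refine h.pair_bound hij (τ i j) ((hent i j).trans hδ) (fun x => hder i j x) (fun x => ?_) f
      have := hder j i x
      rw [hs j i] at this
      exact this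
  refine le_trans ?_ (Finset.sum_le_sum fun i _ => Finset.sum_le_sum fun j _ => hpair i j)
  -- reorganise the sum
  have e2 : ∑ i, ∑ j, ((if i = j then ∑ x, w x * ((1 - T i x ^ 2) * dd i f x ^ 2) else 0)
      + ∑ x, w x * ((1 - T i x ^ 2) * (1 - T j x ^ 2) * (-τ i j * dd i f x * dd j f x
        - 2 * τ i j ^ 2 * T i x * T j x * dd i f x * dd j f x)
        - 12 * |τ i j| ^ 3 * ((1 - T i x ^ 2) * dd i f x ^ 2 + (1 - T j x ^ 2) * dd j f x ^ 2)))
      = ∑ x, w x * (∑ i, (1 - T i x ^ 2) * dd i f x ^ 2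
        - ∑ i, ∑ j, τ i j * (((1 - T i x ^ 2) * dd i f x) * ((1 - T j x ^ 2) * dd j f x))
        - 2 * ∑ i, ∑ j, τ i j ^ 2 * ((T i x * (1 - T i x ^ 2) * dd i f x)
            * (T j x * (1 - T j x ^ 2) * dd j f x))
        - ∑ i, ∑ j, 12 * |τ i j| ^ 3 * ((1 - T i x ^ 2) * dd i f x ^ 2
            + (1 - T j x ^ 2) * dd j f x ^ 2)) := by
    simp only [Finset.sum_add_distrib]
    have a1 : ∑ i : Fin n, ∑ j, (if i = j then ∑ x, w x * ((1 - T i x ^ 2) * dd i f x ^ 2) else 0)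
        = ∑ x, w x * ∑ i, (1 - T i x ^ 2) * dd i f x ^ 2 := by
      simp only [Finset.sum_ite_eq, Finset.mem_univ, if_true]
      rw [Finset.sum_comm]
      refine Finset.sum_congr rfl fun x _ => ?_
      rw [Finset.mul_sum]
    rw [a1]
    have a2 : ∑ i, ∑ j, ∑ x, w x * ((1 - T i x ^ 2) * (1 - T j x ^ 2) *
        (-τ i j * dd i f x * dd j f x
        - 2 * τ i j ^ 2 * T i x * T j x * dd i f x * dd j f x)
        - 12 * |τ i j| ^ 3 * ((1 - T i x ^ 2) * dd i f x ^ 2 + (1 - T j x ^ 2) * dd j f x ^ 2))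
        = ∑ x, w x * ∑ i, ∑ j, ((1 - T i x ^ 2) * (1 - T j x ^ 2) *
        (-τ i j * dd i f x * dd j f x
        - 2 * τ i j ^ 2 * T i x * T j x * dd i f x * dd j f x)
        - 12 * |τ i j| ^ 3 * ((1 - T i x ^ 2) * dd i f x ^ 2
          + (1 - T j x ^ 2) * dd j f x ^ 2)) := by
      have : ∀ i, ∑ j, ∑ x, w x * ((1 - T i x ^ 2) * (1 - T j x ^ 2) *
        (-τ i j * dd i f x * dd j f x
        - 2 * τ i j ^ 2 * T i x * T j x * dd i f x * dd j f x)
        - 12 * |τ i j| ^ 3 * ((1 - T i x ^ 2) * dd i f x ^ 2 + (1 - T j x ^ 2) * dd j f x ^ 2))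
        = ∑ x, ∑ j, w x * ((1 - T i x ^ 2) * (1 - T j x ^ 2) *
        (-τ i j * dd i f x * dd j f x
        - 2 * τ i j ^ 2 * T i x * T j x * dd i f x * dd j f x)
        - 12 * |τ i j| ^ 3 * ((1 - T i x ^ 2) * dd i f x ^ 2
          + (1 - T j x ^ 2) * dd j f x ^ 2)) := fun i => Finset.sum_comm
      simp only [this]
      rw [Finset.sum_comm]
      refine Finset.sum_congr rfl fun x _ => ?_
      rw [Finset.mul_sum]
      refine Finset.sum_congr rfl fun i _ => ?_
      rw [Finset.mul_sum]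
    rw [a2, ← Finset.sum_add_distrib]
    refine Finset.sum_congr rfl fun x _ => ?_
    rw [← mul_add]
    congr 1
    rw [Finset.mul_sum]
    simp only [Finset.mul_sum]
    rw [← Finset.sum_sub_distrib, ← Finset.sum_sub_distrib, ← Finset.sum_sub_distrib,
      ← Finset.sum_add_distrib]
    refine Finset.sum_congr rfl fun i _ => ?_
    have : ∀ c : ℝ, c - ∑ j, τ i j * (((1 - T i x ^ 2) * dd i f x) * ((1 - T j x ^ 2) * dd j f x))
        - ∑ j, 2 * (τ i j ^ 2 * ((T i x * (1 - T i x ^ 2) * dd i f x)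
            * (T j x * (1 - T j x ^ 2) * dd j f x)))
        - ∑ j, 12 * |τ i j| ^ 3 * ((1 - T i x ^ 2) * dd i f x ^ 2
            + (1 - T j x ^ 2) * dd j f x ^ 2)
        = c + ∑ j, (-(τ i j * (((1 - T i x ^ 2) * dd i f x) * ((1 - T j x ^ 2) * dd j f x)))
          - 2 * (τ i j ^ 2 * ((T i x * (1 - T i x ^ 2) * dd i f x)
            * (T j x * (1 - T j x ^ 2) * dd j f x)))
          - 12 * |τ i j| ^ 3 * ((1 - T i x ^ 2) * dd i f x ^ 2
            + (1 - T j x ^ 2) * dd j f x ^ 2)) := by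
      intro c
      simp only [Finset.sum_sub_distrib, Finset.sum_neg_distrib]; ring
    rw [this]
    congr 1
    refine Finset.sum_congr rfl fun j _ => ?_
    ring
  rw [e2, Finset.mul_sum]
  refine Finset.sum_le_sum fun x _ => ?_
  have hw := (h.pos x).le
  have key : (1 - lam - 24 * δ * R) * ∑ i, (1 - T i x ^ 2) * dd i f x ^ 2
      ≤ ∑ i, (1 - T i x ^ 2) * dd i f x ^ 2
        - ∑ i, ∑ j, τ i j * (((1 - T i x ^ 2) * dd i f x) * ((1 - T j x ^ 2) * dd j f x))
        - 2 * ∑ i, ∑ j, τ i j ^ 2 * ((T i x * (1 - T i x ^ 2) * dd i f x)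
            * (T j x * (1 - T j x ^ 2) * dd j f x))
        - ∑ i, ∑ j, 12 * |τ i j| ^ 3 * ((1 - T i x ^ 2) * dd i f x ^ 2
            + (1 - T j x ^ 2) * dd j f x ^ 2) := by
    have b1 := hlam (fun i => (1 - T i x ^ 2) * dd i f x)
    have b2 := schur_sq (fun i j => τ i j ^ 2) (fun i j => sq_nonneg _)
      (fun i j => by rw [hs i j]) R hrow (fun i => T i x * (1 - T i x ^ 2) * dd i f x)
      (fun i => T i x * (1 - T i x ^ 2) * dd i f x)
    have b3 : ∑ i, ∑ j, 12 * |τ i j| ^ 3 * ((1 - T i x ^ 2) * dd i f x ^ 2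
            + (1 - T j x ^ 2) * dd j f x ^ 2)
        ≤ 24 * δ * R * ∑ i, (1 - T i x ^ 2) * dd i f x ^ 2 := by
      have c1 : ∀ i j, 12 * |τ i j| ^ 3 * ((1 - T i x ^ 2) * dd i f x ^ 2
            + (1 - T j x ^ 2) * dd j f x ^ 2)
          ≤ 12 * δ * (τ i j ^ 2 * ((1 - T i x ^ 2) * dd i f x ^ 2))
            + 12 * δ * (τ j i ^ 2 * ((1 - T j x ^ 2) * dd j f x ^ 2)) := by
        intro i j
        have d1 : 0 ≤ (1 - T i x ^ 2) * dd i f x ^ 2 :=
          mul_nonneg (by linarith [h.lt i x]) (sq_nonneg _)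
        have d2 : 0 ≤ (1 - T j x ^ 2) * dd j f x ^ 2 :=
          mul_nonneg (by linarith [h.lt j x]) (sq_nonneg _)
        have d3 : |τ i j| ^ 3 ≤ δ * τ i j ^ 2 := by
          have : |τ i j| ^ 3 = |τ i j| * τ i j ^ 2 := by rw [← sq_abs (τ i j)]; ring
          rw [this]
          exact mul_le_mul_of_nonneg_right (hent i j) (sq_nonneg _)
        rw [hs j i]
        have := mul_le_mul_of_nonneg_right d3 (add_nonneg d1 d2)
        linarith
      calc _ ≤ ∑ i, ∑ j, (12 * δ * (τ i j ^ 2 * ((1 - T i x ^ 2) * dd i f x ^ 2))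
            + 12 * δ * (τ j i ^ 2 * ((1 - T j x ^ 2) * dd j f x ^ 2))) :=
            Finset.sum_le_sum fun i _ => Finset.sum_le_sum fun j _ => c1 i j
        _ = 24 * δ * ∑ i, (∑ j, τ i j ^ 2) * ((1 - T i x ^ 2) * dd i f x ^ 2) := by
            simp only [Finset.sum_add_distrib]
            have : ∑ i, ∑ j, 12 * δ * (τ j i ^ 2 * ((1 - T j x ^ 2) * dd j f x ^ 2))
                = ∑ i, ∑ j, 12 * δ * (τ i j ^ 2 * ((1 - T i x ^ 2) * dd i f x ^ 2)) :=
              Finset.sum_comm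
            rw [this, ← two_mul, Finset.mul_sum, Finset.mul_sum]
            refine Finset.sum_congr rfl fun i _ => ?_
            rw [Finset.sum_mul, Finset.mul_sum, Finset.mul_sum]
            refine Finset.sum_congr rfl fun j _ => ?_
            ring
        _ ≤ 24 * δ * ∑ i, R * ((1 - T i x ^ 2) * dd i f x ^ 2) := by
            refine mul_le_mul_of_nonneg_left ?_ (by positivity)
            refine Finset.sum_le_sum fun i _ => ?_
            exact mul_le_mul_of_nonneg_right (hrow i)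
              (mul_nonneg (by linarith [h.lt i x]) (sq_nonneg _))
        _ = _ := by rw [← Finset.mul_sum]; ring
    have b4 : lam * ∑ i, ((1 - T i x ^ 2) * dd i f x) ^ 2
        + 2 * (R * ∑ i, (T i x * (1 - T i x ^ 2) * dd i f x) ^ 2)
        ≤ lam * ∑ i, (1 - T i x ^ 2) * dd i f x ^ 2 := by
      rw [Finset.mul_sum, Finset.mul_sum, Finset.mul_sum, Finset.mul_sum,
        ← Finset.sum_add_distrib]
      refine Finset.sum_le_sum fun i _ => ?_
      have ht := h.lt i x
      have ht0 := sq_nonneg (T i x)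
      have hg := sq_nonneg (dd i f x)
      have c1 : (1 - T i x ^ 2) * (lam + 2 * R * T i x ^ 2) ≤ lam := by
        have : (1 - T i x ^ 2) * (lam + 2 * R * T i x ^ 2)
            = lam - (lam - 2 * R) * T i x ^ 2 - 2 * R * (T i x ^ 2) ^ 2 := by ring
        rw [this]
        have d1 : 0 ≤ (lam - 2 * R) * T i x ^ 2 := mul_nonneg (by linarith) ht0
        have d2 : 0 ≤ 2 * R * (T i x ^ 2) ^ 2 := by positivity
        linarith
      have c2 : 0 ≤ (1 - T i x ^ 2) * dd i f x ^ 2 := mul_nonneg (by linarith) hg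
      have := mul_le_mul_of_nonneg_right c1 c2
      linarith
    linarith
  have := mul_le_mul_of_nonneg_left key hw
  linarith

end Vale.Agent.P150
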