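import Vale.Agent.Lib.P150.Ising

/-!
Discrete calculus on the cube.
-/

namespace Vale.Agent.P150

variable {n : ℕ}

/-- discrete derivative in direction `i` -/
noncomputable def dd (i : Fin n) (f : Config n → ℝ) (x : Config n) : ℝ :=
  (f (Function.update x i true) - f (Function.update x i false)) / 2

lemma spin_sq (b : Bool) : spin b ^ 2 = 1 := by cases b <;> simp [spin]

lemma spin_mul_self (b : Bool) : spin b * spin b = 1 := by cases b <;> simp [spin]

@[simp] lemma spin_true : spin true = 1 := by simp [spin]
@[simp] lemma spin_false : spin false = -1 := by simp [spin]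

lemma abs_spin (b : Bool) : |spin b| = 1 := by cases b <;> simp [spin]

lemma update_eq_cases (x : Config n) (i : Fin n) (b : Bool) (f : Config n → ℝ) :
    f (Function.update x i b) = f x + (spin b - spin (x i)) * dd i f x := by
  unfold dd
  rcases hx : x i with _ | _
  · have h1 : Function.update x i false = x := by rw [← hx]; exact Function.update_eq_self i x
    cases b
    · rw [h1]; simp
    · rw [h1]; simp [spin]; ring
  · have h1 : Function.update x i true = x := by rw [← hx]; exact Function.update_eq_self i x
    cases b
    · rw [h1]; simp [spin]; ring
    · rw [h1]; simp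

lemma dd_update_self (i : Fin n) (f : Config n → ℝ) (x : Config n) (b : Bool) :
    dd i f (Function.update x i b) = dd i f x := by
  unfold dd; simp

lemma dd_comm (i j : Fin n) (f : Config n → ℝ) (x : Config n) :
    dd i (dd j f) x = dd j (dd i f) x := by
  by_cases h : i = j
  · subst h; rfl
  · unfold dd
    simp only [Function.update_comm h]
    ring

lemma dd_dd_self (i : Fin n) (f : Config n → ℝ) (x : Config n) : dd i (dd i f) x = 0 := by
  unfold dd; simp

lemma dd_mul (i : Fin n) (f g : Config n → ℝ) (x : Config n) :
    dd i (fun y => f y * g y) x
      = dd i f x * g x + f x * dd i g x - 2 * spin (x i) * dd i f x * dd i g x := by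
  have hs := spin_mul_self (x i)
  have e : dd i (fun y => f y * g y) x
      = (f (Function.update x i true) * g (Function.update x i true)
        - f (Function.update x i false) * g (Function.update x i false)) / 2 := rfl
  rw [e, update_eq_cases x i true f, update_eq_cases x i false f, update_eq_cases x i true g,
    update_eq_cases x i false g]
  simp only [spin_true, spin_false]
  ring

lemma dd_eq_zero_of_indep {i : Fin n} {f : Config n → ℝ}
    (h : ∀ x b, f (Function.update x i b) = f x) (x : Config n) : dd i f x = 0 := by
  unfold dd; rw [h, h]; ring

lemma dd_add (i : Fin n) (f g : Config n → ℝ) (x : Config n) :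
    dd i (fun y => f y + g y) x = dd i f x + dd i g x := by
  unfold dd; ring

lemma dd_sub (i : Fin n) (f g : Config n → ℝ) (x : Config n) :
    dd i (fun y => f y - g y) x = dd i f x - dd i g x := by
  unfold dd; ring

lemma dd_const (i : Fin n) (c : ℝ) (x : Config n) : dd i (fun _ => c) x = 0 := by
  unfold dd; ring

lemma dd_const_mul (i : Fin n) (c : ℝ) (f : Config n → ℝ) (x : Config n) :
    dd i (fun y => c * f y) x = c * dd i f x := by
  unfold dd; ring

lemma dd_spin_self (i : Fin n) (x : Config n) : dd i (fun y => spin (y i)) x = 1 := by
  unfold dd; simp

lemma dd_spin_ne {i j : Fin n} (h : i ≠ j) (x : Config n) : dd i (fun y => spin (y j)) x = 0 := by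
  unfold dd; simp [Function.update_of_ne h.symm]

/-- summation by pairs -/
lemma sum_pair (i : Fin n) (F : Config n → ℝ) :
    ∑ x, F x = (∑ x, (F (Function.update x i true) + F (Function.update x i false))) / 2 := by
  have hflip : ∑ x, F x = ∑ x, F (Function.update x i (!(x i))) := by
    refine (Fintype.sum_bijective (fun x : Config n => Function.update x i (!(x i))) ?_ _ _ ?_).symm
    · refine Function.Involutive.bijective ?_
      intro x; simp
    · intro x; rfl
  have h2 : ∑ x, (F (Function.update x i true) + F (Function.update x i false))
      = ∑ x, (F x + F (Function.update x i (!(x i)))) := by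
    refine Finset.sum_congr rfl fun x _ => ?_
    rcases hx : x i with _ | _
    · have h1 : Function.update x i false = x := by rw [← hx]; exact Function.update_eq_self i x
      rw [h1]; simp; ring
    · have h1 : Function.update x i true = x := by rw [← hx]; exact Function.update_eq_self i x
      rw [h1]; simp
  rw [h2, Finset.sum_add_distrib, ← hflip]; ring

end Vale.Agent.P150
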