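import Vale.Agent.Lib.P150.GapFinal

namespace Vale.Agent.P150

variable {n : ℕ}

/-- the SK coupling array `J_{ij} = β n^{-1/2} g_{ij}` -/
noncomputable def skJ (β : ℝ) (g : Pair n → ℝ) (i j : Fin n) : ℝ :=
  β / Real.sqrt n * coupling g i j

lemma coupling_symm (g : Pair n → ℝ) (i j : Fin n) : coupling g i j = coupling g j i := by
  unfold coupling
  rcases lt_trichotomy i j with h | h | h
  · rw [dif_pos h, dif_neg (not_lt.mpr h.le), dif_pos h]
  · subst h; rfl
  · rw [dif_neg (not_lt.mpr h.le), dif_pos h, dif_pos h]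

lemma coupling_self (g : Pair n → ℝ) (i : Fin n) : coupling g i i = 0 := by
  unfold coupling; simp

lemma skJ_symm (β : ℝ) (g : Pair n → ℝ) (i j : Fin n) : skJ β g i j = skJ β g j i := by
  unfold skJ; rw [coupling_symm]

lemma skJ_self (β : ℝ) (g : Pair n → ℝ) (i : Fin n) : skJ β g i i = 0 := by
  unfold skJ; rw [coupling_self]; ring

lemma sum_coupling (g : Pair n → ℝ) (φ : Fin n → Fin n → ℝ) (hφ : ∀ i j, φ i j = φ j i) :
    ∑ i, ∑ j, coupling g i j * φ i j = 2 * ∑ p : Pair n, g p * φ p.1.1 p.1.2 := by
  classical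
  have h1 : ∑ i, ∑ j, coupling g i j * φ i j
      = ∑ i, ∑ j, ((if h : i < j then g ⟨(i, j), h⟩ * φ i j else 0)
        + (if h : j < i then g ⟨(j, i), h⟩ * φ i j else 0)) := by
    refine Finset.sum_congr rfl fun i _ => Finset.sum_congr rfl fun j _ => ?_
    unfold coupling
    rcases lt_trichotomy i j with h | h | h
    · simp [h, not_lt.mpr h.le]
    · subst h; simp
    · simp [h, not_lt.mpr h.le]
  have h2 : ∑ i, ∑ j, (if h : i < j then g ⟨(i, j), h⟩ * φ i j else 0)
      = ∑ p : Pair n, g p * φ p.1.1 p.1.2 := by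
    rw [← Fintype.sum_prod_type' (f := fun i j => if h : i < j then g ⟨(i, j), h⟩ * φ i j else 0)]
    have : ∀ p : Fin n × Fin n, (if h : p.1 < p.2 then g ⟨(p.1, p.2), h⟩ * φ p.1 p.2 else 0)
        = if h : p.1 < p.2 then (fun q : Pair n => g q * φ q.1.1 q.1.2) ⟨p, h⟩ else 0 := by
      intro p; rfl
    simp only [this]
    rw [Finset.sum_dite]
    simp only [Finset.sum_const_zero, add_zero]
    refine Finset.sum_bij (fun x _ => (⟨x.1, by
      have := (Finset.mem_filter.mp x.2).2; exact this⟩ : Pair n)) ?_ ?_ ?_ ?_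
    · intro a _; exact Finset.mem_univ _
    · intro a _ b _ hab
      have := congrArg Subtype.val hab
      exact Subtype.ext this
    · intro b _
      exact ⟨⟨b.1, Finset.mem_filter.mpr ⟨Finset.mem_univ _, b.2⟩⟩, Finset.mem_attach _ _, rfl⟩
    · intro a _; rfl
  have h3 : ∑ i, ∑ j, (if h : j < i then g ⟨(j, i), h⟩ * φ i j else 0)
      = ∑ p : Pair n, g p * φ p.1.1 p.1.2 := by
    rw [← h2, Finset.sum_comm]
    refine Finset.sum_congr rfl fun i _ => Finset.sum_congr rfl fun j _ => ?_
    split_ifs
    · rw [hφ]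
    · rfl
  rw [h1]
  simp only [Finset.sum_add_distrib]
  rw [h2, h3]; ring

lemma gibbsWeight_eq (β : ℝ) (g : Pair n → ℝ) (x : Config n) :
    gibbsWeight β g x = isingW (skJ β g) 0 x := by
  unfold gibbsWeight isingW
  congr 1
  have h := sum_coupling g (fun i j => spin (x i) * spin (x j)) (fun i j => mul_comm _ _)
  have e1 : ∑ i, ∑ j, skJ β g i j * spin (x i) * spin (x j)
      = β / Real.sqrt n * ∑ i, ∑ j, coupling g i j * (spin (x i) * spin (x j)) := by
    rw [Finset.mul_sum]
    refine Finset.sum_congr rfl fun i _ => ?_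
    rw [Finset.mul_sum]
    refine Finset.sum_congr rfl fun j _ => ?_
    unfold skJ; ring
  rw [e1, h]
  simp only [Pi.zero_apply, zero_mul, Finset.sum_const_zero, add_zero]
  have e2 : ∑ p : Pair n, g p * spin (x p.1.1) * spin (x p.1.2)
      = ∑ p : Pair n, g p * (spin (x p.1.1) * spin (x p.1.2)) :=
    Finset.sum_congr rfl fun p _ => by ring
  rw [e2]; ring

lemma localField_eq (β : ℝ) (g : Pair n → ℝ) (x : Config n) (i : Fin n) :
    localField β g x i = fieldJ (skJ β g) 0 i x := by
  unfold localField fieldJ skJ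
  simp only [Pi.zero_apply, zero_add]
  rw [Finset.mul_sum]
  refine Finset.sum_congr rfl fun j _ => ?_
  ring

lemma condProb_eq (J : Fin n → Fin n → ℝ) (hJ : ∀ i j, J i j = J j i) (hJ0 : ∀ i, J i i = 0)
    (θ : Fin n → ℝ) (i : Fin n) (x : Config n) (s : Bool) :
    isingW J θ (Function.update x i s) /
      (isingW J θ (Function.update x i true) + isingW J θ (Function.update x i false))
      = Real.exp (spin s * fieldJ J θ i x) / (2 * Real.cosh (fieldJ J θ i x)) := by
  have h := condMean_ising J hJ hJ0 θ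
  have hE := dd_energy J hJ hJ0 θ i x
  unfold dd at hE
  set e1 := energyJ J θ (Function.update x i true) with he1
  set e0 := energyJ J θ (Function.update x i false) with he0
  set F := fieldJ J θ i x with hF
  have h1 : isingW J θ (Function.update x i true) = Real.exp ((e1 + e0) / 2) * Real.exp F := by
    rw [isingW_eq, ← Real.exp_add]; congr 1; linarith
  have h0 : isingW J θ (Function.update x i false) = Real.exp ((e1 + e0) / 2) * Real.exp (-F) := by
    rw [isingW_eq, ← Real.exp_add]; congr 1; linarith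
  have hc : 2 * Real.cosh F = Real.exp F + Real.exp (-F) := by rw [Real.cosh_eq]; ring
  have hp := Real.exp_pos ((e1 + e0) / 2)
  have hp1 := Real.exp_pos F
  have hp2 := Real.exp_pos (-F)
  rw [hc]
  cases s
  · rw [h1, h0]; simp only [spin_false, neg_one_mul]
    rw [← mul_add, mul_div_mul_left _ _ hp.ne']
  · rw [h1, h0]; simp only [spin_true, one_mul]
    rw [← mul_add, mul_div_mul_left _ _ hp.ne']

lemma heatBath_eq (β : ℝ) (g : Pair n → ℝ) (i : Fin n) :
    heatBath β g i = hbMat (isingW (skJ β g) 0) i := by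
  funext x y
  unfold heatBath hbMat
  refine Finset.sum_congr rfl fun s _ => ?_
  rw [condProb_eq (skJ β g) (skJ_symm β g) (skJ_self β g), localField_eq]

lemma generator_eq (β : ℝ) (g : Pair n → ℝ) : generator β g = genMat (isingW (skJ β g) 0) := by
  unfold generator genMat
  refine Finset.sum_congr rfl fun i _ => ?_
  rw [heatBath_eq]

lemma gibbs_eq (β : ℝ) (g : Pair n → ℝ) (x : Config n) :
    gibbs β g x = isingW (skJ β g) 0 x / ∑ y, isingW (skJ β g) 0 y := by
  unfold gibbs
  rw [gibbsWeight_eq]
  congr 1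
  exact Finset.sum_congr rfl fun y _ => gibbsWeight_eq β g y

lemma hbMat_mulVec (w : Config n → ℝ) (i : Fin n) (f : Config n → ℝ) (x : Config n) :
    (hbMat w i).mulVec f x = condE w i f x := by
  unfold Matrix.mulVec dotProduct hbMat condE
  have : ∑ y, (∑ s : Bool, if y = Function.update x i s then
      w (Function.update x i s) / (w (Function.update x i true) + w (Function.update x i false))
        else 0) * f y
      = ∑ s : Bool, w (Function.update x i s) /
        (w (Function.update x i true) + w (Function.update x i false))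
          * f (Function.update x i s) := by
    simp only [Finset.sum_mul]
    rw [Finset.sum_comm]
    refine Finset.sum_congr rfl fun s _ => ?_
    simp only [ite_mul, zero_mul, Finset.sum_ite_eq', Finset.mem_univ, if_true]
  rw [this, Fintype.sum_bool]
  ring

lemma genMat_mulVec (w : Config n → ℝ) (f : Config n → ℝ) (x : Config n) :
    (genMat w).mulVec f x = ∑ i, (condE w i f x - f x) := by
  unfold genMat
  rw [Matrix.sum_mulVec]
  simp only [Finset.sum_apply, Matrix.sub_mulVec, Matrix.one_mulVec, Pi.sub_apply, hbMat_mulVec]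

end Vale.Agent.P150
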