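import Vale.Agent.Lib.P150.LowerDet

/-!
W4, part 3: the heat-bath dynamics converges to equilibrium (no rate), so that the mixing time is
the infimum of a nonempty set.
-/

namespace Vale.Agent.P150

open Matrix Filter Topology

variable {n : ℕ} {w : Config n → ℝ} {T : Fin n → Config n → ℝ}

lemma exists_pos_lower (h : CondMean w T) :
    ∃ m0 : ℝ, 0 < m0 ∧ ∀ i z, m0 ≤ w z * (1 - T i z ^ 2) := by
  have hp : ∀ i z, 0 < w z * (1 - T i z ^ 2) := fun i z =>
    mul_pos (h.pos z) (by linarith [h.lt i z])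
  set S : ℝ := ∑ i, ∑ z, (w z * (1 - T i z ^ 2))⁻¹ with hS
  have hS0 : 0 ≤ S := Finset.sum_nonneg fun i _ => Finset.sum_nonneg fun z _ =>
    (inv_pos.mpr (hp i z)).le
  refine ⟨(S + 1)⁻¹, inv_pos.mpr (by linarith), fun i z => ?_⟩
  have h1 : (w z * (1 - T i z ^ 2))⁻¹ ≤ S := by
    calc (w z * (1 - T i z ^ 2))⁻¹ ≤ ∑ z, (w z * (1 - T i z ^ 2))⁻¹ :=
          Finset.single_le_sum (f := fun z => (w z * (1 - T i z ^ 2))⁻¹)
            (fun z _ => (inv_pos.mpr (hp i z)).le) (Finset.mem_univ z)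
      _ ≤ S := Finset.single_le_sum (f := fun i => ∑ z, (w z * (1 - T i z ^ 2))⁻¹)
            (fun i _ => Finset.sum_nonneg fun z _ => (inv_pos.mpr (hp i z)).le)
            (Finset.mem_univ i)
  rw [inv_le_comm₀ (by linarith) (hp i z)]
  linarith

lemma abs_sub_le_of_dd (f : Config n → ℝ) (b : ℝ) (hb : ∀ i z, |dd i f z| ≤ b)
    (x y : Config n) : |f y - f x| ≤ 2 * n * b := by
  have hup : ∀ (z : Config n) i c, |f (Function.update z i c) - f z| ≤ 2 * b := by
    intro z i c
    rw [update_eq_cases z i c f]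
    have e : f z + (spin c - spin (z i)) * dd i f z - f z = (spin c - spin (z i)) * dd i f z := by
      ring
    rw [e, abs_mul]
    have h1 : |spin c - spin (z i)| ≤ 2 := by
      cases c <;> cases z i <;> simp [spin] <;> norm_num
    exact mul_le_mul h1 (hb i z) (abs_nonneg _) (by norm_num)
  have : ∀ s : Finset (Fin n), |f (s.piecewise y x) - f x| ≤ 2 * s.card * b := by
    intro s
    induction s using Finset.induction_on with
    | empty => simp
    | insert a s ha ih =>
      rw [Finset.piecewise_insert, Finset.card_insert_of_notMem ha]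
      have h1 := hup (s.piecewise y x) a (y a)
      have e : f (Function.update (s.piecewise y x) a (y a)) - f x
          = (f (Function.update (s.piecewise y x) a (y a)) - f (s.piecewise y x))
            + (f (s.piecewise y x) - f x) := by ring
      rw [e]
      refine (abs_add_le _ _).trans ?_
      push_cast
      linarith
  have h := this Finset.univ
  rw [Finset.piecewise_univ, Finset.card_univ, Fintype.card_fin] at h
  exact h

lemma negL_eq (h : CondMean w T) (f : Config n → ℝ) (x : Config n) :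
    (genMat w *ᵥ f) x = -negL T f x := h.gen_eq f x

lemma exists_poincare (h : CondMean w T) :
    ∃ κ : ℝ, 0 < κ ∧ ∀ f : Config n → ℝ, ∑ x, w x * f x = 0 →
      κ * ∑ x, w x * f x ^ 2 ≤ dirF w T f f := by
  obtain ⟨m0, hm0, hm⟩ := exists_pos_lower h
  set Z : ℝ := ∑ x, w x with hZd
  have hZ : 0 < Z := Finset.sum_pos (fun x _ => h.pos x) ⟨fun _ => true, Finset.mem_univ _⟩
  refine ⟨m0 / (4 * n ^ 2 * Z + 1), by positivity, fun f hf => ?_⟩
  set D := dirF w T f f with hD
  have hD0 : 0 ≤ D := h.dirF_nonneg f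
  have hdd : ∀ i z, dd i f z ^ 2 ≤ D / m0 := by
    intro i z
    rw [le_div_iff₀ hm0]
    have h1 : w z * ((1 - T i z ^ 2) * (dd i f z * dd i f z)) ≤ D := by
      rw [hD]; unfold dirF
      calc w z * ((1 - T i z ^ 2) * (dd i f z * dd i f z))
          ≤ w z * ∑ i, (1 - T i z ^ 2) * (dd i f z * dd i f z) := by
            refine mul_le_mul_of_nonneg_left ?_ (h.pos z).le
            exact Finset.single_le_sum
              (f := fun i => (1 - T i z ^ 2) * (dd i f z * dd i f z))
              (fun i _ => mul_nonneg (by linarith [h.lt i z]) (mul_self_nonneg _))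
              (Finset.mem_univ i)
        _ ≤ _ := Finset.single_le_sum
              (f := fun z => w z * ∑ i, (1 - T i z ^ 2) * (dd i f z * dd i f z))
              (fun z _ => mul_nonneg (h.pos z).le (Finset.sum_nonneg fun i _ =>
                mul_nonneg (by linarith [h.lt i z]) (mul_self_nonneg _)))
              (Finset.mem_univ z)
    have h2 := mul_le_mul_of_nonneg_right (hm i z) (sq_nonneg (dd i f z))
    nlinarith
  set b := Real.sqrt (D / m0) with hb
  have hbd : ∀ i z, |dd i f z| ≤ b := fun i z => Real.abs_le_sqrt (hdd i z)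
  have hb2 : b ^ 2 = D / m0 := Real.sq_sqrt (div_nonneg hD0 hm0.le)
  have hfx : ∀ x, f x ^ 2 ≤ 4 * n ^ 2 * (D / m0) := by
    intro x
    have h1 : Z * f x = ∑ y, w y * (f x - f y) := by
      simp only [mul_sub, Finset.sum_sub_distrib, hf, sub_zero]
      rw [← Finset.sum_mul]
    have h2 : |Z * f x| ≤ Z * (2 * n * b) := by
      rw [h1]
      calc |∑ y, w y * (f x - f y)| ≤ ∑ y, |w y * (f x - f y)| :=
            Finset.abs_sum_le_sum_abs _ _
        _ ≤ ∑ y, w y * (2 * n * b) := by
            refine Finset.sum_le_sum fun y _ => ?_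
            rw [abs_mul, abs_of_pos (h.pos y)]
            exact mul_le_mul_of_nonneg_left (abs_sub_le_of_dd f b hbd y x) (h.pos y).le
        _ = Z * (2 * n * b) := by rw [← Finset.sum_mul]
    rw [abs_mul, abs_of_pos hZ] at h2
    have h3 : |f x| ≤ 2 * n * b := le_of_mul_le_mul_left h2 hZ
    calc f x ^ 2 = |f x| ^ 2 := (sq_abs _).symm
      _ ≤ (2 * n * b) ^ 2 := pow_le_pow_left₀ (abs_nonneg _) h3 2
      _ = 4 * n ^ 2 * b ^ 2 := by ring
      _ = _ := by rw [hb2]
  have h4 : ∑ x, w x * f x ^ 2 ≤ Z * (4 * n ^ 2 * (D / m0)) := by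
    rw [hZd, Finset.sum_mul]
    exact Finset.sum_le_sum fun x _ => mul_le_mul_of_nonneg_left (hfx x) (h.pos x).le
  have h5 : 0 < 4 * (n:ℝ) ^ 2 * Z + 1 := by positivity
  rw [div_mul_eq_mul_div, div_le_iff₀ h5]
  have h6 : m0 * (Z * (4 * n ^ 2 * (D / m0))) = D * (4 * n ^ 2 * Z) := by
    field_simp
  have h7 := mul_le_mul_of_nonneg_left h4 hm0.le
  rw [h6] at h7
  linarith

lemma heat_l2_decay (h : CondMean w T) {κ : ℝ}
    (hκ : ∀ f : Config n → ℝ, ∑ x, w x * f x = 0 →
      κ * ∑ x, w x * f x ^ 2 ≤ dirF w T f f)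
    (f : Config n → ℝ) (hf : ∑ x, w x * f x = 0) (t : ℝ) (ht : 0 ≤ t) :
    ∑ x, w x * (heatK w t *ᵥ f) x ^ 2 ≤ Real.exp (-(2 * κ * t)) * ∑ x, w x * f x ^ 2 := by
  set F : ℝ → ℝ := fun s => ∑ x, w x * (heatK w s *ᵥ f) x ^ 2 with hF
  have hFd : ∀ s, HasDerivAt F (-(2 * dirF w T (heatK w s *ᵥ f) (heatK w s *ᵥ f))) s := by
    intro s
    have h1 := HasDerivAt.fun_sum (u := Finset.univ) fun x (_ : x ∈ Finset.univ) =>
      ((hasDerivAt_heat w f x s).pow 2).const_mul (w x)
    refine h1.congr_deriv ?_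
    rw [← h.dirF_eq, Finset.mul_sum, ← Finset.sum_neg_distrib]
    refine Finset.sum_congr rfl fun x _ => ?_
    rw [negL_eq h]
    simp
    ring
  have hanti : AntitoneOn (fun s => Real.exp (2 * κ * s) * F s) (Set.Ici 0) := by
    have hd : ∀ s, HasDerivAt (fun s => Real.exp (2 * κ * s) * F s)
        (Real.exp (2 * κ * s) * (2 * κ * 1) * F s + Real.exp (2 * κ * s) *
          (-(2 * dirF w T (heatK w s *ᵥ f) (heatK w s *ᵥ f)))) s := fun s =>
      (((hasDerivAt_id' s).const_mul (2 * κ)).exp).mul (hFd s)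
    refine antitoneOn_of_deriv_nonpos (convex_Ici 0)
      (fun s _ => (hd s).continuousAt.continuousWithinAt)
      (fun s _ => (hd s).differentiableAt.differentiableWithinAt) ?_
    intro s _
    rw [(hd s).deriv]
    have h1 := hκ (heatK w s *ᵥ f) (by rw [heatK_sum w h.pos, hf])
    have h2 := Real.exp_pos (2 * κ * s)
    have e : Real.exp (2 * κ * s) * (2 * κ * 1) * F s + Real.exp (2 * κ * s) *
          (-(2 * dirF w T (heatK w s *ᵥ f) (heatK w s *ᵥ f)))
        = Real.exp (2 * κ * s) * (2 * (κ * F s - dirF w T (heatK w s *ᵥ f) (heatK w s *ᵥ f))) := by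
      ring
    rw [e]
    refine mul_nonpos_of_nonneg_of_nonpos h2.le ?_
    simp only [hF]
    linarith
  have h1 := hanti (Set.mem_Ici.mpr le_rfl) (Set.mem_Ici.mpr ht) ht
  simp only [mul_zero, Real.exp_zero, one_mul] at h1
  have h2 : F 0 = ∑ x, w x * f x ^ 2 := by simp only [hF, heatK_zero]
  rw [h2] at h1
  calc ∑ x, w x * (heatK w t *ᵥ f) x ^ 2
      = Real.exp (-(2 * κ * t)) * (Real.exp (2 * κ * t) * F t) := by
        rw [← mul_assoc, ← Real.exp_add]; simp [hF]
    _ ≤ _ := mul_le_mul_of_nonneg_left h1 (Real.exp_pos _).le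

lemma tendsto_heat (h : CondMean w T) (x y : Config n) :
    Tendsto (fun t => heatK w t x y) atTop (𝓝 (w y / ∑ z, w z)) := by
  obtain ⟨κ, hκ0, hκ⟩ := exists_poincare h
  set Z : ℝ := ∑ x, w x with hZd
  have hZ : 0 < Z := Finset.sum_pos (fun x _ => h.pos x) ⟨fun _ => true, Finset.mem_univ _⟩
  set f : Config n → ℝ := fun z => (Pi.single y (1:ℝ) : Config n → ℝ) z - w y / Z with hf
  have hf0 : ∑ z, w z * f z = 0 := by
    simp only [hf, mul_sub, Finset.sum_sub_distrib]
    rw [← Finset.sum_mul, ← hZd]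
    have : ∑ z, w z * (Pi.single y (1:ℝ) : Config n → ℝ) z = w y := by
      rw [Finset.sum_eq_single y]
      · simp
      · intro b _ hb; rw [Pi.single_eq_of_ne hb]; simp
      · intro h; exact absurd (Finset.mem_univ _) h
    rw [this]; field_simp; ring
  have hPf : ∀ t, (heatK w t *ᵥ f) x = heatK w t x y - w y / Z := by
    intro t
    have e : f = Pi.single y (1:ℝ) - (fun _ => w y / Z) := by
      funext z; simp [hf]
    rw [e, Matrix.mulVec_sub, Pi.sub_apply, heatK_const h.pos]
    simp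
  have hsq : Tendsto (fun t => (heatK w t x y - w y / Z) ^ 2) atTop (𝓝 0) := by
    have hup : Tendsto (fun t : ℝ => Real.exp (-(2 * κ * t)) * (∑ x, w x * f x ^ 2) / w x)
        atTop (𝓝 0) := by
      have h1 : Tendsto (fun t : ℝ => 2 * κ * t) atTop atTop :=
        tendsto_id.const_mul_atTop (by linarith)
      have h2 : Tendsto (fun t : ℝ => Real.exp (-(2 * κ * t))) atTop (𝓝 0) :=
        Real.tendsto_exp_neg_atTop_nhds_zero.comp h1
      have h3 := (h2.mul_const (∑ x, w x * f x ^ 2)).div_const (w x)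
      simpa using h3
    refine tendsto_of_tendsto_of_tendsto_of_le_of_le' tendsto_const_nhds hup
      (Eventually.of_forall fun t => sq_nonneg _) ?_
    filter_upwards [eventually_ge_atTop (0:ℝ)] with t ht
    have h1 := heat_l2_decay h hκ f hf0 t ht
    have h2 : w x * (heatK w t *ᵥ f) x ^ 2 ≤ ∑ x, w x * (heatK w t *ᵥ f) x ^ 2 :=
      Finset.single_le_sum (f := fun x => w x * (heatK w t *ᵥ f) x ^ 2)
        (fun z _ => mul_nonneg (h.pos z).le (sq_nonneg _)) (Finset.mem_univ x)
    rw [hPf t] at h2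
    rw [le_div_iff₀ (h.pos x)]
    linarith
  have habs : Tendsto (fun t => heatK w t x y - w y / Z) atTop (𝓝 0) := by
    have h1 : Tendsto (fun t => Real.sqrt ((heatK w t x y - w y / Z) ^ 2)) atTop (𝓝 0) := by
      have h2 := (Real.continuous_sqrt.tendsto 0).comp hsq
      rw [Real.sqrt_zero] at h2
      exact h2
    rw [tendsto_zero_iff_abs_tendsto_zero]
    refine h1.congr fun t => ?_
    simp [Function.comp, Real.sqrt_sq_eq_abs]
  have := habs.add_const (w y / Z)
  simpa using this

/-- at some time all the total variation distances are small -/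
lemma exists_mixed (h : CondMean w T) :
    ∃ t : ℝ, 0 ≤ t ∧ ∀ x, (∑ y, |heatK w t x y - w y / ∑ z, w z|) / 2 ≤ 1 / 4 := by
  have h1 : ∀ x, ∀ᶠ t in atTop, (∑ y, |heatK w t x y - w y / ∑ z, w z|) / 2 ≤ 1 / 4 := by
    intro x
    have h2 : Tendsto (fun t => (∑ y, |heatK w t x y - w y / ∑ z, w z|) / 2) atTop (𝓝 0) := by
      have h3 : ∀ y, Tendsto (fun t => |heatK w t x y - w y / ∑ z, w z|) atTop (𝓝 0) := by
        intro y
        have := ((tendsto_heat h x y).sub_const (w y / ∑ z, w z)).abs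
        simpa using this
      have h4 := (tendsto_finsetSum Finset.univ fun y _ => h3 y).div_const 2
      simpa using h4
    exact (h2.eventually (ge_mem_nhds (by norm_num : (0:ℝ) < 1 / 4)))
  have h5 := (eventually_all.mpr h1).and (eventually_ge_atTop (0:ℝ))
  obtain ⟨t, ht1, ht2⟩ := h5.exists
  exact ⟨t, ht2, ht1⟩

end Vale.Agent.P150
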