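import Vale.Agent.Lib.P150.Final
import Vale.Agent.Lib.P150.Ergodic

/-!
W4, final: for every `β > 0` the mixing time is at least `c log n` with high probability.
-/

namespace Vale.Agent.P150

open MeasureTheory ProbabilityTheory Filter Topology

variable {n : ℕ}

/-- polarisation of a quadratic form bound -/
lemma polar_bound (J : Fin n → Fin n → ℝ) (hs : ∀ i j, J i j = J j i) (Λ : ℝ)
    (hΛ : ∀ v : Fin n → ℝ, |∑ i, ∑ j, J i j * v i * v j| ≤ Λ * ∑ i, v i ^ 2)
    (a c : Fin n → ℝ) :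
    ∑ i, ∑ j, J i j * (a i * c j) ≤ Λ * (∑ i, a i ^ 2 + ∑ i, c i ^ 2) / 2 := by
  have h1 := (le_abs_self _).trans (hΛ (fun i => a i + c i))
  have h2 := (neg_le_abs _).trans (hΛ (fun i => a i - c i))
  have e1 : ∑ i, ∑ j, J i j * (a i + c i) * (a j + c j)
      - ∑ i, ∑ j, J i j * (a i - c i) * (a j - c j)
      = 2 * ∑ i, ∑ j, J i j * (a i * c j) + 2 * ∑ i, ∑ j, J i j * (c i * a j) := by
    simp only [Finset.mul_sum, ← Finset.sum_sub_distrib, ← Finset.sum_add_distrib]
    refine Finset.sum_congr rfl fun i _ => Finset.sum_congr rfl fun j _ => ?_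
    ring
  have e2 : ∑ i, ∑ j, J i j * (c i * a j) = ∑ i, ∑ j, J i j * (a i * c j) := by
    rw [Finset.sum_comm]
    refine Finset.sum_congr rfl fun j _ => Finset.sum_congr rfl fun i _ => ?_
    rw [hs i j]; ring
  have e3 : ∑ i, (a i + c i) ^ 2 + ∑ i, (a i - c i) ^ 2
      = 2 * (∑ i, a i ^ 2 + ∑ i, c i ^ 2) := by
    rw [← Finset.sum_add_distrib, ← Finset.sum_add_distrib, Finset.mul_sum]
    refine Finset.sum_congr rfl fun i _ => ?_
    ring
  rw [e2] at e1
  have e4 : Λ * ∑ i, (a i + c i) ^ 2 + Λ * ∑ i, (a i - c i) ^ 2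
      = Λ * (2 * (∑ i, a i ^ 2 + ∑ i, c i ^ 2)) := by rw [← mul_add, e3]
  linarith

lemma abs_meanJ_lt (J : Fin n → Fin n → ℝ) (θ : Fin n → ℝ) (i : Fin n) (x : Config n) :
    |meanJ J θ i x| < 1 := by
  rw [← sq_lt_one_iff_abs_lt_one]; exact Real.tanh_sq_lt_one _

lemma dd_meanJ_abs (J : Fin n → Fin n → ℝ) (θ : Fin n → ℝ) (i j : Fin n) (x : Config n)
    (hδ : |J i j| ≤ 1 / 20) :
    |dd j (meanJ J θ i) x| ≤ 10 / 9 * |tauJ J i j| * (1 - meanJ J θ i x ^ 2) := by
  have h := dd_meanJ J θ i j x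
  have hT := abs_meanJ_lt J θ i x
  have hτ : |tauJ J i j| ≤ 1 / 20 := (abs_tauJ_le J i j).trans hδ
  set τ := tauJ J i j with hτd
  set b := dd j (meanJ J θ i) x with hb
  set m := meanJ J θ i x with hm
  have h' : b * (1 - 2 * τ * spin (x j) * m) = τ * (1 - m ^ 2) := by
    have : Real.tanh (2 * J i j) / 2 = τ := rfl
    rw [this] at h
    linarith [h]
  have h1 : |2 * τ * spin (x j) * m| ≤ 1 / 10 := by
    rw [abs_mul, abs_mul, abs_mul, abs_spin, abs_two]
    nlinarith [abs_nonneg τ, abs_nonneg m]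
  have h2 : 9 / 10 ≤ 1 - 2 * τ * spin (x j) * m := by
    have := le_abs_self (2 * τ * spin (x j) * m); linarith
  have h3 : |b| * (9 / 10) ≤ |τ| * (1 - m ^ 2) := by
    have hm2 : 0 ≤ 1 - m ^ 2 := by
      have := sq_lt_one_iff_abs_lt_one m |>.mpr hT; linarith
    calc |b| * (9 / 10) ≤ |b| * (1 - 2 * τ * spin (x j) * m) :=
          mul_le_mul_of_nonneg_left h2 (abs_nonneg _)
      _ = |b * (1 - 2 * τ * spin (x j) * m)| := by
          rw [abs_mul, abs_of_pos (show (0:ℝ) < 1 - 2 * τ * spin (x j) * m by linarith)]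
      _ = |τ * (1 - m ^ 2)| := by rw [h']
      _ = |τ| * (1 - m ^ 2) := by rw [abs_mul, abs_of_nonneg hm2]
  linarith

lemma influence_sq (J : Fin n → Fin n → ℝ) (θ : Fin n → ℝ) (i j : Fin n) (x : Config n)
    (hδ : |J i j| ≤ 1 / 20) :
    dd j (meanJ J θ i) x ^ 2 ≤ 3 * J i j ^ 2 * (1 - spin (x i) * meanJ J θ i x) := by
  have h1 := dd_meanJ_abs J θ i j x hδ
  have hT := abs_meanJ_lt J θ i x
  have hτ := abs_tauJ_le J i j
  set m := meanJ J θ i x with hm
  have hs : spin (x i) * m ≤ |m| := by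
    calc spin (x i) * m ≤ |spin (x i) * m| := le_abs_self _
      _ = |m| := by rw [abs_mul, abs_spin, one_mul]
  have hm0 := abs_nonneg m
  have hm2 : 1 - m ^ 2 ≤ 2 * (1 - |m|) := by
    rw [← sq_abs m]; nlinarith
  have hm3 : 0 ≤ 1 - m ^ 2 := by
    have := sq_lt_one_iff_abs_lt_one m |>.mpr hT; linarith
  have hm4 : (1 - m ^ 2) ^ 2 ≤ 2 * (1 - spin (x i) * m) := by
    have h5 : 1 - m ^ 2 ≤ 1 := by linarith [sq_nonneg m]
    calc (1 - m ^ 2) ^ 2 = (1 - m ^ 2) * (1 - m ^ 2) := sq _
      _ ≤ 1 * (1 - m ^ 2) := mul_le_mul_of_nonneg_right h5 hm3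
      _ ≤ 2 * (1 - |m|) := by linarith
      _ ≤ _ := by linarith
  have h4 : |dd j (meanJ J θ i) x| ≤ 10 / 9 * |J i j| * (1 - m ^ 2) := by
    refine h1.trans (mul_le_mul_of_nonneg_right ?_ hm3)
    linarith
  calc dd j (meanJ J θ i) x ^ 2 = |dd j (meanJ J θ i) x| ^ 2 := (sq_abs _).symm
    _ ≤ (10 / 9 * |J i j| * (1 - m ^ 2)) ^ 2 := pow_le_pow_left₀ (abs_nonneg _) h4 2
    _ = 100 / 81 * J i j ^ 2 * (1 - m ^ 2) ^ 2 := by
        rw [mul_pow, mul_pow, sq_abs]; norm_num
    _ ≤ 100 / 81 * J i j ^ 2 * (2 * (1 - spin (x i) * m)) :=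
        mul_le_mul_of_nonneg_left hm4 (by positivity)
    _ ≤ _ := by
        have : 0 ≤ J i j ^ 2 * (1 - spin (x i) * m) :=
          mul_nonneg (sq_nonneg _) (by linarith)
        nlinarith

lemma influence_op (J : Fin n → Fin n → ℝ) (θ : Fin n → ℝ) {b : ℝ} (hb0 : 0 ≤ b)
    (h : GoodJ J b (1 / 20)) (x : Config n) (v : Fin n → ℝ) :
    ∑ j, ∑ i, dd j (meanJ J θ i) x * (v i * v j) ≤ (2 * b + 4 * b ^ 2) * ∑ i, v i ^ 2 := by
  set T := meanJ J θ with hT
  set a : Fin n → ℝ := fun i => (1 - T i x ^ 2) * v i with ha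
  have haa : ∀ i, a i ^ 2 ≤ v i ^ 2 := by
    intro i
    have hm : |T i x| < 1 := abs_meanJ_lt J θ i x
    have hm2 : 0 ≤ 1 - T i x ^ 2 := by
      have := sq_lt_one_iff_abs_lt_one (T i x) |>.mpr hm; linarith
    have hm3 : (1 - T i x ^ 2) ^ 2 ≤ 1 := by nlinarith [sq_nonneg (T i x)]
    simp only [ha, mul_pow]
    nlinarith [sq_nonneg (v i)]
  have hsa : ∑ i, a i ^ 2 ≤ ∑ i, v i ^ 2 := Finset.sum_le_sum fun i _ => haa i
  have habs : ∀ i, |a i| ≤ |v i| := fun i => sq_le_sq.mp (haa i)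
  have hV : 0 ≤ ∑ i, v i ^ 2 := Finset.sum_nonneg fun i _ => sq_nonneg _
  -- termwise decomposition
  have hterm : ∀ i j, dd j (T i) x * (v i * v j) ≤ J i j * (a i * v j)
      + |tauJ J i j - J i j| * (|v i| * |v j|) + 3 * J i j ^ 2 * (|v i| * |v j|) := by
    intro i j
    have h1 := dd_meanJ J θ i j x
    have h2 := dd_meanJ_abs J θ i j x (h.ent i j)
    have hm : |T i x| < 1 := abs_meanJ_lt J θ i x
    have hτ := abs_tauJ_le J i j
    set τ := tauJ J i j with hτd
    have h1' : dd j (T i) x = τ * (1 - T i x ^ 2) + dd j (T i) x * (2 * τ * spin (x j) * T i x) := by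
      have : Real.tanh (2 * J i j) / 2 = τ := rfl
      rw [this] at h1
      linarith [h1]
    have hm3 : 0 ≤ 1 - T i x ^ 2 := by
      have := sq_lt_one_iff_abs_lt_one (T i x) |>.mpr hm; linarith
    have hr : |dd j (T i) x * (2 * τ * spin (x j) * T i x)| ≤ 3 * J i j ^ 2 := by
      rw [abs_mul, abs_mul, abs_mul, abs_mul, abs_spin, abs_two]
      have h5 : |dd j (T i) x| ≤ 10 / 9 * |J i j| := by
        refine h2.trans ?_
        have h6 : 1 - T i x ^ 2 ≤ 1 := by linarith [sq_nonneg (T i x)]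
        calc 10 / 9 * |τ| * (1 - T i x ^ 2) ≤ 10 / 9 * |τ| * 1 :=
              mul_le_mul_of_nonneg_left h6 (by positivity)
          _ ≤ _ := by linarith
      have h7 : 2 * |τ| * 1 * |T i x| ≤ 2 * |J i j| := by
        have h8 : |τ| * |T i x| ≤ |J i j| * 1 :=
          mul_le_mul hτ hm.le (abs_nonneg _) (abs_nonneg _)
        linarith
      calc |dd j (T i) x| * (2 * |τ| * 1 * |T i x|) ≤ (10 / 9 * |J i j|) * (2 * |J i j|) :=
            mul_le_mul h5 h7 (by positivity) (by positivity)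
        _ = 20 / 9 * |J i j| ^ 2 := by ring
        _ = 20 / 9 * J i j ^ 2 := by rw [sq_abs]
        _ ≤ 3 * J i j ^ 2 := by nlinarith [sq_nonneg (J i j)]
    have e : dd j (T i) x * (v i * v j) = J i j * (a i * v j)
        + (τ - J i j) * (a i * v j)
        + dd j (T i) x * (2 * τ * spin (x j) * T i x) * (v i * v j) := by
      simp only [ha]
      linear_combination (v i * v j) * h1'
    rw [e]
    have c1 : (τ - J i j) * (a i * v j) ≤ |τ - J i j| * (|v i| * |v j|) := by
      refine (le_abs_self _).trans ?_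
      rw [abs_mul, abs_mul]
      exact mul_le_mul_of_nonneg_left (mul_le_mul_of_nonneg_right (habs i) (abs_nonneg _))
        (abs_nonneg _)
    have c2 : dd j (T i) x * (2 * τ * spin (x j) * T i x) * (v i * v j)
        ≤ 3 * J i j ^ 2 * (|v i| * |v j|) := by
      refine (le_abs_self _).trans ?_
      rw [abs_mul _ (v i * v j), abs_mul (v i)]
      exact mul_le_mul_of_nonneg_right hr (by positivity)
    linarith
  have hsum : ∑ j, ∑ i, dd j (T i) x * (v i * v j) ≤
      ∑ i, ∑ j, J i j * (a i * v j) + ∑ i, ∑ j, |tauJ J i j - J i j| * (|v i| * |v j|)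
        + ∑ i, ∑ j, 3 * J i j ^ 2 * (|v i| * |v j|) := by
    rw [Finset.sum_comm, ← Finset.sum_add_distrib, ← Finset.sum_add_distrib]
    refine Finset.sum_le_sum fun i _ => ?_
    rw [← Finset.sum_add_distrib, ← Finset.sum_add_distrib]
    exact Finset.sum_le_sum fun j _ => hterm i j
  refine hsum.trans ?_
  have p1 := polar_bound J h.symm (2 * b) h.norm a v
  have p2 := schur_sq (fun i j => |tauJ J i j - J i j|) (fun i j => abs_nonneg _)
    (fun i j => by
      have : tauJ J i j = tauJ J j i := by unfold tauJ; rw [h.symm]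
      rw [this, h.symm i j]) (b ^ 2) (fun i => by
      refine le_trans ?_ (h.row i)
      refine Finset.sum_le_sum fun j _ => ?_
      refine (abs_tauJ_sub_le J i j).trans ?_
      have e3 : |J i j| ^ 3 = |J i j| * J i j ^ 2 := by rw [← sq_abs (J i j)]; ring
      rw [e3]
      have := mul_le_mul_of_nonneg_right (h.ent i j) (sq_nonneg (J i j))
      nlinarith [sq_nonneg (J i j)])
    (fun i => |v i|) (fun i => |v i|)
  have p3 := schur_sq (fun i j => 3 * J i j ^ 2) (fun i j => by positivity)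
    (fun i j => by rw [h.symm i j]) (3 * b ^ 2) (fun i => by
      rw [← Finset.mul_sum]; linarith [h.row i])
    (fun i => |v i|) (fun i => |v i|)
  simp only [sq_abs] at p2 p3
  have p4 : 2 * b * (∑ i, a i ^ 2 + ∑ i, v i ^ 2) / 2 ≤ 2 * b * ∑ i, v i ^ 2 := by
    nlinarith
  linarith

/-- deterministic lower bound for a good coupling array -/
theorem good_tv_lower {b : ℝ} (hb0 : 0 ≤ b) (J : Fin n → Fin n → ℝ) (h : GoodJ J b (1 / 20))
    (hn : 0 < n) (t : ℝ) (ht : 0 ≤ t) :
    ∃ x₀ : Config n, 1 / 2 - 4 * t * Real.exp ((14 * b ^ 2 + 4 * b + 2) * t) / n ≤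
      (∑ y, |heatK (isingW J 0) t x₀ y - isingW J 0 y / ∑ z, isingW J 0 z|) / 2 := by
  have hc := condMean_ising J h.symm h.diag 0
  have hflip : ∀ x : Config n, isingW J 0 (fun i => !(x i)) = isingW J 0 x := by
    intro x
    have hs : ∀ b : Bool, spin (!b) = -spin b := by intro b; cases b <;> simp
    unfold isingW
    simp only [hs, Pi.zero_apply, zero_mul, Finset.sum_const_zero, add_zero]
    congr 2
    refine Finset.sum_congr rfl fun i _ => Finset.sum_congr rfl fun j _ => ?_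
    ring
  refine tv_lower hc hflip (14 * b ^ 2 + 4 * b) (by positivity) hn ?_ t ht
  intro x₀ s hs x
  have hg := hc.grad_bound (fun j i => 3 * J i j ^ 2) (3 * b ^ 2) (2 * b + 4 * b ^ 2)
    (fun i j x => influence_sq J 0 i j x (h.ent i j))
    (fun j => by
      have : ∑ i, 3 * J i j ^ 2 = 3 * ∑ i, J j i ^ 2 := by
        rw [Finset.mul_sum]
        exact Finset.sum_congr rfl fun i _ => by rw [h.symm i j]
      rw [this]; linarith [h.row j])
    (fun x v => influence_op J 0 hb0 h x v) (overlap x₀) n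
    (fun y => (grad2_overlap x₀ y).le) s hs x
  have e : 2 * (3 * b ^ 2) + 2 * (2 * b + 4 * b ^ 2) = 14 * b ^ 2 + 4 * b := by ring
  rw [e] at hg
  exact hg

/-- deterministic lower bound for the mixing time -/
theorem mixingTime_lower_of_good {β b : ℝ} (hb0 : 0 ≤ b) (g : Pair n → ℝ)
    (h : GoodJ (skJ β g) b (1 / 20)) (hn : 257 ≤ n) :
    1 / (2 * (14 * b ^ 2 + 4 * b + 3)) * Real.log n ≤ mixingTime β g ∧
    (∀ t : ℝ, 0 ≤ t → t ≤ 1 / (2 * (14 * b ^ 2 + 4 * b + 3)) * Real.log n →
      ∃ x, 1 / 4 < tvDist β g t x) := by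
  have hc := condMean_ising (skJ β g) (skJ_symm β g) (skJ_self β g) 0
  have hn1 : (257:ℝ) ≤ n := by exact_mod_cast hn
  have hn0 : (0:ℝ) < n := by linarith
  have hlog : 0 < Real.log n := Real.log_pos (by linarith)
  set K : ℝ := 14 * b ^ 2 + 4 * b + 3 with hK
  have hKpos : 0 < K := by positivity
  have hkey : ∀ t : ℝ, 0 ≤ t → t ≤ 1 / (2 * K) * Real.log n → ∃ x, 1 / 4 < tvDist β g t x := by
    intro t ht0 ht
    obtain ⟨x, hx⟩ := good_tv_lower hb0 (skJ β g) h (by omega) t ht0
    refine ⟨x, ?_⟩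
    rw [tvDist_eq]
    refine lt_of_lt_of_le ?_ hx
    have h1 : t ≤ Real.exp t := by linarith [Real.add_one_le_exp t]
    have h2 : t * Real.exp ((14 * b ^ 2 + 4 * b + 2) * t) ≤ Real.exp (K * t) := by
      calc t * Real.exp ((14 * b ^ 2 + 4 * b + 2) * t)
          ≤ Real.exp t * Real.exp ((14 * b ^ 2 + 4 * b + 2) * t) :=
            mul_le_mul_of_nonneg_right h1 (Real.exp_pos _).le
        _ = Real.exp (K * t) := by
            rw [← Real.exp_add]; congr 1; rw [hK]; ring
    have h3 : Real.exp (K * t) ≤ Real.sqrt n := by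
      have h4 : K * t ≤ Real.log n / 2 := by
        calc K * t ≤ K * (1 / (2 * K) * Real.log n) := mul_le_mul_of_nonneg_left ht hKpos.le
          _ = Real.log n / 2 := by field_simp
      calc Real.exp (K * t) ≤ Real.exp (Real.log n / 2) := Real.exp_le_exp.mpr h4
        _ = Real.sqrt n := by
            rw [← Real.log_sqrt hn0.le, Real.exp_log (Real.sqrt_pos.mpr hn0)]
    have h5 : 16 < Real.sqrt n := by
      rw [Real.lt_sqrt (by norm_num)]; linarith
    have h6 : Real.sqrt n * Real.sqrt n = n := Real.mul_self_sqrt hn0.le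
    have h7 : 4 * t * Real.exp ((14 * b ^ 2 + 4 * b + 2) * t) / n < 1 / 4 := by
      rw [div_lt_iff₀ hn0]
      nlinarith
    linarith
  refine ⟨?_, hkey⟩
  unfold mixingTime
  refine le_csInf ?_ ?_
  · obtain ⟨t, ht0, ht⟩ := exists_mixed hc
    exact ⟨t, ht0, fun x => by rw [tvDist_eq]; exact ht x⟩
  · rintro t ⟨ht0, ht⟩
    by_contra hcon
    push Not at hcon
    obtain ⟨x, hx⟩ := hkey t ht0 hcon.le
    linarith [ht x]

/-- for every `β > 0` there is `c > 0` such that w.h.p. the mixing time is at least `c log n` -/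
theorem main_lower (β : ℝ) (hβ : 0 < β) :
    ∃ c : ℝ, 0 < c ∧
      Tendsto (fun n : ℕ => disorder n {g | ¬ (c * Real.log n ≤ mixingTime β g ∧
        ∀ t : ℝ, 0 ≤ t → t ≤ c * Real.log n → ∃ x, 1 / 4 < tvDist β g t x)}) atTop (𝓝 0) := by
  set b := β + 1 with hb
  have hb0 : 0 ≤ b := by rw [hb]; linarith
  refine ⟨1 / (2 * (14 * b ^ 2 + 4 * b + 3)), by positivity, ?_⟩
  have hw := goodJ_whp β hβ b (by rw [hb]; linarith) (1 / 20) (by norm_num)
  refine tendsto_of_tendsto_of_tendsto_of_le_of_le' tendsto_const_nhds hw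
    (Eventually.of_forall fun n => zero_le) ?_
  filter_upwards [eventually_ge_atTop 257] with n hn
  refine measure_mono fun g hg hgood => hg ?_
  exact mixingTime_lower_of_good hb0 g hgood hn

/-- the zero-field weight is invariant under the global spin flip -/
lemma isingW_flip (J : Fin n → Fin n → ℝ) (x : Config n) :
    isingW J 0 (fun i => !(x i)) = isingW J 0 x := by
  have hs : ∀ b : Bool, spin (!b) = -spin b := by intro b; cases b <;> simp
  unfold isingW
  simp only [hs, Pi.zero_apply, zero_mul, Finset.sum_const_zero, add_zero]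
  congr 2
  refine Finset.sum_congr rfl fun i _ => Finset.sum_congr rfl fun j _ => ?_
  ring

/-- the spectral gap is at most one, for every disorder (test function: one spin) -/
theorem spectralGap_le_one (β : ℝ) (g : Pair n → ℝ) (hn : 0 < n) : spectralGap β g ≤ 1 := by
  have hc := condMean_ising (skJ β g) (skJ_symm β g) (skJ_self β g) 0
  set w := isingW (skJ β g) 0 with hw
  have hZ : 0 < ∑ x, w x := Finset.sum_pos (fun x _ => hc.pos x) ⟨fun _ => true, Finset.mem_univ _⟩
  set i0 : Fin n := ⟨0, hn⟩ with hi0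
  have hmean : ∑ x, w x * spin (x i0) = 0 := by
    have hinv : Function.Involutive (fun y : Config n => fun i => !(y i)) := by
      intro y; funext i; simp
    have h1 : ∑ x, w x * spin (x i0) = ∑ x : Config n, -(w x * spin (x i0)) := by
      refine Fintype.sum_bijective _ hinv.bijective _ _ fun y => ?_
      have h2 : w (fun i => !(y i)) = w y := isingW_flip (skJ β g) y
      have hs : ∀ b : Bool, spin (!b) = -spin b := by intro b; cases b <;> simp
      rw [h2, hs]
      ring
    rw [Finset.sum_neg_distrib] at h1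
    linarith
  have hexp0 : expect β g (fun x => spin (x i0)) = 0 := by
    rw [expect_eq, ← hw, hmean, zero_div]
  have hvar : variance β g (fun x => spin (x i0)) = 1 := by
    unfold variance
    rw [hexp0, expect_eq, ← hw]
    simp only [sub_zero, spin_sq, mul_one]
    exact div_self hZ.ne'
  have hdir : dirichlet β g (fun x => spin (x i0)) ≤ 1 := by
    have h1 := dirichlet_eq β g (fun x => spin (x i0))
    have h2 := sum_condE_linear_le hc (fun k => if k = i0 then 1 else 0)
    have e : (fun x : Config n => ∑ k, (if k = i0 then (1:ℝ) else 0) * spin (x k))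
        = fun x => spin (x i0) := by
      funext x; simp
    have e' : ∀ x : Config n, ∑ k, (if k = i0 then (1:ℝ) else 0) * spin (x k) = spin (x i0) :=
      fun x => congrFun e x
    rw [e] at h2
    simp only [e'] at h2
    rw [← h1] at h2
    have h3 : ∑ i : Fin n, (if i = i0 then (1:ℝ) else 0) ^ 2 = 1 := by
      simp
    rw [h3, one_mul] at h2
    have h4 : dirichlet β g (fun x => spin (x i0)) * ∑ x, w x ≤ 1 * ∑ x, w x := by
      rw [one_mul]; exact h2
    exact le_of_mul_le_mul_right h4 hZ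
  have hle : spectralGap β g ≤ dirichlet β g (fun x => spin (x i0)) /
      variance β g (fun x => spin (x i0)) := by
    refine csInf_le ⟨0, ?_⟩ ⟨fun x => spin (x i0), by rw [hvar]; norm_num, rfl⟩
    rintro r ⟨f, _, rfl⟩
    refine div_nonneg ?_ ?_
    · have h1 := dirichlet_eq β g f
      have h2 : 0 ≤ dirichlet β g f * ∑ x, w x := by
        rw [h1]
        exact Finset.sum_nonneg fun i _ => Finset.sum_nonneg fun x _ =>
          mul_nonneg (hc.pos x).le (sq_nonneg _)
      exact nonneg_of_mul_nonneg_left h2 hZ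
    · refine Finset.sum_nonneg fun x _ => mul_nonneg ?_ (sq_nonneg _)
      rw [gibbs_eq]
      exact div_nonneg (hc.pos x).le hZ.le
  rw [hvar, div_one] at hle
  exact hle.trans hdir

/-- main theorem, matching orders: for `0 < β < 1/2` both `t_mix = Θ(log n)` and
`gap = Θ(1)` with high probability. -/
theorem main_order (β : ℝ) (hβ : 0 < β) (hβ2 : β < 1 / 2) :
    ∃ c C : ℝ, 0 < c ∧ 0 < C ∧
      Tendsto (fun n : ℕ => disorder n {g | ¬ (c * Real.log n ≤ mixingTime β g ∧
        mixingTime β g ≤ C * Real.log n ∧ c ≤ spectralGap β g ∧ spectralGap β g ≤ 1)})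
        atTop (𝓝 0) := by
  obtain ⟨c1, C, hc1, hC, h1⟩ := main_upper β hβ hβ2
  obtain ⟨c2, hc2, h2⟩ := main_lower β hβ
  refine ⟨min c1 c2, C, lt_min hc1 hc2, hC, ?_⟩
  have ht := h1.add h2
  simp only [add_zero] at ht
  refine tendsto_of_tendsto_of_tendsto_of_le_of_le' tendsto_const_nhds ht
    (Eventually.of_forall fun n => zero_le) ?_
  filter_upwards [eventually_ge_atTop 1] with n hn
  refine le_trans (measure_mono ?_) (measure_union_le _ _)
  intro g hg
  by_contra hcon
  simp only [Set.mem_union, not_or, Set.mem_ofPred_eq, not_not] at hcon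
  obtain ⟨⟨d1, _, d3⟩, d4, _⟩ := hcon
  refine hg ⟨?_, d3, (min_le_left _ _).trans d1, spectralGap_le_one β g (by omega)⟩
  have hn1 : (1:ℝ) ≤ n := by exact_mod_cast hn
  exact (mul_le_mul_of_nonneg_right (min_le_right c1 c2) (Real.log_nonneg hn1)).trans d4

end Vale.Agent.P150
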