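import Vale.Agent.Lib.P150.Semigroup

/-!
W2, part A: variational formula for the entropy, tensorization for product weights,
concavity of the local entropies in the weight.
-/

namespace Vale.Agent.P150

variable {n : ℕ}

lemma sum_pos' {F : Config n → ℝ} (hF : ∀ x, 0 < F x) : 0 < ∑ x, F x :=
  Finset.sum_pos (fun x _ => hF x) ⟨fun _ => true, Finset.mem_univ _⟩

/-- Gibbs variational inequality. -/
lemma dv_le (w : Config n → ℝ) (hw : ∀ x, 0 < w x) (f : Config n → ℝ) (hf : ∀ x, 0 < f x)
    (φ : Config n → ℝ) :
    ∑ x, w x * f x * φ x ≤ entW w f +
      (∑ x, w x * f x) * Real.log ((∑ x, w x * Real.exp (φ x)) / ∑ x, w x) := by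
  have hZ : 0 < ∑ x, w x := sum_pos' hw
  have hM : 0 < ∑ x, w x * f x := sum_pos' fun x => mul_pos (hw x) (hf x)
  have hE : 0 < ∑ x, w x * Real.exp (φ x) := sum_pos' fun x => mul_pos (hw x) (Real.exp_pos _)
  set Z := ∑ x, w x with hZd
  set M := ∑ x, w x * f x with hMd
  set E := ∑ x, w x * Real.exp (φ x) with hEd
  have key : ∀ x, w x * f x * φ x ≤ w x * (f x * Real.log (f x))
      - w x * f x * Real.log (M / E) + (w x * Real.exp (φ x) * (M / E) - w x * f x) := by
    intro x
    have h1 : Real.log (Real.exp (φ x) * (M / E) / f x) ≤ Real.exp (φ x) * (M / E) / f x - 1 :=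
      Real.log_le_sub_one_of_pos (by have := hf x; positivity)
    rw [Real.log_div (by positivity) (hf x).ne', Real.log_mul (Real.exp_pos _).ne' (by positivity),
      Real.log_exp] at h1
    have h2 := mul_le_mul_of_nonneg_left h1 (mul_pos (hw x) (hf x)).le
    have e : w x * f x * (Real.exp (φ x) * (M / E) / f x - 1)
        = w x * Real.exp (φ x) * (M / E) - w x * f x := by
      have := (hf x).ne'
      field_simp
    rw [e] at h2
    linarith
  have h3 := Finset.sum_le_sum fun x (_ : x ∈ Finset.univ) => key x
  have e3 : ∑ x, (w x * (f x * Real.log (f x))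
      - w x * f x * Real.log (M / E) + (w x * Real.exp (φ x) * (M / E) - w x * f x))
      = ∑ x, w x * (f x * Real.log (f x)) - M * Real.log (M / E) := by
    rw [Finset.sum_add_distrib, Finset.sum_sub_distrib, Finset.sum_sub_distrib,
      ← Finset.sum_mul, ← Finset.sum_mul, ← hEd, ← hMd]
    field_simp
    ring
  rw [e3] at h3
  refine h3.trans (le_of_eq ?_)
  unfold entW
  rw [← hMd, ← hZd, Real.log_div hM.ne' hE.ne', Real.log_div hM.ne' hZ.ne',
    Real.log_div hE.ne' hZ.ne']
  ring

/-- local variational inequality -/
lemma local_var (w : Config n → ℝ) (hw : ∀ x, 0 < w x) (f : Config n → ℝ) (hf : ∀ x, 0 < f x)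
    (h : Config n → ℝ) (hh : ∀ x, 0 < h x) (i : Fin n) :
    ∑ x, w x * (f x * (Real.log (h x) - Real.log (condE w i h x))) ≤
      ∑ x, w x * (f x * (Real.log (f x) - Real.log (condE w i f x))) := by
  -- log (h * Af / (Ah * f)) <= h * Af / (Ah * f) - 1
  have key : ∀ x, w x * (f x * (Real.log (h x) - Real.log (condE w i h x))) ≤
      w x * (f x * (Real.log (f x) - Real.log (condE w i f x))) +
        (w x * (h x * (condE w i f x / condE w i h x)) - w x * f x) := by
    intro x
    have hA := condE_pos w hw i hf x
    have hB := condE_pos w hw i hh x
    have hfx := hf x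
    have hhx := hh x
    have h1 : Real.log (h x * condE w i f x / (condE w i h x * f x)) ≤
        h x * condE w i f x / (condE w i h x * f x) - 1 :=
      Real.log_le_sub_one_of_pos (by positivity)
    rw [Real.log_div (by positivity) (by positivity), Real.log_mul hhx.ne' hA.ne',
      Real.log_mul hB.ne' hfx.ne'] at h1
    have h2 := mul_le_mul_of_nonneg_left h1 (mul_pos (hw x) (hf x)).le
    have e : w x * f x * (h x * condE w i f x / (condE w i h x * f x) - 1)
        = w x * (h x * (condE w i f x / condE w i h x)) - w x * f x := by
      field_simp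
    rw [e] at h2
    linarith
  have h3 := Finset.sum_le_sum fun x (_ : x ∈ Finset.univ) => key x
  rw [Finset.sum_add_distrib, Finset.sum_sub_distrib] at h3
  have e1 : ∑ x, w x * (h x * (condE w i f x / condE w i h x)) = ∑ x, w x * f x := by
    have hc : ∀ x, condE w i (fun y => condE w i f y / condE w i h y) x
        = condE w i f x / condE w i h x := fun x =>
      condE_of_indep w hw i _ (fun x b => by simp only [condE_update]) x
    calc ∑ x, w x * (h x * (condE w i f x / condE w i h x))
        = ∑ x, w x * (h x * condE w i (fun y => condE w i f y / condE w i h y) x) := by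
          refine Finset.sum_congr rfl fun x _ => ?_
          rw [hc x]
      _ = ∑ x, w x * (condE w i h x * (condE w i f x / condE w i h x)) :=
          (sum_condE_mul w hw i h _).symm
      _ = ∑ x, w x * condE w i f x := by
          refine Finset.sum_congr rfl fun x _ => ?_
          have := (condE_pos w hw i hh x).ne'
          field_simp
      _ = _ := sum_condE w hw i f
  rw [e1] at h3
  linarith

/-- a function invariant under all single-site updates is constant -/
lemma const_of_indep (g : Config n → ℝ) (hg : ∀ i x b, g (Function.update x i b) = g x)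
    (x y : Config n) : g x = g y := by
  have key : ∀ s : Finset (Fin n), g (fun i => if i ∈ s then y i else x i) = g x := by
    intro s
    induction s using Finset.induction_on with
    | empty => simp
    | insert a s ha ih =>
      rw [← ih]
      have : (fun i => if i ∈ insert a s then y i else x i)
          = Function.update (fun i => if i ∈ s then y i else x i) a (y a) := by
        funext i
        by_cases hi : i = a
        · subst hi; simp
        · rw [Function.update_of_ne hi]
          simp [Finset.mem_insert, hi]
      rw [this, hg]
  have := key Finset.univ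
  simp only [Finset.mem_univ, if_true] at this
  exact this.symm

/-- product weights: conditional expectations preserve independence of a coordinate -/
lemma condE_indep_of_indep (θ : Fin n → ℝ) (i k : Fin n) (g : Config n → ℝ)
    (hg : ∀ x b, g (Function.update x k b) = g x) (x : Config n) (b : Bool) :
    condE (fun x => Real.exp (∑ i, θ i * spin (x i))) i g (Function.update x k b)
      = condE (fun x => Real.exp (∑ i, θ i * spin (x i))) i g x := by
  by_cases hik : i = k
  · subst hik; rw [condE_update]
  · have hw : ∀ (x : Config n) (s : Bool), Real.exp (∑ j, θ j * spin (Function.update x i s j))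
        = Real.exp (θ i * spin s) * Real.exp (∑ j ∈ Finset.univ.erase i, θ j * spin (x j)) := by
      intro x s
      rw [← Real.exp_add]
      congr 1
      rw [← Finset.add_sum_erase _ _ (Finset.mem_univ i)]
      congr 1
      · simp
      · refine Finset.sum_congr rfl fun j hj => ?_
        rw [Function.update_of_ne (Finset.ne_of_mem_erase hj)]
    have hval : ∀ x : Config n, condE (fun x => Real.exp (∑ i, θ i * spin (x i))) i g x
        = (Real.exp (θ i) * g (Function.update x i true)
            + Real.exp (-θ i) * g (Function.update x i false)) /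
          (Real.exp (θ i) + Real.exp (-θ i)) := by
      intro x
      unfold condE
      simp only [hw]
      have hp : 0 < Real.exp (∑ j ∈ Finset.univ.erase i, θ j * spin (x j)) := Real.exp_pos _
      have h2 : 0 < Real.exp (θ i) + Real.exp (-θ i) := add_pos (Real.exp_pos _) (Real.exp_pos _)
      have h3 : θ i * spin true = θ i := by simp
      have h4 : θ i * spin false = -θ i := by simp
      rw [h3, h4]
      rw [div_eq_div_iff (by positivity) (by positivity)]
      ring
    rw [hval, hval]
    rw [Function.update_comm (Ne.symm hik), Function.update_comm (Ne.symm hik), hg, hg]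

/-- Tensorization of entropy for product weights. -/
lemma tens_product (θ : Fin n → ℝ) (f : Config n → ℝ) (hf : ∀ x, 0 < f x) :
    entW (fun x => Real.exp (∑ i, θ i * spin (x i))) f
      ≤ entLoc (fun x => Real.exp (∑ i, θ i * spin (x i))) f := by
  set w : Config n → ℝ := fun x => Real.exp (∑ i, θ i * spin (x i)) with hwd
  have hw : ∀ x, 0 < w x := fun x => Real.exp_pos _
  -- iterated conditional expectations
  have hpos : ∀ l : List (Fin n), ∀ x, 0 < l.foldr (fun i g => condE w i g) f x := by
    intro l
    induction l with
    | nil => exact hf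
    | cons a l ih => intro x; exact condE_pos w hw a ih x
  have hind : ∀ l : List (Fin n), ∀ k ∈ l, ∀ x b,
      l.foldr (fun i g => condE w i g) f (Function.update x k b)
        = l.foldr (fun i g => condE w i g) f x := by
    intro l
    induction l with
    | nil => intro k hk; simp at hk
    | cons a l ih =>
      intro k hk x b
      rw [List.foldr_cons]
      rcases List.mem_cons.mp hk with h | h
      · subst h; exact condE_update w k _ x b
      · exact condE_indep_of_indep θ a k _ (ih k h) x b
  have hsum : ∀ l : List (Fin n), ∑ x, w x * l.foldr (fun i g => condE w i g) f x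
      = ∑ x, w x * f x := by
    intro l
    induction l with
    | nil => rfl
    | cons a l ih => rw [List.foldr_cons, sum_condE w hw a]; exact ih
  have htel : ∀ l : List (Fin n),
      ∑ x, w x * (f x * (Real.log (f x) - Real.log (l.foldr (fun i g => condE w i g) f x)))
      ≤ (l.map fun i => ∑ x, w x * (f x * (Real.log (f x) - Real.log (condE w i f x)))).sum := by
    intro l
    induction l with
    | nil => simp
    | cons a l ih =>
      rw [List.map_cons, List.sum_cons]
      have h1 := local_var w hw f hf _ (hpos l) a
      have e : ∑ x, w x * (f x * (Real.log (f x)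
          - Real.log ((a :: l).foldr (fun i g => condE w i g) f x)))
          = ∑ x, w x * (f x * (Real.log (f x) - Real.log (l.foldr (fun i g => condE w i g) f x)))
          + ∑ x, w x * (f x * (Real.log (l.foldr (fun i g => condE w i g) f x)
            - Real.log (condE w a (l.foldr (fun i g => condE w i g) f) x))) := by
        rw [← Finset.sum_add_distrib]
        refine Finset.sum_congr rfl fun x _ => ?_
        rw [List.foldr_cons]
        ring
      rw [e]
      linarith
  set F := (List.finRange n).foldr (fun i g => condE w i g) f with hF
  have hconst : ∀ x y, F x = F y :=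
    const_of_indep F fun i x b => hind _ i (List.mem_finRange i) x b
  have hZ : 0 < ∑ x, w x := sum_pos' hw
  have hval : ∀ x, F x = (∑ x, w x * f x) / ∑ x, w x := by
    intro x
    rw [eq_div_iff hZ.ne', ← hsum (List.finRange n), Finset.mul_sum]
    refine Finset.sum_congr rfl fun y _ => ?_
    rw [mul_comm, ← hF, hconst x y]
  have h := htel (List.finRange n)
  have e1 : ((List.finRange n).map fun i =>
      ∑ x, w x * (f x * (Real.log (f x) - Real.log (condE w i f x)))).sum = entLoc w f := by
    unfold entLoc
    rw [← List.ofFn_eq_map, List.sum_ofFn]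
  rw [e1] at h
  refine le_trans (le_of_eq ?_) h
  unfold entW
  simp only [← hF, hval]
  rw [Finset.sum_mul, ← Finset.sum_sub_distrib]
  refine Finset.sum_congr rfl fun x _ => ?_
  ring

/-- average over sign vectors -/
noncomputable def avg (F : Config n → ℝ) : ℝ := (∑ e, F e) / 2 ^ n

lemma avg_add (F G : Config n → ℝ) : avg (fun e => F e + G e) = avg F + avg G := by
  unfold avg; rw [Finset.sum_add_distrib, add_div]

lemma avg_sub (F G : Config n → ℝ) : avg (fun e => F e - G e) = avg F - avg G := by
  unfold avg; rw [Finset.sum_sub_distrib, sub_div]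

lemma avg_const (c : ℝ) : avg (fun _ : Config n => c) = c := by
  unfold avg; simp

lemma avg_const_mul (c : ℝ) (F : Config n → ℝ) : avg (fun e => c * F e) = c * avg F := by
  unfold avg; rw [← Finset.mul_sum, mul_div_assoc]

lemma avg_mul_const (c : ℝ) (F : Config n → ℝ) : avg (fun e => F e * c) = avg F * c := by
  unfold avg; rw [← Finset.sum_mul]; ring

lemma avg_mono {F G : Config n → ℝ} (h : ∀ e, F e ≤ G e) : avg F ≤ avg G := by
  unfold avg
  exact div_le_div_of_nonneg_right (Finset.sum_le_sum fun e _ => h e) (by positivity)

lemma avg_sum {ι : Type*} (s : Finset ι) (F : ι → Config n → ℝ) :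
    avg (fun e => ∑ i ∈ s, F i e) = ∑ i ∈ s, avg (F i) := by
  unfold avg
  rw [Finset.sum_comm, Finset.sum_div]

lemma avg_prod (φ : Fin n → Bool → ℝ) :
    avg (fun e : Config n => ∏ k, φ k (e k)) = ∏ k, ((φ k true + φ k false) / 2) := by
  unfold avg
  rw [Finset.prod_div_distrib, Finset.prod_const, Finset.card_univ, Fintype.card_fin]
  congr 1
  have := Finset.prod_univ_sum (fun _ : Fin n => (Finset.univ : Finset Bool)) φ
  simp only [Fintype.piFinset_univ, Fintype.sum_bool] at this
  exact this.symm

/-- concavity of `entLoc` in the weight -/
lemma entLoc_avg (w : Config n → ℝ) (hw : ∀ x, 0 < w x) (W : Config n → Config n → ℝ)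
    (hW : ∀ e x, 0 < W e x) (hav : ∀ x, avg (fun e => W e x) = w x)
    (f : Config n → ℝ) (hf : ∀ x, 0 < f x) :
    avg (fun e => entLoc (W e) f) ≤ entLoc w f := by
  unfold entLoc
  rw [avg_sum]
  refine Finset.sum_le_sum fun i _ => ?_
  have key : ∀ e x, W e x * (f x * (Real.log (f x) - Real.log (condE (W e) i f x))) ≤
      W e x * (f x * (Real.log (f x) - Real.log (condE w i f x)))
      + (W e x * (f x * (condE w i f x / condE (W e) i f x)) - W e x * f x) := by
    intro e x
    have hA := condE_pos w hw i hf x
    have hB := condE_pos (W e) (hW e) i hf x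
    have hfx := hf x
    have h1 : Real.log (condE w i f x / condE (W e) i f x) ≤
        condE w i f x / condE (W e) i f x - 1 := Real.log_le_sub_one_of_pos (by positivity)
    rw [Real.log_div hA.ne' hB.ne'] at h1
    have h2 := mul_le_mul_of_nonneg_left h1 (mul_pos (hW e x) (hf x)).le
    linarith [h2]
  have h3 : ∀ e, ∑ x, W e x * (f x * (Real.log (f x) - Real.log (condE (W e) i f x))) ≤
      ∑ x, W e x * (f x * (Real.log (f x) - Real.log (condE w i f x)))
      + (∑ x, W e x * condE w i f x - ∑ x, W e x * f x) := by
    intro e
    have h := Finset.sum_le_sum fun x (_ : x ∈ Finset.univ) => key e x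
    rw [Finset.sum_add_distrib, Finset.sum_sub_distrib] at h
    have e1 : ∑ x, W e x * (f x * (condE w i f x / condE (W e) i f x))
        = ∑ x, W e x * condE w i f x := by
      have hc : ∀ x, condE (W e) i (fun y => condE w i f y / condE (W e) i f y) x
          = condE w i f x / condE (W e) i f x := fun x =>
        condE_of_indep (W e) (hW e) i _ (fun x b => by simp only [condE_update]) x
      calc ∑ x, W e x * (f x * (condE w i f x / condE (W e) i f x))
          = ∑ x, W e x * (f x * condE (W e) i (fun y => condE w i f y / condE (W e) i f y) x) := by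
            refine Finset.sum_congr rfl fun x _ => ?_
            rw [hc x]
        _ = ∑ x, W e x * (condE (W e) i f x * (condE w i f x / condE (W e) i f x)) :=
            (sum_condE_mul (W e) (hW e) i f _).symm
        _ = _ := by
            refine Finset.sum_congr rfl fun x _ => ?_
            have := (condE_pos (W e) (hW e) i hf x).ne'
            field_simp
    rw [e1] at h
    exact h
  have h4 := avg_mono h3
  have hswap : ∀ G : Config n → ℝ, avg (fun e => ∑ x, W e x * G x) = ∑ x, w x * G x := by
    intro G
    rw [avg_sum]
    refine Finset.sum_congr rfl fun x _ => ?_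
    rw [avg_mul_const, hav]
  rw [avg_add, avg_sub, hswap (condE w i f), hswap f, sum_condE w hw i f, sub_self, add_zero,
    hswap] at h4
  exact h4

end Vale.Agent.P150
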