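import Vale.Agent.Lib.P150.GapBound

namespace Vale.Agent.P150

variable {n : ℕ}

lemma dd_sum {ι : Type*} (s : Finset ι) (i : Fin n) (F : ι → Config n → ℝ) (x : Config n) :
    dd i (fun y => ∑ a ∈ s, F a y) x = ∑ a ∈ s, dd i (F a) x := by
  unfold dd
  rw [← Finset.sum_sub_distrib, Finset.sum_div]

lemma dd_spin (i a : Fin n) (x : Config n) :
    dd i (fun y => spin (y a)) x = if a = i then 1 else 0 := by
  split_ifs with h
  · subst h; exact dd_spin_self _ _
  · exact dd_spin_ne (fun h' => h h'.symm) _

/-- the local field of the Ising weight -/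
noncomputable def fieldJ (J : Fin n → Fin n → ℝ) (θ : Fin n → ℝ) (i : Fin n) (x : Config n) : ℝ :=
  θ i + ∑ j, J i j * spin (x j)

/-- the conditional mean of spin `i` -/
noncomputable def meanJ (J : Fin n → Fin n → ℝ) (θ : Fin n → ℝ) (i : Fin n) (x : Config n) : ℝ :=
  Real.tanh (fieldJ J θ i x)

/-- energy -/
noncomputable def energyJ (J : Fin n → Fin n → ℝ) (θ : Fin n → ℝ) (x : Config n) : ℝ :=
  (∑ i, ∑ j, J i j * spin (x i) * spin (x j)) / 2 + ∑ i, θ i * spin (x i)

lemma isingW_eq (J : Fin n → Fin n → ℝ) (θ : Fin n → ℝ) (x : Config n) :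
    isingW J θ x = Real.exp (energyJ J θ x) := rfl

lemma dd_field (J : Fin n → Fin n → ℝ) (θ : Fin n → ℝ) (i j : Fin n) (x : Config n) :
    dd j (fieldJ J θ i) x = J i j := by
  have : fieldJ J θ i = fun y => (fun _ => θ i) y + (fun y => ∑ j, J i j * spin (y j)) y := rfl
  rw [this, dd_add, dd_const, dd_sum]
  simp only [dd_const_mul, dd_spin, zero_add]
  simp

lemma dd_energy (J : Fin n → Fin n → ℝ) (hJ : ∀ i j, J i j = J j i) (hJ0 : ∀ i, J i i = 0)
    (θ : Fin n → ℝ) (i : Fin n) (x : Config n) :
    dd i (energyJ J θ) x = fieldJ J θ i x := by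
  have e : energyJ J θ = fun y =>
      (fun y => (1 / 2 : ℝ) * (fun y => ∑ a, ∑ b, J a b * (spin (y a) * spin (y b))) y) y
        + (fun y => ∑ a, θ a * spin (y a)) y := by
    funext y; simp only [energyJ]
    congr 1
    rw [div_eq_mul_inv, mul_comm]; norm_num
    simp only [mul_assoc]
  rw [e, dd_add, dd_const_mul, dd_sum, dd_sum]
  have h1 : ∀ a, dd i (fun y => ∑ b, J a b * (spin (y a) * spin (y b))) x
      = ∑ b, J a b * ((if a = i then 1 else 0) * spin (x b) + spin (x a) * (if b = i then 1 else 0)
        - 2 * spin (x i) * (if a = i then 1 else 0) * (if b = i then 1 else 0)) := by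
    intro a
    rw [dd_sum]
    refine Finset.sum_congr rfl fun b _ => ?_
    rw [dd_const_mul, dd_mul i (fun y => spin (y a)) (fun y => spin (y b)), dd_spin, dd_spin]
  simp only [h1, dd_const_mul, dd_spin]
  have h2 : ∑ a, ∑ b, J a b * ((if a = i then (1:ℝ) else 0) * spin (x b)
        + spin (x a) * (if b = i then 1 else 0)
        - 2 * spin (x i) * (if a = i then 1 else 0) * (if b = i then 1 else 0))
      = 2 * ∑ b, J i b * spin (x b) := by
    have : ∀ a b, J a b * ((if a = i then (1:ℝ) else 0) * spin (x b)
        + spin (x a) * (if b = i then 1 else 0)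
        - 2 * spin (x i) * (if a = i then 1 else 0) * (if b = i then 1 else 0))
        = (if a = i then J a b * spin (x b) else 0) + (if b = i then J a b * spin (x a) else 0)
          - (if a = i then (if b = i then 2 * spin (x i) * J a b else 0) else 0) := by
      intro a b; split_ifs <;> ring
    simp only [this, Finset.sum_sub_distrib, Finset.sum_add_distrib]
    simp only [Finset.sum_ite_eq', Finset.mem_univ, if_true]
    rw [Finset.sum_comm]
    simp only [Finset.sum_ite_eq', Finset.mem_univ, if_true]
    have h3 : ∑ a, J a i * spin (x a) = ∑ b, J i b * spin (x b) :=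
      Finset.sum_congr rfl fun b _ => by rw [hJ b i]
    have h4 : ∀ a, ∑ b, (if a = i then (if b = i then 2 * spin (x i) * J a b else 0) else (0:ℝ))
        = 0 := by
      intro a
      split_ifs with h
      · simp [h, hJ0]
      · simp
    simp only [h4]
    rw [h3]; simp; ring
  rw [h2]
  simp [fieldJ]; ring

lemma tanh_add_mul (a b : ℝ) :
    Real.tanh (a + b) * (1 + Real.tanh a * Real.tanh b) = Real.tanh a + Real.tanh b := by
  have ha := Real.cosh_pos a
  have hb := Real.cosh_pos b
  have hab := Real.cosh_pos (a + b)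
  rw [Real.tanh_eq_sinh_div_cosh, Real.tanh_eq_sinh_div_cosh, Real.tanh_eq_sinh_div_cosh]
  have h : 1 + Real.sinh a / Real.cosh a * (Real.sinh b / Real.cosh b)
      = Real.cosh (a + b) / (Real.cosh a * Real.cosh b) := by
    rw [Real.cosh_add]; field_simp
  rw [h, Real.sinh_add]
  field_simp

lemma one_sub_tanh_mul_exp (h : ℝ) :
    Real.exp h * (1 - Real.tanh h) = Real.exp (-h) * (1 + Real.tanh h) := by
  rw [Real.tanh_eq]
  have h1 := Real.exp_pos h
  have h2 := Real.exp_pos (-h)
  field_simp
  ring

lemma condMean_ising (J : Fin n → Fin n → ℝ) (hJ : ∀ i j, J i j = J j i) (hJ0 : ∀ i, J i i = 0)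
    (θ : Fin n → ℝ) : CondMean (isingW J θ) (meanJ J θ) where
  pos x := Real.exp_pos _
  indep i x b := by
    unfold meanJ
    rw [update_eq_cases x i b (fieldJ J θ i), dd_field, hJ0]; simp
  bal i x := by
    have hE := dd_energy J hJ hJ0 θ i x
    unfold dd at hE
    rw [isingW_eq, isingW_eq]
    unfold meanJ
    set h := fieldJ J θ i x with hh
    have e1 : energyJ J θ (Function.update x i true)
        = (energyJ J θ (Function.update x i true) + energyJ J θ (Function.update x i false)) / 2
          + h := by linarith
    have e2 : energyJ J θ (Function.update x i false)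
        = (energyJ J θ (Function.update x i true) + energyJ J θ (Function.update x i false)) / 2
          + (-h) := by linarith
    rw [e1]
    conv_rhs => rw [e2]
    rw [← e1, ← e2]
    have e3 : Real.exp (energyJ J θ (Function.update x i true))
        = Real.exp ((energyJ J θ (Function.update x i true)
          + energyJ J θ (Function.update x i false)) / 2) * Real.exp h := by
      rw [← Real.exp_add, ← e1]
    have e4 : Real.exp (energyJ J θ (Function.update x i false))
        = Real.exp ((energyJ J θ (Function.update x i true)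
          + energyJ J θ (Function.update x i false)) / 2) * Real.exp (-h) := by
      rw [← Real.exp_add, ← e2]
    rw [e3, e4, mul_assoc, mul_assoc, one_sub_tanh_mul_exp]
  lt i x := Real.tanh_sq_lt_one _

lemma dd_meanJ (J : Fin n → Fin n → ℝ) (θ : Fin n → ℝ) (i j : Fin n) (x : Config n) :
    dd j (meanJ J θ i) x * (1 - 2 * (Real.tanh (2 * J i j) / 2) * spin (x j) * meanJ J θ i x)
      = (Real.tanh (2 * J i j) / 2) * (1 - meanJ J θ i x ^ 2) := by
  have hf := dd_field J θ i j x
  have e : dd j (meanJ J θ i) x = (Real.tanh (fieldJ J θ i (Function.update x j true))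
      - Real.tanh (fieldJ J θ i (Function.update x j false))) / 2 := rfl
  rw [e, update_eq_cases x j true (fieldJ J θ i), update_eq_cases x j false (fieldJ J θ i), hf]
  unfold meanJ
  set h := fieldJ J θ i x
  rcases hx : x j with _ | _
  · simp only [spin_true, spin_false]
    have e1 : h + (1 - -1) * J i j = h + 2 * J i j := by ring
    have e2 : h + (-1 - -1) * J i j = h := by ring
    rw [e1, e2]
    have := tanh_add_mul h (2 * J i j)
    linear_combination this / 2
  · simp only [spin_true, spin_false]
    have e1 : h + (1 - 1) * J i j = h := by ring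
    have e2 : h + (-1 - 1) * J i j = h + (-(2 * J i j)) := by ring
    rw [e1, e2]
    have := tanh_add_mul h (-(2 * J i j))
    rw [Real.tanh_neg] at this
    linear_combination -this / 2

end Vale.Agent.P150
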