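import Vale.Agent.Lib.P150.Poincare
import Vale.Agent.Lib.P150.IsingMean

namespace Vale.Agent.P150

variable {n : ℕ}

lemma hasDerivAt_tanh' (x : ℝ) : HasDerivAt Real.tanh (1 - Real.tanh x ^ 2) x := by
  have h1 : HasDerivAt (fun x => Real.sinh x / Real.cosh x)
      ((Real.cosh x * Real.cosh x - Real.sinh x * Real.sinh x) / Real.cosh x ^ 2) x :=
    (Real.hasDerivAt_sinh x).div (Real.hasDerivAt_cosh x) (Real.cosh_pos x).ne'
  have h2 : (fun x => Real.sinh x / Real.cosh x) = Real.tanh := by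
    funext y; rw [Real.tanh_eq_sinh_div_cosh]
  rw [h2] at h1
  convert h1 using 1
  have := (Real.cosh_pos x).ne'
  rw [Real.tanh_eq_sinh_div_cosh]
  field_simp

lemma tanh_le_self {x : ℝ} (hx : 0 ≤ x) : Real.tanh x ≤ x := by
  have hm : MonotoneOn (fun y => y - Real.tanh y) (Set.Ici 0) := by
    refine monotoneOn_of_deriv_nonneg (convex_Ici 0) ?_ ?_ ?_
    · exact fun y _ => ((hasDerivAt_id y).sub (hasDerivAt_tanh' y)).continuousAt.continuousWithinAt
    · exact fun y _ => ((hasDerivAt_id y).sub (hasDerivAt_tanh' y)).differentiableAt.differentiableWithinAt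
    · intro y _
      have : deriv (fun y => y - Real.tanh y) y = 1 - (1 - Real.tanh y ^ 2) :=
        ((hasDerivAt_id y).sub (hasDerivAt_tanh' y)).deriv
      rw [this]; linarith [sq_nonneg (Real.tanh y)]
  have := hm (Set.mem_Ici.mpr le_rfl) (Set.mem_Ici.mpr hx) hx
  simp only [Real.tanh_zero, sub_zero] at this
  linarith

lemma tanh_nonneg' {x : ℝ} (hx : 0 ≤ x) : 0 ≤ Real.tanh x := by
  rw [Real.tanh_eq_sinh_div_cosh]
  exact div_nonneg (Real.sinh_nonneg_iff.mpr hx) (Real.cosh_pos x).le

lemma self_sub_cube_le_tanh {x : ℝ} (hx : 0 ≤ x) : x - x ^ 3 / 3 ≤ Real.tanh x := by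
  have hd : ∀ y, HasDerivAt (fun y => Real.tanh y - y + y ^ 3 / 3)
      ((1 - Real.tanh y ^ 2) - 1 + (3 * y ^ 2) / 3) y := by
    intro y
    have h3 : HasDerivAt (fun y : ℝ => y ^ 3 / 3) ((3 * y ^ 2) / 3) y := by
      have := (hasDerivAt_pow 3 y).div_const 3
      simpa using this
    exact ((hasDerivAt_tanh' y).sub (hasDerivAt_id y)).add h3
  have hm : MonotoneOn (fun y => Real.tanh y - y + y ^ 3 / 3) (Set.Ici 0) := by
    refine monotoneOn_of_deriv_nonneg (convex_Ici 0) ?_ ?_ ?_
    · exact fun y _ => (hd y).continuousAt.continuousWithinAt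
    · exact fun y _ => (hd y).differentiableAt.differentiableWithinAt
    · intro y hy
      rw [(hd y).deriv]
      have hy0 : 0 ≤ y := by
        rw [interior_Ici] at hy; exact hy.le
      have := tanh_le_self hy0
      have h0 := tanh_nonneg' hy0
      nlinarith
  have := hm (Set.mem_Ici.mpr le_rfl) (Set.mem_Ici.mpr hx) hx
  simp only [Real.tanh_zero] at this
  norm_num at this
  linarith

lemma abs_tanh_le (x : ℝ) : |Real.tanh x| ≤ |x| := by
  rcases le_total 0 x with hx | hx
  · rw [abs_of_nonneg hx, abs_of_nonneg (tanh_nonneg' hx)]; exact tanh_le_self hx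
  · have h1 : 0 ≤ -x := by linarith
    have h2 := tanh_le_self h1
    have h3 := tanh_nonneg' h1
    rw [Real.tanh_neg] at h2 h3
    rw [abs_of_nonpos hx, abs_of_nonpos (by linarith)]; exact h2

lemma abs_tanh_sub_le (x : ℝ) : |Real.tanh x - x| ≤ |x| ^ 3 / 3 := by
  rcases le_total 0 x with hx | hx
  · rw [abs_of_nonneg hx, abs_le]
    constructor
    · linarith [self_sub_cube_le_tanh hx]
    · have := tanh_le_self hx
      have : 0 ≤ x ^ 3 := by positivity
      linarith
  · have h1 : 0 ≤ -x := by linarith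
    have h2 := self_sub_cube_le_tanh h1
    have h3 := tanh_le_self h1
    rw [Real.tanh_neg] at h2 h3
    rw [abs_of_nonpos hx, abs_le]
    have : 0 ≤ (-x) ^ 3 := by positivity
    constructor
    · linarith
    · linarith

/-- the effective coupling -/
noncomputable def tauJ (J : Fin n → Fin n → ℝ) (i j : Fin n) : ℝ := Real.tanh (2 * J i j) / 2

lemma abs_tauJ_le (J : Fin n → Fin n → ℝ) (i j : Fin n) : |tauJ J i j| ≤ |J i j| := by
  unfold tauJ
  rw [abs_div, abs_two]
  have := abs_tanh_le (2 * J i j)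
  rw [abs_mul, abs_two] at this
  linarith

lemma abs_tauJ_sub_le (J : Fin n → Fin n → ℝ) (i j : Fin n) :
    |tauJ J i j - J i j| ≤ 4 / 3 * |J i j| ^ 3 := by
  unfold tauJ
  have e : Real.tanh (2 * J i j) / 2 - J i j = (Real.tanh (2 * J i j) - 2 * J i j) / 2 := by ring
  rw [e, abs_div, abs_two]
  have := abs_tanh_sub_le (2 * J i j)
  rw [abs_mul, abs_two, mul_pow] at this
  linarith

theorem condE_sub {w : Config n → ℝ} {T : Fin n → Config n → ℝ} (h : CondMean w T)
    (i : Fin n) (f : Config n → ℝ) (x : Config n) :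
    f x - condE w i f x = (spin (x i) - T i x) * dd i f x := by
  unfold condE
  have hb := h.bal i x
  have h1 := h.pos (Function.update x i true)
  have h2 := h.pos (Function.update x i false)
  have e0 : f x = f x := rfl
  rw [update_eq_cases x i true f, update_eq_cases x i false f]
  simp only [spin_true, spin_false]
  field_simp
  linear_combination (-(dd i f x)) * hb

theorem gap_bound (J : Fin n → Fin n → ℝ) (hJ : ∀ i j, J i j = J j i)
    (hJ0 : ∀ i, J i i = 0) (lam R δ : ℝ) (hR : 0 ≤ R) (hδ : 0 ≤ δ) (hδ1 : δ ≤ 1 / 20)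
    (hlam : ∀ v : Fin n → ℝ, ∑ i, ∑ j, J i j * v i * v j ≤ lam * ∑ i, v i ^ 2)
    (hRow : ∀ i, ∑ j, J i j ^ 2 ≤ R) (hRlam : 2 * R ≤ lam)
    (hent : ∀ i j, |J i j| ≤ δ) (θ : Fin n → ℝ) (f : Config n → ℝ) :
    (1 - lam - 100 * (R + 1) * δ) *
      ((∑ x, isingW J θ x * f x ^ 2) * (∑ x, isingW J θ x) - (∑ x, isingW J θ x * f x) ^ 2) ≤
    (∑ x, isingW J θ x) * ∑ i, ∑ x, isingW J θ x * (f x - condE (isingW J θ) i f x) ^ 2 := by
  have h := condMean_ising J hJ hJ0 θ
  set w := isingW J θ with hw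
  set T := meanJ J θ with hT
  have hZ : 0 < ∑ x, w x := Finset.sum_pos (fun x _ => h.pos x) ⟨fun _ => true, Finset.mem_univ _⟩
  have hvar : 0 ≤ (∑ x, w x * f x ^ 2) * (∑ x, w x) - (∑ x, w x * f x) ^ 2 := by
    have := Finset.sum_mul_sq_le_sq_mul_sq Finset.univ (fun x => Real.sqrt (w x) * f x)
      (fun x => Real.sqrt (w x))
    have e1 : ∑ x, Real.sqrt (w x) * f x * Real.sqrt (w x) = ∑ x, w x * f x := by
      refine Finset.sum_congr rfl fun x _ => ?_
      have := Real.mul_self_sqrt (h.pos x).le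
      linear_combination f x * this
    have e2 : ∑ x, (Real.sqrt (w x) * f x) ^ 2 = ∑ x, w x * f x ^ 2 := by
      refine Finset.sum_congr rfl fun x _ => ?_
      rw [mul_pow, Real.sq_sqrt (h.pos x).le]
    have e3 : ∑ x, Real.sqrt (w x) ^ 2 = ∑ x, w x := by
      refine Finset.sum_congr rfl fun x _ => ?_
      rw [Real.sq_sqrt (h.pos x).le]
    rw [e1, e2, e3] at this
    linarith
  have hrhs : ∑ i, ∑ x, w x * (f x - condE w i f x) ^ 2 = dirF w T f f := by
    unfold dirF
    rw [show ∑ x, w x * ∑ i, (1 - T i x ^ 2) * (dd i f x * dd i f x)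
      = ∑ i, ∑ x, w x * ((1 - T i x ^ 2) * dd i f x ^ 2) from by
        rw [Finset.sum_comm]
        refine Finset.sum_congr rfl fun x _ => ?_
        rw [Finset.mul_sum]
        refine Finset.sum_congr rfl fun i _ => ?_
        ring]
    refine Finset.sum_congr rfl fun i _ => ?_
    rw [← h.diag]
    refine Finset.sum_congr rfl fun x _ => ?_
    rw [condE_sub h]; ring
  rw [hrhs]
  by_cases hκ : 1 - lam - 100 * (R + 1) * δ ≤ 0
  · have h1 : (1 - lam - 100 * (R + 1) * δ) *
      ((∑ x, w x * f x ^ 2) * (∑ x, w x) - (∑ x, w x * f x) ^ 2) ≤ 0 :=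
      mul_nonpos_of_nonpos_of_nonneg hκ hvar
    exact h1.trans (mul_nonneg hZ.le (h.dirF_nonneg f))
  push Not at hκ
  refine h.poincare _ hκ (fun f => ?_) f
  -- Bochner
  have hB := h.bochner (tauJ J) (fun i j => by unfold tauJ; rw [hJ]) (fun i => by
      unfold tauJ; rw [hJ0]; simp) (fun i j x => dd_meanJ J θ i j x) (lam + 4 / 3 * δ * R) R δ hδ1
    (fun i j => (abs_tauJ_le J i j).trans (hent i j))
    (fun i => (Finset.sum_le_sum fun j _ => by
      rw [← sq_abs, ← sq_abs (J i j)]
      exact pow_le_pow_left₀ (abs_nonneg _) (abs_tauJ_le J i j) 2).trans (hRow i))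
    (by nlinarith [mul_nonneg hδ hR]) (fun v => ?_) f
  · have e1 : ∑ x, w x * ∑ i, (1 - T i x ^ 2) * dd i f x ^ 2 = dirF w T f f := by
      unfold dirF
      refine Finset.sum_congr rfl fun x _ => ?_
      congr 1
      refine Finset.sum_congr rfl fun i _ => ?_
      ring
    rw [e1] at hB
    have e2 : (1 - lam - 100 * (R + 1) * δ) * dirF w T f f
        ≤ (1 - (lam + 4 / 3 * δ * R) - 24 * δ * R) * dirF w T f f := by
      refine mul_le_mul_of_nonneg_right ?_ (h.dirF_nonneg f)
      nlinarith [mul_nonneg hδ hR]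
    exact e2.trans hB
  · have e1 : ∑ i, ∑ j, tauJ J i j * (v i * v j)
        = ∑ i, ∑ j, J i j * v i * v j + ∑ i, ∑ j, (tauJ J i j - J i j) * (v i * v j) := by
      rw [← Finset.sum_add_distrib]
      refine Finset.sum_congr rfl fun i _ => ?_
      rw [← Finset.sum_add_distrib]
      refine Finset.sum_congr rfl fun j _ => ?_
      ring
    have e2 : ∑ i, ∑ j, (tauJ J i j - J i j) * (v i * v j)
        ≤ ∑ i, ∑ j, |tauJ J i j - J i j| * (|v i| * |v j|) := by
      refine Finset.sum_le_sum fun i _ => Finset.sum_le_sum fun j _ => ?_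
      rw [← abs_mul, ← abs_mul]; exact le_abs_self _
    have e3 := schur_sq (fun i j => |tauJ J i j - J i j|) (fun i j => abs_nonneg _)
      (fun i j => by
        have : tauJ J i j = tauJ J j i := by unfold tauJ; rw [hJ]
        rw [this, hJ i j]) (4 / 3 * δ * R) (fun i => by
        calc ∑ j, |tauJ J i j - J i j| ≤ ∑ j, 4 / 3 * δ * J i j ^ 2 := by
              refine Finset.sum_le_sum fun j _ => ?_
              refine (abs_tauJ_sub_le J i j).trans ?_
              have : |J i j| ^ 3 = |J i j| * J i j ^ 2 := by rw [← sq_abs (J i j)]; ring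
              rw [this]
              have := mul_le_mul_of_nonneg_right (hent i j) (sq_nonneg (J i j))
              linarith
          _ = 4 / 3 * δ * ∑ j, J i j ^ 2 := by rw [Finset.mul_sum]
          _ ≤ 4 / 3 * δ * R := by
              exact mul_le_mul_of_nonneg_left (hRow i) (by positivity))
      (fun i => |v i|) (fun i => |v i|)
    simp only [sq_abs] at e3
    rw [e1]
    have := hlam v
    linarith

end Vale.Agent.P150
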