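import Vale.Agent.Lib.P150.EntTensA
import Vale.Agent.Lib.P150.GapFinal

/-!
W2, part B: entropic stability and the one-step inequality.
-/

namespace Vale.Agent.P150

variable {n : ℕ}

/-- Upper bound for the log-Laplace transform from a bound on tilted variances. -/
lemma logLaplace_le (w : Config n → ℝ) (hw : ∀ x, 0 < w x) (u : Config n → ℝ) (V : ℝ)
    (hV : ∀ l : ℝ, (∑ x, w x * Real.exp (l * u x) * u x ^ 2) * (∑ x, w x * Real.exp (l * u x))
      - (∑ x, w x * Real.exp (l * u x) * u x) ^ 2 ≤ V * (∑ x, w x * Real.exp (l * u x)) ^ 2)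
    (l : ℝ) (hl : 0 ≤ l) :
    Real.log ((∑ x, w x * Real.exp (l * u x)) / ∑ x, w x) ≤
      l * ((∑ x, w x * u x) / ∑ x, w x) + V * l ^ 2 / 2 := by
  set Z : ℝ → ℝ := fun l => ∑ x, w x * Real.exp (l * u x) with hZd
  set Z1 : ℝ → ℝ := fun l => ∑ x, w x * Real.exp (l * u x) * u x with hZ1d
  set Z2 : ℝ → ℝ := fun l => ∑ x, w x * Real.exp (l * u x) * u x ^ 2 with hZ2d
  have hZpos : ∀ l, 0 < Z l := fun l => sum_pos' fun x => mul_pos (hw x) (Real.exp_pos _)
  have hdZ : ∀ l, HasDerivAt Z (Z1 l) l := by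
    intro l
    refine HasDerivAt.fun_sum fun x _ => ?_
    have h1 : HasDerivAt (fun l => Real.exp (l * u x)) (Real.exp (l * u x) * u x) l := by
      have := ((hasDerivAt_id l).mul_const (u x)).exp
      simpa using this
    exact (h1.const_mul (w x)).congr_deriv (by ring)
  have hdZ1 : ∀ l, HasDerivAt Z1 (Z2 l) l := by
    intro l
    refine HasDerivAt.fun_sum fun x _ => ?_
    have h1 : HasDerivAt (fun l => Real.exp (l * u x)) (Real.exp (l * u x) * u x) l := by
      have := ((hasDerivAt_id l).mul_const (u x)).exp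
      simpa using this
    exact ((h1.const_mul (w x)).mul_const (u x)).congr_deriv (by ring)
  set m : ℝ := Z1 0 / Z 0 with hm
  set G : ℝ → ℝ := fun l => l * m + V * l ^ 2 / 2 - Real.log (Z l) + Real.log (Z 0) with hG
  set G1 : ℝ → ℝ := fun l => m + V * l - Z1 l / Z l with hG1
  have hdG : ∀ l, HasDerivAt G (G1 l) l := by
    intro l
    have h1 : HasDerivAt (fun l : ℝ => l * m) m l := by
      simpa using (hasDerivAt_id l).mul_const m
    have h2 : HasDerivAt (fun l : ℝ => V * l ^ 2 / 2) (V * l) l := by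
      exact (((hasDerivAt_pow 2 l).const_mul V).div_const 2).congr_deriv (by simp; ring)
    have h3 := (hdZ l).log (hZpos l).ne'
    exact ((h1.add h2).sub h3).add_const _
  have hdG1 : ∀ l, HasDerivAt G1 (V - (Z2 l * Z l - Z1 l ^ 2) / Z l ^ 2) l := by
    intro l
    have h1 : HasDerivAt (fun l : ℝ => m + V * l) V l := by
      simpa using ((hasDerivAt_id l).const_mul V).const_add m
    have h2 := (hdZ1 l).div (hdZ l) (hZpos l).ne'
    exact (h1.sub h2).congr_deriv (by ring)
  have hG1mono : Monotone G1 := by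
    refine monotone_of_deriv_nonneg (fun l => (hdG1 l).differentiableAt) fun l => ?_
    rw [(hdG1 l).deriv]
    have := hV l
    have h2 : (Z2 l * Z l - Z1 l ^ 2) / Z l ^ 2 ≤ V := by
      rw [div_le_iff₀ (by have := hZpos l; positivity)]
      exact this
    linarith
  have hG10 : G1 0 = 0 := by simp [hG1, hm]
  have hGmono : MonotoneOn G (Set.Ici 0) := by
    refine monotoneOn_of_deriv_nonneg (convex_Ici 0)
      (fun l _ => (hdG l).continuousAt.continuousWithinAt)
      (fun l _ => (hdG l).differentiableAt.differentiableWithinAt) fun l hl => ?_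
    rw [(hdG l).deriv, ← hG10]
    rw [interior_Ici] at hl
    exact hG1mono (le_of_lt hl)
  have hG0 : G 0 = 0 := by simp [hG]
  have hfin := hGmono (Set.mem_Ici.mpr le_rfl) (Set.mem_Ici.mpr hl) hl
  rw [hG0] at hfin
  have hZ0 : Z 0 = ∑ x, w x := by simp [hZd]
  have hZ10 : Z1 0 = ∑ x, w x * u x := by simp [hZ1d]
  rw [Real.log_div (hZpos l).ne' (by rw [← hZ0]; exact (hZpos 0).ne'), ← hZ0, ← hZ10]
  have : G l = l * m + V * l ^ 2 / 2 - Real.log (Z l) + Real.log (Z 0) := rfl
  rw [this] at hfin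
  linarith

/-- covariance bound for a weight, uniformly over tilts -/
def CovBd (w : Config n → ℝ) (K : ℝ) : Prop :=
  ∀ v : Fin n → ℝ,
    (∑ x, w x * (∑ i, v i * spin (x i)) ^ 2) * (∑ x, w x)
      - (∑ x, w x * (∑ i, v i * spin (x i))) ^ 2 ≤ K * (∑ i, v i ^ 2) * (∑ x, w x) ^ 2

/-- Entropic stability. -/
lemma ent_stab (w : Config n → ℝ) (hw : ∀ x, 0 < w x) (K : ℝ) (hK : 0 < K)
    (hcov : ∀ θ : Fin n → ℝ, CovBd (fun x => w x * Real.exp (∑ i, θ i * spin (x i))) K)
    (f : Config n → ℝ) (hf : ∀ x, 0 < f x) :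
    ∑ i, (∑ x, w x * (f x - (∑ x, w x * f x) / ∑ x, w x) * spin (x i)) ^ 2 ≤
      2 * K * (∑ x, w x * f x) * entW w f := by
  have hZ : 0 < ∑ x, w x := sum_pos' hw
  have hM : 0 < ∑ x, w x * f x := sum_pos' fun x => mul_pos (hw x) (hf x)
  set Z := ∑ x, w x with hZd
  set M := ∑ x, w x * f x with hMd
  set z : Fin n → ℝ := fun i => ∑ x, w x * (f x - M / Z) * spin (x i) with hz
  set u : Config n → ℝ := fun x => ∑ i, z i * spin (x i) with hu
  set S := ∑ i, z i ^ 2 with hS
  have hS0 : 0 ≤ S := Finset.sum_nonneg fun i _ => sq_nonneg _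
  have hlap := logLaplace_le w hw u (K * S) (by
    intro l
    have h := hcov (fun i => l * z i) z
    have e : ∀ x : Config n, ∑ i, l * z i * spin (x i) = l * u x := by
      intro x
      rw [hu, Finset.mul_sum]
      exact Finset.sum_congr rfl fun i _ => by ring
    simp only [e] at h
    exact h)
  -- linear relation
  have hlin : ∑ x, w x * f x * u x - M * ((∑ x, w x * u x) / Z) = S := by
    have e1 : ∑ x, w x * (f x - M / Z) * u x = S := by
      have : ∀ x, w x * (f x - M / Z) * u x = ∑ i, z i * (w x * (f x - M / Z) * spin (x i)) := by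
        intro x
        rw [hu, Finset.mul_sum]
        exact Finset.sum_congr rfl fun i _ => by ring
      simp only [this]
      rw [Finset.sum_comm]
      refine Finset.sum_congr rfl fun i _ => ?_
      rw [← Finset.mul_sum, sq]
    rw [← e1]
    have : ∀ x, w x * (f x - M / Z) * u x = w x * f x * u x - M / Z * (w x * u x) := fun x => by
      ring
    simp only [this]
    rw [Finset.sum_sub_distrib, ← Finset.mul_sum]
    ring
  have hmain : ∀ l : ℝ, 0 ≤ l → l * S ≤ entW w f + M * (K * S * l ^ 2 / 2) := by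
    intro l hl
    have h1 := dv_le w hw f hf (fun x => l * u x)
    have h2 := hlap l hl
    have h3 := mul_le_mul_of_nonneg_left h2 hM.le
    have e1 : ∑ x, w x * f x * (l * u x) = l * ∑ x, w x * f x * u x := by
      rw [Finset.mul_sum]
      exact Finset.sum_congr rfl fun x _ => by ring
    rw [e1] at h1
    have h4 : l * ∑ x, w x * f x * u x = l * S + l * (M * ((∑ x, w x * u x) / Z)) := by
      rw [← hlin]; ring
    rw [h4] at h1
    have : M * (l * ((∑ x, w x * u x) / Z) + K * S * l ^ 2 / 2)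
        = l * (M * ((∑ x, w x * u x) / Z)) + M * (K * S * l ^ 2 / 2) := by ring
    rw [this] at h3
    linarith
  have h := hmain (1 / (M * K)) (by positivity)
  have e : M * (K * S * (1 / (M * K)) ^ 2 / 2) = S / (M * K) / 2 := by
    field_simp
  rw [e] at h
  have e2 : 1 / (M * K) * S = S / (M * K) := by ring
  rw [e2] at h
  have h5 : S / (M * K) ≤ 2 * entW w f := by linarith
  rw [div_le_iff₀ (by positivity)] at h5
  calc S ≤ 2 * entW w f * (M * K) := h5
    _ = _ := by ring

/-- One-step decomposition of the entropy. -/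
lemma ent_step (w : Config n → ℝ) (hw : ∀ x, 0 < w x) (W : Config n → Config n → ℝ)
    (hW : ∀ e x, 0 < W e x) (hav : ∀ x, avg (fun e => W e x) = w x)
    (hlow : ∀ e, (∑ x, w x) / 2 ≤ ∑ x, W e x)
    (f : Config n → ℝ) (hf : ∀ x, 0 < f x) :
    entW w f ≤ avg (fun e => entW (W e) f) + 2 / (∑ x, w x * f x) *
      avg (fun e => (∑ x, W e x * (f x - (∑ x, w x * f x) / ∑ x, w x)) ^ 2) := by
  have hZ : 0 < ∑ x, w x := sum_pos' hw
  have hM : 0 < ∑ x, w x * f x := sum_pos' fun x => mul_pos (hw x) (hf x)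
  set Z := ∑ x, w x with hZd
  set M := ∑ x, w x * f x with hMd
  have hswap : ∀ G : Config n → ℝ, avg (fun e => ∑ x, W e x * G x) = ∑ x, w x * G x := by
    intro G
    rw [avg_sum]
    refine Finset.sum_congr rfl fun x _ => ?_
    rw [avg_mul_const, hav]
  have key : ∀ e, ∑ x, W e x * (f x * Real.log (f x)) - (∑ x, W e x * f x) * Real.log (M / Z) ≤
      entW (W e) f + (2 / M * (∑ x, W e x * (f x - M / Z)) ^ 2
        + (∑ x, W e x * f x - M / Z * ∑ x, W e x * 1)) := by
    intro e
    have hZe : 0 < ∑ x, W e x := sum_pos' (hW e)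
    have hMe : 0 < ∑ x, W e x * f x := sum_pos' fun x => mul_pos (hW e x) (hf x)
    have hle := hlow e
    unfold entW
    simp only [mul_one]
    have hD : ∑ x, W e x * (f x - M / Z) = ∑ x, W e x * f x - M / Z * ∑ x, W e x := by
      rw [Finset.mul_sum, ← Finset.sum_sub_distrib]
      exact Finset.sum_congr rfl fun x _ => by ring
    rw [hD]
    set Ze := ∑ x, W e x with hZed
    set Me := ∑ x, W e x * f x with hMed
    have h1 : Real.log (Me * Z / (Ze * M)) ≤ Me * Z / (Ze * M) - 1 :=
      Real.log_le_sub_one_of_pos (by positivity)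
    have h2 : Real.log (Me * Z / (Ze * M)) = Real.log (Me / Ze) - Real.log (M / Z) := by
      rw [Real.log_div (by positivity) (by positivity), Real.log_mul hMe.ne' hZ.ne',
        Real.log_mul hZe.ne' hM.ne', Real.log_div hMe.ne' hZe.ne', Real.log_div hM.ne' hZ.ne']
      ring
    rw [h2] at h1
    have h3 := mul_le_mul_of_nonneg_left h1 hMe.le
    have e1 : Me * (Me * Z / (Ze * M) - 1)
        = Z / (M * Ze) * (Me - M / Z * Ze) ^ 2 + (Me - M / Z * Ze) := by
      field_simp
      ring
    rw [e1] at h3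
    have h4 : Z / (M * Ze) ≤ 2 / M := by
      rw [div_le_div_iff₀ (by positivity) hM]
      nlinarith
    have h5 := mul_le_mul_of_nonneg_right h4 (sq_nonneg (Me - M / Z * Ze))
    linarith
  have h6 := avg_mono key
  rw [avg_sub, avg_add, avg_add, avg_sub, avg_mul_const, avg_const_mul, avg_const_mul,
    hswap, hswap, hswap] at h6
  have e2 : ∑ x, w x * f x - M / Z * ∑ x, w x * 1 = 0 := by
    simp only [mul_one]
    rw [← hZd, ← hMd]
    field_simp
    ring
  rw [e2, add_zero] at h6
  unfold entW at h6 ⊢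
  exact h6

lemma prod_one_add_sub (s : Finset (Fin n)) (u : Fin n → ℝ) :
    |∏ k ∈ s, (1 + u k) - 1| ≤ Real.exp (∑ k ∈ s, |u k|) - 1 ∧
    |∏ k ∈ s, (1 + u k) - 1 - ∑ k ∈ s, u k| ≤
      Real.exp (∑ k ∈ s, |u k|) - 1 - ∑ k ∈ s, |u k| := by
  induction s using Finset.induction_on with
  | empty => simp
  | insert a s ha ih =>
    obtain ⟨ih1, ih2⟩ := ih
    rw [Finset.prod_insert ha, Finset.sum_insert ha, Finset.sum_insert ha, Real.exp_add]
    set P := ∏ k ∈ s, (1 + u k)
    set S := ∑ k ∈ s, |u k|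
    set T := ∑ k ∈ s, u k
    have hexp : 1 + |u a| ≤ Real.exp |u a| := by
      have := Real.add_one_le_exp |u a|; linarith
    have hS : 0 < Real.exp S := Real.exp_pos _
    have h3 : |u a * (P - 1)| ≤ |u a| * (Real.exp S - 1) := by
      rw [abs_mul]; exact mul_le_mul_of_nonneg_left ih1 (abs_nonneg _)
    have h4 := mul_le_mul_of_nonneg_right hexp hS.le
    constructor
    · calc |(1 + u a) * P - 1| = |(P - 1) + u a * (P - 1) + u a| := by ring_nf
        _ ≤ |P - 1| + |u a * (P - 1)| + |u a| := by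
            refine (abs_add_le _ _).trans ?_
            have := abs_add_le (P - 1) (u a * (P - 1))
            linarith
        _ ≤ (Real.exp S - 1) + |u a| * (Real.exp S - 1) + |u a| := by linarith
        _ ≤ _ := by linarith
    · calc |(1 + u a) * P - 1 - (u a + T)| = |(P - 1 - T) + u a * (P - 1)| := by ring_nf
        _ ≤ |P - 1 - T| + |u a * (P - 1)| := abs_add_le _ _
        _ ≤ (Real.exp S - 1 - S) + |u a| * (Real.exp S - 1) := by linarith
        _ ≤ _ := by linarith

/-- second moment of the random tilt -/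
lemma avg_sq_bound (h : Config n → ℝ) (hh : ∑ x, h x = 0) (τ : Fin n → Config n → ℝ) (η : ℝ)
    (hηn : n * η ≤ 1) (hτ : ∀ k x y, |τ k x * τ k y| ≤ η) :
    avg (fun e => (∑ x, h x * ∏ k, (1 + spin (e k) * τ k x)) ^ 2) ≤
      ∑ k, (∑ x, h x * τ k x) ^ 2 + (n * η) ^ 2 * (∑ x, |h x|) ^ 2 := by
  have e1 : avg (fun e => (∑ x, h x * ∏ k, (1 + spin (e k) * τ k x)) ^ 2)
      = ∑ x, ∑ y, h x * h y * ∏ k, (1 + τ k x * τ k y) := by
    have e2 : ∀ e : Config n, (∑ x, h x * ∏ k, (1 + spin (e k) * τ k x)) ^ 2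
        = ∑ x, ∑ y, h x * h y * ∏ k, ((1 + spin (e k) * τ k x) * (1 + spin (e k) * τ k y)) := by
      intro e
      rw [sq, Finset.sum_mul_sum]
      refine Finset.sum_congr rfl fun x _ => Finset.sum_congr rfl fun y _ => ?_
      rw [Finset.prod_mul_distrib]
      ring
    simp only [e2]
    rw [avg_sum]
    refine Finset.sum_congr rfl fun x _ => ?_
    rw [avg_sum]
    refine Finset.sum_congr rfl fun y _ => ?_
    rw [avg_const_mul]
    congr 1
    rw [avg_prod (fun k b => (1 + spin b * τ k x) * (1 + spin b * τ k y))]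
    refine Finset.prod_congr rfl fun k _ => ?_
    simp only [spin_true, spin_false]
    ring
  rw [e1]
  have hR : ∀ x y, h x * h y * ∏ k, (1 + τ k x * τ k y) ≤
      h x * h y + ∑ k, h x * τ k x * (h y * τ k y) + (n * η) ^ 2 * (|h x| * |h y|) := by
    intro x y
    have h1 := (prod_one_add_sub Finset.univ (fun k => τ k x * τ k y)).2
    have hS : ∑ k : Fin n, |τ k x * τ k y| ≤ n * η := by
      calc ∑ k : Fin n, |τ k x * τ k y| ≤ ∑ _k : Fin n, η := Finset.sum_le_sum fun k _ => hτ k x y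
        _ = n * η := by simp
    have hS0 : 0 ≤ ∑ k : Fin n, |τ k x * τ k y| := Finset.sum_nonneg fun k _ => abs_nonneg _
    have h2 : Real.exp (∑ k : Fin n, |τ k x * τ k y|) - 1 - ∑ k : Fin n, |τ k x * τ k y|
        ≤ (n * η) ^ 2 := by
      have h3 := Real.abs_exp_sub_one_sub_id_le
        (x := ∑ k : Fin n, |τ k x * τ k y|) (by rw [abs_of_nonneg hS0]; linarith)
      have h4 := (abs_le.mp h3).2
      have h5 : (∑ k : Fin n, |τ k x * τ k y|) ^ 2 ≤ (n * η) ^ 2 := pow_le_pow_left₀ hS0 hS 2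
      linarith
    have h6 := h1.trans h2
    have e3 : h x * h y * ∏ k, (1 + τ k x * τ k y)
        = h x * h y + ∑ k, h x * τ k x * (h y * τ k y)
          + h x * h y * (∏ k, (1 + τ k x * τ k y) - 1 - ∑ k, τ k x * τ k y) := by
      have : ∑ k, h x * τ k x * (h y * τ k y) = h x * h y * ∑ k, τ k x * τ k y := by
        rw [Finset.mul_sum]
        exact Finset.sum_congr rfl fun k _ => by ring
      rw [this]; ring
    rw [e3]
    have h7 : h x * h y * (∏ k, (1 + τ k x * τ k y) - 1 - ∑ k, τ k x * τ k y)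
        ≤ (n * η) ^ 2 * (|h x| * |h y|) := by
      refine (le_abs_self _).trans ?_
      rw [abs_mul, abs_mul, mul_comm]
      exact mul_le_mul_of_nonneg_right h6 (by positivity)
    linarith
  refine (Finset.sum_le_sum fun x _ => Finset.sum_le_sum fun y _ => hR x y).trans (le_of_eq ?_)
  simp only [Finset.sum_add_distrib]
  have a1 : ∑ x, ∑ y, h x * h y = 0 := by
    rw [← Finset.sum_mul_sum, hh]; ring
  have a2 : ∑ x, ∑ y, ∑ k, h x * τ k x * (h y * τ k y) = ∑ k, (∑ x, h x * τ k x) ^ 2 := by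
    have : ∀ x, ∑ y, ∑ k, h x * τ k x * (h y * τ k y)
        = ∑ k, ∑ y, h x * τ k x * (h y * τ k y) := fun x => Finset.sum_comm
    simp only [this]
    rw [Finset.sum_comm]
    refine Finset.sum_congr rfl fun k _ => ?_
    rw [sq, Finset.sum_mul_sum]
  have a3 : ∑ x, ∑ y, (n * η) ^ 2 * (|h x| * |h y|) = (n * η) ^ 2 * (∑ x, |h x|) ^ 2 := by
    rw [sq (∑ x, |h x|), Finset.sum_mul_sum, Finset.mul_sum]
    exact Finset.sum_congr rfl fun x _ => by rw [Finset.mul_sum]
  rw [a1, a2, a3]
  ring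

end Vale.Agent.P150
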