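import Vale.Agent.Lib.P150.EntTensB

/-!
W2, part C: the induction over small random field increments and the limit.
-/

namespace Vale.Agent.P150

open Filter Topology

variable {n : ℕ}

/-- linear forms -/
noncomputable def linB (B : Fin n → Fin n → ℝ) (k : Fin n) (x : Config n) : ℝ :=
  ∑ j, B k j * spin (x j)

/-- intermediate weights -/
noncomputable def Wm (B : Fin n → Fin n → ℝ) (a : ℝ) (m : ℕ) (θ : Fin n → ℝ) (x : Config n) : ℝ :=
  (∏ k, Real.cosh (a * linB B k x)) ^ m * Real.exp (∑ i, θ i * spin (x i))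

lemma prod_cosh_pos (B : Fin n → Fin n → ℝ) (a : ℝ) (x : Config n) :
    0 < ∏ k, Real.cosh (a * linB B k x) := Finset.prod_pos fun _ _ => Real.cosh_pos _

lemma Wm_pos (B : Fin n → Fin n → ℝ) (a : ℝ) (m : ℕ) (θ : Fin n → ℝ) (x : Config n) :
    0 < Wm B a m θ x := mul_pos (pow_pos (prod_cosh_pos B a x) m) (Real.exp_pos _)

lemma Wm_tilt (B : Fin n → Fin n → ℝ) (a : ℝ) (m : ℕ) (θ θ' : Fin n → ℝ) (x : Config n) :
    Wm B a m θ x * Real.exp (∑ i, θ' i * spin (x i)) = Wm B a m (fun i => θ i + θ' i) x := by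
  unfold Wm
  rw [mul_assoc, ← Real.exp_add, ← Finset.sum_add_distrib]
  simp only [add_mul]

lemma exp_spin (b : Bool) (u : ℝ) :
    Real.exp (spin b * u) = Real.cosh u * (1 + spin b * Real.tanh u) := by
  have hc := (Real.cosh_pos u).ne'
  rw [Real.tanh_eq_sinh_div_cosh]
  cases b
  · simp only [spin_false]
    rw [neg_one_mul, ← Real.cosh_sub_sinh]
    field_simp
    ring
  · simp only [spin_true]
    rw [one_mul, ← Real.cosh_add_sinh]
    field_simp

/-- shifted field -/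
noncomputable def shiftθ (B : Fin n → Fin n → ℝ) (a : ℝ) (θ : Fin n → ℝ) (e : Config n)
    (i : Fin n) : ℝ := θ i + a * ∑ k, spin (e k) * B k i

lemma Wm_shift (B : Fin n → Fin n → ℝ) (a : ℝ) (m : ℕ) (θ : Fin n → ℝ) (e x : Config n) :
    Wm B a m (shiftθ B a θ e) x = Wm B a (m + 1) θ x *
      ∏ k, (1 + spin (e k) * Real.tanh (a * linB B k x)) := by
  unfold Wm
  have h1 : ∑ i, shiftθ B a θ e i * spin (x i)
      = ∑ i, θ i * spin (x i) + ∑ k, spin (e k) * (a * linB B k x) := by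
    unfold shiftθ linB
    simp only [add_mul, Finset.sum_add_distrib]
    congr 1
    simp only [Finset.mul_sum, Finset.sum_mul]
    rw [Finset.sum_comm]
    exact Finset.sum_congr rfl fun i _ => Finset.sum_congr rfl fun j _ => by ring
  rw [h1, Real.exp_add, Real.exp_sum Finset.univ (fun k => spin (e k) * (a * linB B k x))]
  simp only [exp_spin]
  rw [Finset.prod_mul_distrib, pow_succ]
  ring

lemma Wm_avg (B : Fin n → Fin n → ℝ) (a : ℝ) (m : ℕ) (θ : Fin n → ℝ) (x : Config n) :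
    avg (fun e => Wm B a m (shiftθ B a θ e) x) = Wm B a (m + 1) θ x := by
  simp only [Wm_shift]
  rw [avg_const_mul, avg_prod (fun k b => 1 + spin b * Real.tanh (a * linB B k x))]
  have : ∏ k : Fin n, ((1 + spin true * Real.tanh (a * linB B k x)
      + (1 + spin false * Real.tanh (a * linB B k x))) / 2) = 1 := by
    refine Finset.prod_eq_one fun k _ => ?_
    simp only [spin_true, spin_false]
    ring
  rw [this, mul_one]

section step
variable (J B : Fin n → Fin n → ℝ) (Λ K Y a : ℝ)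

lemma ent_one_step (hΛ0 : 0 ≤ Λ) (hK : 0 < K) (hY : 0 ≤ Y) (ha : 0 ≤ a)
    (hB : ∀ i j, ∑ k, B k i * B k j = J i j + if i = j then Λ else 0)
    (hΛ : ∀ v : Fin n → ℝ, |∑ i, ∑ j, J i j * v i * v j| ≤ Λ * ∑ i, v i ^ 2)
    (hlin : ∀ k x, |linB B k x| ≤ Y)
    (haY1 : a * Y ≤ 1) (haY : n * (a * Y) ≤ 1 / 4) (hη : n * (a * Y) ^ 2 ≤ 1)
    (m : ℕ) (hcov : ∀ θ, CovBd (Wm B a (m + 1) θ) K)
    (θ : Fin n → ℝ) (f : Config n → ℝ) (hf : ∀ x, 0 < f x) :
    (1 - 16 * a ^ 2 * Λ * K) * entW (Wm B a (m + 1) θ) f ≤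
      avg (fun e => entW (Wm B a m (shiftθ B a θ e)) f)
        + (16 * n + 8 * n ^ 2) * (a * Y) ^ 4 * ∑ x, Wm B a (m + 1) θ x * f x := by
  set w := Wm B a (m + 1) θ with hwd
  have hw : ∀ x, 0 < w x := Wm_pos B a (m + 1) θ
  have hZ : 0 < ∑ x, w x := sum_pos' hw
  have hM : 0 < ∑ x, w x * f x := sum_pos' fun x => mul_pos (hw x) (hf x)
  set Z := ∑ x, w x with hZd
  set M := ∑ x, w x * f x with hMd
  have haY0 : 0 ≤ a * Y := mul_nonneg ha hY
  set τ : Fin n → Config n → ℝ := fun k x => Real.tanh (a * linB B k x) with hτ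
  have habs : ∀ k x, |a * linB B k x| ≤ a * Y := by
    intro k x
    rw [abs_mul, abs_of_nonneg ha]
    exact mul_le_mul_of_nonneg_left (hlin k x) ha
  have hτa : ∀ k x, |τ k x| ≤ a * Y := fun k x => (abs_tanh_le _).trans (habs k x)
  -- lower bound of the partition functions
  have hlow : ∀ e, Z / 2 ≤ ∑ x, Wm B a m (shiftθ B a θ e) x := by
    intro e
    rw [hZd, Finset.sum_div]
    refine Finset.sum_le_sum fun x _ => ?_
    rw [Wm_shift, ← hwd, div_eq_mul_inv]
    refine mul_le_mul_of_nonneg_left ?_ (hw x).le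
    have h1 := (prod_one_add_sub Finset.univ (fun k => spin (e k) * τ k x)).1
    have hS : ∑ k, |spin (e k) * τ k x| ≤ 1 / 4 := by
      refine le_trans ?_ haY
      calc ∑ k, |spin (e k) * τ k x| ≤ ∑ _k : Fin n, a * Y := by
            refine Finset.sum_le_sum fun k _ => ?_
            rw [abs_mul, abs_spin, one_mul]
            exact hτa k x
        _ = n * (a * Y) := by simp
    have hS0 : 0 ≤ ∑ k, |spin (e k) * τ k x| := Finset.sum_nonneg fun k _ => abs_nonneg _
    have h2 := Real.abs_exp_sub_one_le (x := ∑ k, |spin (e k) * τ k x|)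
      (by rw [abs_of_nonneg hS0]; linarith)
    rw [abs_of_nonneg hS0] at h2
    have h3 := (abs_le.mp h2).2
    have h4 := (abs_le.mp h1).1
    norm_num
    linarith
  have hstep := ent_step w hw (fun e => Wm B a m (shiftθ B a θ e)) (fun e x => Wm_pos _ _ _ _ _)
    (fun x => Wm_avg B a m θ x) hlow f hf
  set h : Config n → ℝ := fun x => w x * (f x - M / Z) with hh
  have hsum0 : ∑ x, h x = 0 := by
    simp only [hh, mul_sub, Finset.sum_sub_distrib, ← Finset.sum_mul]
    rw [← hMd, ← hZd]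
    field_simp
    ring
  have hrew : ∀ e, ∑ x, Wm B a m (shiftθ B a θ e) x * (f x - M / Z)
      = ∑ x, h x * ∏ k, (1 + spin (e k) * τ k x) := by
    intro e
    refine Finset.sum_congr rfl fun x _ => ?_
    rw [Wm_shift]
    simp only [hh, hτ]
    rw [← hwd]
    ring
  have hsq := avg_sq_bound h hsum0 τ ((a * Y) ^ 2) hη (by
    intro k x y
    rw [abs_mul, sq]
    exact mul_le_mul (hτa k x) (hτa k y) (abs_nonneg _) haY0)
  have habsh : ∑ x, |h x| ≤ 2 * M := by
    calc ∑ x, |h x| ≤ ∑ x, (w x * f x + w x * (M / Z)) := by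
          refine Finset.sum_le_sum fun x _ => ?_
          simp only [hh]
          rw [abs_mul, abs_of_pos (hw x), ← mul_add]
          refine mul_le_mul_of_nonneg_left ?_ (hw x).le
          refine (abs_sub _ _).trans ?_
          rw [abs_of_pos (hf x), abs_of_pos (by positivity)]
      _ = 2 * M := by
          rw [Finset.sum_add_distrib, ← Finset.sum_mul, ← hMd, ← hZd]
          field_simp
          ring
  have habsh0 : 0 ≤ ∑ x, |h x| := Finset.sum_nonneg fun x _ => abs_nonneg _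
  -- the first-order term
  have hstab := ent_stab w hw K hK (fun θ' => by
    have := hcov (fun i => θ i + θ' i)
    have e : (fun x => w x * Real.exp (∑ i, θ' i * spin (x i)))
        = Wm B a (m + 1) (fun i => θ i + θ' i) := by
      funext x; exact Wm_tilt B a (m + 1) θ θ' x
    rw [e]; exact this) f hf
  set z : Fin n → ℝ := fun i => ∑ x, h x * spin (x i) with hz
  have hstab' : ∑ i, z i ^ 2 ≤ 2 * K * M * entW w f := hstab
  have hy2 : ∑ k, (∑ x, h x * linB B k x) ^ 2 ≤ 2 * Λ * ∑ i, z i ^ 2 := by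
    have e1 : ∀ k, ∑ x, h x * linB B k x = ∑ j, B k j * z j := by
      intro k
      simp only [linB, hz, Finset.mul_sum]
      rw [Finset.sum_comm]
      exact Finset.sum_congr rfl fun j _ => Finset.sum_congr rfl fun x _ => by ring
    have e2 : ∑ k, (∑ x, h x * linB B k x) ^ 2
        = ∑ i, ∑ j, (∑ k, B k i * B k j) * (z i * z j) := by
      have e5 : ∀ k, (∑ x, h x * linB B k x) ^ 2
          = ∑ i, ∑ j, (B k i * z i) * (B k j * z j) := by
        intro k
        rw [e1, sq, Finset.sum_mul_sum]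
      simp only [e5]
      rw [Finset.sum_comm]
      refine Finset.sum_congr rfl fun i _ => ?_
      rw [Finset.sum_comm]
      refine Finset.sum_congr rfl fun j _ => ?_
      rw [Finset.sum_mul]
      exact Finset.sum_congr rfl fun k _ => by ring
    rw [e2]
    simp only [hB, add_mul, Finset.sum_add_distrib]
    have e3 : ∑ i, ∑ j, (if i = j then Λ else 0) * (z i * z j) = Λ * ∑ i, z i ^ 2 := by
      simp only [ite_mul, zero_mul, Finset.sum_ite_eq, Finset.mem_univ, if_true, Finset.mul_sum]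
      exact Finset.sum_congr rfl fun i _ => by ring
    have e4 : ∑ i, ∑ j, J i j * (z i * z j) = ∑ i, ∑ j, J i j * z i * z j :=
      Finset.sum_congr rfl fun i _ => Finset.sum_congr rfl fun j _ => by ring
    rw [e3, e4]
    have := (abs_le.mp (hΛ z)).2
    linarith
  have hτ2 : ∑ k, (∑ x, h x * τ k x) ^ 2 ≤
      2 * a ^ 2 * ∑ k, (∑ x, h x * linB B k x) ^ 2 + 8 * n * M ^ 2 * (a * Y) ^ 4 := by
    have hk : ∀ k, (∑ x, h x * τ k x) ^ 2 ≤
        2 * a ^ 2 * (∑ x, h x * linB B k x) ^ 2 + 8 * M ^ 2 * (a * Y) ^ 4 := by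
      intro k
      have e1 : ∑ x, h x * τ k x = a * (∑ x, h x * linB B k x)
          + ∑ x, h x * (τ k x - a * linB B k x) := by
        rw [Finset.mul_sum, ← Finset.sum_add_distrib]
        exact Finset.sum_congr rfl fun x _ => by ring
      have hr : |∑ x, h x * (τ k x - a * linB B k x)| ≤ 2 * M * (a * Y) ^ 2 := by
        calc |∑ x, h x * (τ k x - a * linB B k x)|
            ≤ ∑ x, |h x * (τ k x - a * linB B k x)| := Finset.abs_sum_le_sum_abs _ _
          _ ≤ ∑ x, |h x| * (a * Y) ^ 2 := by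
              refine Finset.sum_le_sum fun x _ => ?_
              rw [abs_mul]
              refine mul_le_mul_of_nonneg_left ?_ (abs_nonneg _)
              have h1 := abs_tanh_sub_le (a * linB B k x)
              have h2 := habs k x
              have h3 : |a * linB B k x| ^ 3 ≤ (a * Y) ^ 3 :=
                pow_le_pow_left₀ (abs_nonneg _) h2 3
              have h4 : (a * Y) ^ 3 ≤ (a * Y) ^ 2 := pow_le_pow_of_le_one haY0 haY1 (by norm_num)
              have h5 : 0 ≤ (a * Y) ^ 3 := by positivity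
              calc |τ k x - a * linB B k x| ≤ |a * linB B k x| ^ 3 / 3 := h1
                _ ≤ (a * Y) ^ 2 := by linarith
          _ = (∑ x, |h x|) * (a * Y) ^ 2 := by rw [Finset.sum_mul]
          _ ≤ _ := mul_le_mul_of_nonneg_right habsh (by positivity)
      have hr2 : (∑ x, h x * (τ k x - a * linB B k x)) ^ 2 ≤ (2 * M * (a * Y) ^ 2) ^ 2 := by
        rw [← sq_abs]; exact pow_le_pow_left₀ (abs_nonneg _) hr 2
      rw [e1]
      nlinarith [sq_nonneg (a * (∑ x, h x * linB B k x)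
        - ∑ x, h x * (τ k x - a * linB B k x))]
    refine (Finset.sum_le_sum fun k _ => hk k).trans (le_of_eq ?_)
    rw [Finset.sum_add_distrib, ← Finset.mul_sum]
    simp
    ring
  have htot : avg (fun e => (∑ x, Wm B a m (shiftθ B a θ e) x * (f x - M / Z)) ^ 2) ≤
      8 * a ^ 2 * Λ * K * M * entW w f + (8 * n + 4 * n ^ 2) * M ^ 2 * (a * Y) ^ 4 := by
    simp only [hrew]
    refine hsq.trans ?_
    have h1 : (∑ x, |h x|) ^ 2 ≤ (2 * M) ^ 2 := pow_le_pow_left₀ habsh0 habsh 2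
    have h2 := mul_le_mul_of_nonneg_left h1 (sq_nonneg (n * (a * Y) ^ 2))
    have h3 := mul_le_mul_of_nonneg_left hy2 (by positivity : 0 ≤ 2 * a ^ 2)
    have h4 := mul_le_mul_of_nonneg_left hstab' (by positivity : 0 ≤ 2 * a ^ 2 * (2 * Λ))
    nlinarith
  have h5 := mul_le_mul_of_nonneg_left htot (by positivity : 0 ≤ 2 / M)
  have e5 : 2 / M * (8 * a ^ 2 * Λ * K * M * entW w f + (8 * n + 4 * n ^ 2) * M ^ 2 * (a * Y) ^ 4)
      = 16 * a ^ 2 * Λ * K * entW w f + (16 * n + 8 * n ^ 2) * (a * Y) ^ 4 * M := by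
    field_simp
    ring
  rw [e5] at h5
  linarith

lemma ent_induction (hΛ0 : 0 ≤ Λ) (hK : 0 < K) (hY : 0 ≤ Y) (ha : 0 ≤ a)
    (hB : ∀ i j, ∑ k, B k i * B k j = J i j + if i = j then Λ else 0)
    (hΛ : ∀ v : Fin n → ℝ, |∑ i, ∑ j, J i j * v i * v j| ≤ Λ * ∑ i, v i ^ 2)
    (hlin : ∀ k x, |linB B k x| ≤ Y)
    (haY1 : a * Y ≤ 1) (haY : n * (a * Y) ≤ 1 / 4) (hη : n * (a * Y) ^ 2 ≤ 1)
    (hc : 16 * a ^ 2 * Λ * K ≤ 1)
    (f : Config n → ℝ) (hf : ∀ x, 0 < f x) (N : ℕ)
    (hcov : ∀ m, m ≤ N → ∀ θ, CovBd (Wm B a m θ) K) :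
    ∀ m, m ≤ N → ∀ θ : Fin n → ℝ,
    (1 - 16 * a ^ 2 * Λ * K) ^ m * entW (Wm B a m θ) f ≤ entLoc (Wm B a m θ) f
        + m * ((16 * n + 8 * n ^ 2) * (a * Y) ^ 4) * ∑ x, Wm B a m θ x * f x := by
  intro m
  induction m with
  | zero =>
    intro _ θ
    have e : Wm B a 0 θ = fun x => Real.exp (∑ i, θ i * spin (x i)) := by
      funext x; simp [Wm]
    rw [e]
    have := tens_product θ f hf
    simpa using this
  | succ m ih =>
    intro hm θ
    have ih' := ih (by omega)
    have h1 := ent_one_step J B Λ K Y a hΛ0 hK hY ha hB hΛ hlin haY1 haY hη m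
      (fun θ => hcov (m + 1) hm θ) θ f hf
    set c := 1 - 16 * a ^ 2 * Λ * K with hcd
    have hc0 : 0 ≤ c := by rw [hcd]; linarith
    have hc1 : c ≤ 1 := by
      rw [hcd]
      have : 0 ≤ 16 * a ^ 2 * Λ * K := by positivity
      linarith
    set E := (16 * n + 8 * n ^ 2) * (a * Y) ^ 4 with hE
    have hE0 : 0 ≤ E := by positivity
    set M := ∑ x, Wm B a (m + 1) θ x * f x with hM
    have hM0 : 0 < M := sum_pos' fun x => mul_pos (Wm_pos B a (m + 1) θ x) (hf x)
    have h2 := mul_le_mul_of_nonneg_left h1 (pow_nonneg hc0 m)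
    have h3 : c ^ m * avg (fun e => entW (Wm B a m (shiftθ B a θ e)) f) ≤
        entLoc (Wm B a (m + 1) θ) f + m * E * M := by
      rw [← avg_const_mul]
      refine (avg_mono fun e => ih' (shiftθ B a θ e)).trans ?_
      rw [avg_add]
      refine add_le_add ?_ ?_
      · exact entLoc_avg (Wm B a (m + 1) θ) (Wm_pos B a (m + 1) θ)
          (fun e => Wm B a m (shiftθ B a θ e)) (fun e x => Wm_pos _ _ _ _ _)
          (fun x => Wm_avg B a m θ x) f hf
      · rw [avg_const_mul, avg_sum]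
        refine le_of_eq ?_
        congr 1
        refine Finset.sum_congr rfl fun x _ => ?_
        rw [avg_mul_const, Wm_avg]
    have h4 : c ^ m * (E * M) ≤ E * M := by
      have : c ^ m ≤ 1 := pow_le_one₀ hc0 hc1
      nlinarith [mul_nonneg hE0 hM0.le]
    calc c ^ (m + 1) * entW (Wm B a (m + 1) θ) f
        = c ^ m * (c * entW (Wm B a (m + 1) θ) f) := by ring
      _ ≤ c ^ m * (avg (fun e => entW (Wm B a m (shiftθ B a θ e)) f) + E * M) := h2
      _ = c ^ m * avg (fun e => entW (Wm B a m (shiftθ B a θ e)) f) + c ^ m * (E * M) := by ring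
      _ ≤ entLoc (Wm B a (m + 1) θ) f + m * E * M + E * M := by linarith
      _ = _ := by push_cast; ring

end step

/-- variance bound under bounded changes of the weight -/
lemma CovBd.perturb {w w' : Config n → ℝ} (hw : ∀ x, 0 < w x) {K al be : ℝ} (hK : 0 ≤ K)
    (hal : 0 < al) (hbe : 0 < be) (hab : be ^ 2 ≤ 2 * al ^ 2)
    (hlo : ∀ x, al * w x ≤ w' x) (hup : ∀ x, w' x ≤ be * w x) (h : CovBd w K) :
    CovBd w' (2 * K) := by
  intro v
  set φ : Config n → ℝ := fun x => ∑ i, v i * spin (x i) with hφ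
  have hid : ∀ u : Config n → ℝ, (∑ x, u x * φ x ^ 2) * (∑ x, u x) - (∑ x, u x * φ x) ^ 2
      = (∑ x, ∑ y, u x * u y * (φ x - φ y) ^ 2) / 2 := by
    intro u
    have : ∀ x y, u x * u y * (φ x - φ y) ^ 2 = (u x * φ x ^ 2) * u y
        - 2 * ((u x * φ x) * (u y * φ y)) + u x * (u y * φ y ^ 2) := fun x y => by ring
    simp only [this, Finset.sum_add_distrib, Finset.sum_sub_distrib, ← Finset.mul_sum]
    rw [← Finset.sum_mul, ← Finset.sum_mul, ← Finset.sum_mul]
    ring
  have h0 := h v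
  have h1 := hid w
  have h2 := hid w'
  change (∑ x, w' x * φ x ^ 2) * (∑ x, w' x) - (∑ x, w' x * φ x) ^ 2 ≤ _
  change (∑ x, w x * φ x ^ 2) * (∑ x, w x) - (∑ x, w x * φ x) ^ 2 ≤ _ at h0
  rw [h1] at h0
  rw [h2]
  have hw' : ∀ x, 0 < w' x := fun x => lt_of_lt_of_le (mul_pos hal (hw x)) (hlo x)
  have h3 : ∑ x, ∑ y, w' x * w' y * (φ x - φ y) ^ 2
      ≤ be ^ 2 * ∑ x, ∑ y, w x * w y * (φ x - φ y) ^ 2 := by
    rw [Finset.mul_sum]
    refine Finset.sum_le_sum fun x _ => ?_
    rw [Finset.mul_sum]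
    refine Finset.sum_le_sum fun y _ => ?_
    have : w' x * w' y ≤ (be * w x) * (be * w y) :=
      mul_le_mul (hup x) (hup y) (hw' y).le (by have := hw x; positivity)
    have h4 := mul_le_mul_of_nonneg_right this (sq_nonneg (φ x - φ y))
    calc _ ≤ _ := h4
      _ = _ := by ring
  have hS : 0 ≤ ∑ i, v i ^ 2 := Finset.sum_nonneg fun i _ => sq_nonneg _
  have hZ : al * ∑ x, w x ≤ ∑ x, w' x := by
    rw [Finset.mul_sum]; exact Finset.sum_le_sum fun x _ => hlo x
  have hZ0 : 0 < ∑ x, w x := sum_pos' hw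
  have h5 : al ^ 2 * (∑ x, w x) ^ 2 ≤ (∑ x, w' x) ^ 2 := by
    rw [← mul_pow]; exact pow_le_pow_left₀ (by positivity) hZ 2
  calc (∑ x, ∑ y, w' x * w' y * (φ x - φ y) ^ 2) / 2
      ≤ be ^ 2 * ((∑ x, ∑ y, w x * w y * (φ x - φ y) ^ 2) / 2) := by linarith
    _ ≤ be ^ 2 * (K * (∑ i, v i ^ 2) * (∑ x, w x) ^ 2) :=
        mul_le_mul_of_nonneg_left h0 (sq_nonneg _)
    _ ≤ 2 * al ^ 2 * (K * (∑ i, v i ^ 2) * (∑ x, w x) ^ 2) :=
        mul_le_mul_of_nonneg_right hab (by positivity)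
    _ = 2 * (K * ∑ i, v i ^ 2) * (al ^ 2 * (∑ x, w x) ^ 2) := by ring
    _ ≤ 2 * (K * ∑ i, v i ^ 2) * (∑ x, w' x) ^ 2 :=
        mul_le_mul_of_nonneg_left h5 (by positivity)
    _ = _ := by ring

lemma exp_sub_le_cosh (u : ℝ) : Real.exp (u ^ 2 / 2 - u ^ 4 / 4) ≤ Real.cosh u := by
  have h1 : 1 + u ^ 2 / 2 ≤ Real.cosh u := by
    have hd : ∀ y : ℝ, HasDerivAt (fun y => Real.cosh y - 1 - y ^ 2 / 2) (Real.sinh y - y) y := by
      intro y
      have h2 : HasDerivAt (fun y : ℝ => y ^ 2 / 2) y y :=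
        ((hasDerivAt_pow 2 y).div_const 2).congr_deriv (by simp)
      exact ((Real.hasDerivAt_cosh y).sub_const 1).sub h2
    have hm : MonotoneOn (fun y => Real.cosh y - 1 - y ^ 2 / 2) (Set.Ici 0) := by
      refine monotoneOn_of_deriv_nonneg (convex_Ici 0)
        (fun y _ => (hd y).continuousAt.continuousWithinAt)
        (fun y _ => (hd y).differentiableAt.differentiableWithinAt) fun y hy => ?_
      rw [(hd y).deriv]
      rw [interior_Ici] at hy
      have := Real.self_le_sinh_iff.mpr (le_of_lt hy)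
      linarith
    have h3 := hm (Set.mem_Ici.mpr le_rfl) (Set.mem_Ici.mpr (abs_nonneg u)) (abs_nonneg u)
    simp only [Real.cosh_zero, Real.cosh_abs, sq_abs] at h3
    linarith
  refine le_trans ?_ h1
  rw [← Real.le_log_iff_exp_le (by positivity)]
  have h2 : 0 < 1 + u ^ 2 / 2 := by positivity
  have h3 := Real.one_sub_inv_le_log_of_pos h2
  refine le_trans ?_ h3
  have e : 1 - (1 + u ^ 2 / 2)⁻¹ = (u ^ 2 / 2) / (1 + u ^ 2 / 2) := by
    field_simp
    ring
  rw [e, le_div_iff₀ h2]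
  nlinarith [sq_nonneg (u ^ 2), sq_nonneg (u ^ 3)]

end Vale.Agent.P150
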