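import Vale.Agent.Lib.P150.Assembly

namespace Vale.Agent.P150

open MeasureTheory ProbabilityTheory Filter Topology

variable {n : ℕ}

lemma expect_eq (β : ℝ) (g : Pair n → ℝ) (f : Config n → ℝ) :
    expect β g f = (∑ x, isingW (skJ β g) 0 x * f x) / ∑ x, isingW (skJ β g) 0 x := by
  unfold expect
  simp only [gibbs_eq]
  rw [Finset.sum_div]
  refine Finset.sum_congr rfl fun x _ => ?_
  ring

lemma variance_eq (β : ℝ) (g : Pair n → ℝ) (f : Config n → ℝ) :
    variance β g f * (∑ x, isingW (skJ β g) 0 x) ^ 2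
      = (∑ x, isingW (skJ β g) 0 x * f x ^ 2) * (∑ x, isingW (skJ β g) 0 x)
        - (∑ x, isingW (skJ β g) 0 x * f x) ^ 2 := by
  unfold variance
  rw [expect_eq]
  set m := expect β g f with hm
  have hm' : m = (∑ x, isingW (skJ β g) 0 x * f x) / ∑ x, isingW (skJ β g) 0 x := by
    rw [hm, expect_eq]
  have hZ : 0 < ∑ x, isingW (skJ β g) 0 x :=
    Finset.sum_pos (fun x _ => Real.exp_pos _) ⟨fun _ => true, Finset.mem_univ _⟩
  have e : ∑ x, isingW (skJ β g) 0 x * (f x - m) ^ 2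
      = ∑ x, isingW (skJ β g) 0 x * f x ^ 2 - 2 * m * ∑ x, isingW (skJ β g) 0 x * f x
        + m ^ 2 * ∑ x, isingW (skJ β g) 0 x := by
    rw [Finset.mul_sum, Finset.mul_sum, ← Finset.sum_sub_distrib, ← Finset.sum_add_distrib]
    refine Finset.sum_congr rfl fun x _ => ?_
    ring
  rw [e, hm']
  field_simp
  ring

lemma dirichlet_eq (β : ℝ) (g : Pair n → ℝ) (f : Config n → ℝ) :
    dirichlet β g f * (∑ x, isingW (skJ β g) 0 x)
      = ∑ i, ∑ x, isingW (skJ β g) 0 x * (f x - condE (isingW (skJ β g) 0) i f x) ^ 2 := by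
  have h := condMean_ising (skJ β g) (skJ_symm β g) (skJ_self β g) 0
  have hZ : 0 < ∑ x, isingW (skJ β g) 0 x :=
    Finset.sum_pos (fun x _ => Real.exp_pos _) ⟨fun _ => true, Finset.mem_univ _⟩
  unfold dirichlet
  rw [expect_eq, div_mul_cancel₀ _ hZ.ne']
  have e1 : ∀ x, -(generator β g).mulVec f x = negL (meanJ (skJ β g) 0) f x := by
    intro x
    rw [generator_eq, genMat_mulVec]
    unfold negL
    rw [← Finset.sum_neg_distrib]
    refine Finset.sum_congr rfl fun i _ => ?_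
    rw [← condE_sub h]; ring
  simp only [e1]
  rw [h.dirF_eq]
  unfold dirF
  have e2 : ∑ x, isingW (skJ β g) 0 x *
        ∑ i, (1 - meanJ (skJ β g) 0 i x ^ 2) * (dd i f x * dd i f x)
      = ∑ i, ∑ x, isingW (skJ β g) 0 x * ((1 - meanJ (skJ β g) 0 i x ^ 2) * dd i f x ^ 2) := by
    rw [Finset.sum_comm]
    refine Finset.sum_congr rfl fun x _ => ?_
    rw [Finset.mul_sum]
    refine Finset.sum_congr rfl fun i _ => ?_
    ring
  rw [e2]
  refine Finset.sum_congr rfl fun i _ => ?_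
  rw [← h.diag]
  refine Finset.sum_congr rfl fun x _ => ?_
  rw [condE_sub h]; ring

lemma tvDist_eq (β : ℝ) (g : Pair n → ℝ) (t : ℝ) (x : Config n) :
    tvDist β g t x = (∑ y, |(NormedSpace.exp (t • genMat (isingW (skJ β g) 0))) x y
        - isingW (skJ β g) 0 y / ∑ z, isingW (skJ β g) 0 z|) / 2 := by
  unfold tvDist kernel
  rw [generator_eq]
  simp only [gibbs_eq]

lemma variance_pos_of (β : ℝ) (g : Pair n → ℝ) (i : Fin n) :
    variance β g (fun x => spin (x i)) ≠ 0 := by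
  intro h0
  have h := condMean_ising (skJ β g) (skJ_symm β g) (skJ_self β g) 0
  have hv : ∀ x : Config n, gibbs β g x *
      (spin (x i) - expect β g (fun x => spin (x i))) ^ 2 = 0 := by
    intro x
    have hnn : ∀ y ∈ Finset.univ, 0 ≤ gibbs β g y *
        (spin (y i) - expect β g (fun x => spin (x i))) ^ 2 := by
      intro y _
      refine mul_nonneg ?_ (sq_nonneg _)
      rw [gibbs_eq]
      exact div_nonneg (Real.exp_pos _).le (Finset.sum_nonneg fun z _ => (Real.exp_pos _).le)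
    have := (Finset.sum_eq_zero_iff_of_nonneg hnn).mp h0 x (Finset.mem_univ _)
    exact this
  have hg : ∀ x : Config n, gibbs β g x ≠ 0 := by
    intro x
    rw [gibbs_eq]
    exact div_ne_zero (Real.exp_pos _).ne' (Finset.sum_pos (fun z _ => Real.exp_pos _)
      ⟨fun _ => true, Finset.mem_univ _⟩).ne'
  have h1 := hv (fun _ => true)
  have h2 := hv (fun _ => false)
  have h1' := (mul_eq_zero.mp h1).resolve_left (hg _)
  have h2' := (mul_eq_zero.mp h2).resolve_left (hg _)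
  rw [sq_eq_zero_iff] at h1' h2'
  simp only [spin_true, spin_false] at h1' h2'
  linarith

/-- deterministic consequence -/
lemma gap_and_mixing_of_good (β : ℝ) (g : Pair n → ℝ) (hn : 2 ≤ n) {b δ κ : ℝ}
    (h : GoodJ (skJ β g) b δ) (hb0 : 0 ≤ b) (hb : b ≤ 1 / 2)
    (hδ0 : 0 ≤ δ) (hδ : δ ≤ 1 / 20) (hκ : κ ≤ 1 - 2 * b - 200 * δ) (hκ0 : 0 < κ) :
    κ ≤ spectralGap β g ∧
      (∀ t : ℝ, 6 * Real.exp (32 * (2 * b) * κ⁻¹) * Real.log n ≤ t →
        ∀ x, tvDist β g t x ≤ 1 / 4) ∧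
      mixingTime β g ≤ 6 * Real.exp (32 * (2 * b) * κ⁻¹) * Real.log n := by
  have hZ : 0 < ∑ x, isingW (skJ β g) 0 x :=
    Finset.sum_pos (fun x _ => Real.exp_pos _) ⟨fun _ => true, Finset.mem_univ _⟩
  have hn' : (2:ℝ) ≤ n := by exact_mod_cast hn
  have hlogn : 0 < Real.log n := Real.log_pos (by linarith)
  set C₁ := Real.exp (32 * (2 * b) * κ⁻¹) with hC₁
  have hC₁0 : 0 < C₁ := Real.exp_pos _
  have htv : ∀ t : ℝ, 6 * C₁ * Real.log n ≤ t → ∀ x, tvDist β g t x ≤ 1 / 4 := by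
    intro t ht x
    have ht0 : 0 ≤ t := le_trans (by positivity) ht
    rw [tvDist_eq]
    refine (h.tv hb0 (by linarith) hδ0 hδ hκ hκ0 t ht0 x).trans ?_
    rw [← hC₁]
    have hlog := h.log_bound hb x
    have h1 : Real.exp (-t / C₁) ≤ (n:ℝ) ^ (-6 : ℝ) := by
      rw [Real.rpow_def_of_pos (by linarith)]
      apply Real.exp_le_exp.mpr
      rw [div_le_iff₀ hC₁0]
      linarith
    have hpow : (n:ℝ) ^ (-6 : ℝ) = 1 / (n:ℝ) ^ 6 := by
      rw [Real.rpow_neg (by linarith), one_div]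
      congr 1
      exact_mod_cast Real.rpow_natCast (n:ℝ) 6
    have h2 : Real.exp (-t / C₁) * Real.log ((∑ z, isingW (skJ β g) 0 z) / isingW (skJ β g) 0 x)
        ≤ (1 / 4) ^ 2 := by
      calc _ ≤ Real.exp (-t / C₁) * (2 * n) :=
            mul_le_mul_of_nonneg_left hlog (Real.exp_pos _).le
        _ ≤ (1 / (n:ℝ) ^ 6) * (2 * n) := by
            rw [← hpow]; exact mul_le_mul_of_nonneg_right h1 (by positivity)
        _ = 2 / (n:ℝ) ^ 5 := by field_simp
        _ ≤ 2 / 2 ^ 5 := by gcongr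
        _ ≤ _ := by norm_num
    calc Real.sqrt _ ≤ Real.sqrt ((1 / 4) ^ 2) := Real.sqrt_le_sqrt h2
      _ = 1 / 4 := by rw [Real.sqrt_sq (by norm_num)]
  refine ⟨?_, htv, ?_⟩
  · -- spectral gap
    refine le_csInf ?_ ?_
    · have i0 : Fin n := ⟨0, by omega⟩
      exact ⟨dirichlet β g (fun x => spin (x i0)) / variance β g (fun x => spin (x i0)),
        (fun x => spin (x i0)), variance_pos_of β g i0, rfl⟩
    · rintro r ⟨f, hf, rfl⟩
      have h1 := h.gap hb0 (by linarith) hδ0 hδ hκ 0 f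
      rw [← variance_eq, ← dirichlet_eq] at h1
      have hv0 : 0 < variance β g f := by
        refine lt_of_le_of_ne ?_ (Ne.symm hf)
        refine Finset.sum_nonneg fun x _ => mul_nonneg ?_ (sq_nonneg _)
        rw [gibbs_eq]; exact div_nonneg (Real.exp_pos _).le hZ.le
      rw [le_div_iff₀ hv0]
      have h2 : (κ * variance β g f) * (∑ x, isingW (skJ β g) 0 x) ^ 2
          ≤ dirichlet β g f * (∑ x, isingW (skJ β g) 0 x) ^ 2 := by
        calc _ = κ * (variance β g f * (∑ x, isingW (skJ β g) 0 x) ^ 2) := by ring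
          _ ≤ _ := h1
          _ = _ := by ring
      exact le_of_mul_le_mul_right h2 (by positivity)
  · refine csInf_le ⟨0, fun t ht => ht.1⟩ ⟨by positivity, htv _ le_rfl⟩

lemma goodJ_of_events {β ε b δ : ℝ} (hβ : 0 < β) (hε1 : β * (2 + ε) ≤ 2 * b)
    (hε2 : β ^ 2 * (1 + ε) ≤ b ^ 2) {ε' : ℝ} (hε' : β * ε' ≤ δ)
    (hn : 1 ≤ n) (g : Pair n → ℝ)
    (h1 : ¬ ∃ v : Fin n → ℝ,
      (2 + ε) * Real.sqrt n * ∑ i, v i ^ 2 < |∑ i, ∑ j, coupling g i j * v i * v j|)
    (h2 : ¬ ∃ i : Fin n, (1 + ε) * n < ∑ j, coupling g i j ^ 2)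
    (h3 : ¬ ∃ i j : Fin n, ε' * Real.sqrt n < |coupling g i j|) :
    GoodJ (skJ β g) b δ := by
  push Not at h1 h2 h3
  have hn' : (0:ℝ) < n := by exact_mod_cast hn
  have hs : 0 < Real.sqrt n := Real.sqrt_pos.mpr hn'
  refine ⟨skJ_symm β g, skJ_self β g, fun v => ?_, fun i => ?_, fun i j => ?_⟩
  · have e : ∑ i, ∑ j, skJ β g i j * v i * v j
        = β / Real.sqrt n * ∑ i, ∑ j, coupling g i j * v i * v j := by
      rw [Finset.mul_sum]
      refine Finset.sum_congr rfl fun i _ => ?_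
      rw [Finset.mul_sum]
      refine Finset.sum_congr rfl fun j _ => ?_
      unfold skJ; ring
    rw [e, abs_mul, abs_of_pos (div_pos hβ hs)]
    have hv : 0 ≤ ∑ i, v i ^ 2 := Finset.sum_nonneg fun i _ => sq_nonneg _
    calc β / Real.sqrt n * |∑ i, ∑ j, coupling g i j * v i * v j|
        ≤ β / Real.sqrt n * ((2 + ε) * Real.sqrt n * ∑ i, v i ^ 2) :=
          mul_le_mul_of_nonneg_left (h1 v) (div_pos hβ hs).le
      _ = β * (2 + ε) * ∑ i, v i ^ 2 := by field_simp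
      _ ≤ _ := mul_le_mul_of_nonneg_right hε1 hv
  · have e : ∑ j, skJ β g i j ^ 2 = β ^ 2 / n * ∑ j, coupling g i j ^ 2 := by
      rw [Finset.mul_sum]
      refine Finset.sum_congr rfl fun j _ => ?_
      unfold skJ
      rw [mul_pow, div_pow, Real.sq_sqrt hn'.le]
    rw [e]
    calc β ^ 2 / n * ∑ j, coupling g i j ^ 2 ≤ β ^ 2 / n * ((1 + ε) * n) :=
          mul_le_mul_of_nonneg_left (h2 i) (by positivity)
      _ = β ^ 2 * (1 + ε) := by field_simp
      _ ≤ _ := hε2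
  · unfold skJ
    rw [abs_mul, abs_of_pos (div_pos hβ hs)]
    calc β / Real.sqrt n * |coupling g i j| ≤ β / Real.sqrt n * (ε' * Real.sqrt n) :=
          mul_le_mul_of_nonneg_left (h3 i j) (div_pos hβ hs).le
      _ = β * ε' := by field_simp
      _ ≤ δ := hε'

/-- probability that the coupling array is good tends to one -/
theorem goodJ_whp (β : ℝ) (hβ : 0 < β) (b : ℝ) (hb : β < b) (δ : ℝ) (hδ : 0 < δ) :
    Tendsto (fun n : ℕ => disorder n {g | ¬ GoodJ (skJ β g) b δ}) atTop (𝓝 0) := by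
  -- choose ε
  obtain ⟨ε, hε, hε1, hε2⟩ : ∃ ε : ℝ, 0 < ε ∧ β * (2 + ε) ≤ 2 * b ∧ β ^ 2 * (1 + ε) ≤ b ^ 2 := by
    refine ⟨min (2 * (b - β) / β) ((b ^ 2 - β ^ 2) / β ^ 2), ?_, ?_, ?_⟩
    · refine lt_min (div_pos (by linarith) hβ) (div_pos (by nlinarith) (by positivity))
    · have := min_le_left (2 * (b - β) / β) ((b ^ 2 - β ^ 2) / β ^ 2)
      have h2 := mul_le_mul_of_nonneg_left this hβ.le
      rw [mul_div_cancel₀ _ hβ.ne'] at h2
      linarith
    · have := min_le_right (2 * (b - β) / β) ((b ^ 2 - β ^ 2) / β ^ 2)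
      have h2 := mul_le_mul_of_nonneg_left this (sq_nonneg β)
      rw [mul_div_cancel₀ _ (by positivity : β ^ 2 ≠ 0)] at h2
      linarith
  have t1 := goe_norm ε hε
  have t2 := row_norm ε hε
  have t3 := entry_bound (δ / β) (div_pos hδ hβ)
  have ht := (t1.add t2).add t3
  simp only [add_zero] at ht
  refine tendsto_of_tendsto_of_tendsto_of_le_of_le' tendsto_const_nhds ht
    (Eventually.of_forall fun n => zero_le) ?_
  filter_upwards [eventually_ge_atTop 1] with n hn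
  refine le_trans (measure_mono ?_) ((measure_union_le _ _).trans
    (add_le_add (measure_union_le _ _) le_rfl))
  intro g hg
  by_contra hcon
  simp only [Set.mem_union, not_or] at hcon
  obtain ⟨⟨c1, c2⟩, c3⟩ := hcon
  exact hg (goodJ_of_events hβ hε1 hε2 (le_of_eq (mul_div_cancel₀ _ hβ.ne')) hn g c1 c2 c3)

/-- main theorem -/
theorem main_upper (β : ℝ) (hβ : 0 < β) (hβ2 : β < 1 / 2) :
    ∃ c C : ℝ, 0 < c ∧ 0 < C ∧
      Tendsto (fun n : ℕ => disorder n {g | ¬ (c ≤ spectralGap β g ∧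
        (∀ t : ℝ, C * Real.log n ≤ t → ∀ x, tvDist β g t x ≤ 1 / 4) ∧
        mixingTime β g ≤ C * Real.log n)}) atTop (𝓝 0) := by
  set b := (β + 1 / 2) / 2 with hb
  have hb1 : β < b := by rw [hb]; linarith
  have hb2 : b < 1 / 2 := by rw [hb]; linarith
  set δ := min (1 / 20) ((1 - 2 * b) / 400) with hδ
  have hδ0 : 0 < δ := lt_min (by norm_num) (by linarith)
  have hδ1 : δ ≤ 1 / 20 := min_le_left _ _
  have hδ2 : δ ≤ (1 - 2 * b) / 400 := min_le_right _ _
  set κ := (1 - 2 * b) / 2 with hκ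
  have hκ0 : 0 < κ := by rw [hκ]; linarith
  refine ⟨κ, 6 * Real.exp (32 * (2 * b) * κ⁻¹), hκ0, by positivity, ?_⟩
  have hw := goodJ_whp β hβ b hb1 δ hδ0
  refine tendsto_of_tendsto_of_tendsto_of_le_of_le' tendsto_const_nhds hw
    (Eventually.of_forall fun n => zero_le) ?_
  filter_upwards [eventually_ge_atTop 2] with n hn
  refine measure_mono fun g hg hgood => hg ?_
  exact gap_and_mixing_of_good β g hn hgood (by linarith) hb2.le hδ0.le hδ1
    (by rw [hκ]; linarith) hκ0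

end Vale.Agent.P150
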