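import Vale.Agent.Lib.P150.Calc

/-!
W0: the L²-Bochner argument.
-/

namespace Vale.Agent.P150

variable {n : ℕ}

/-- The data of a positive weight `w` together with the conditional means `T i`. -/
structure CondMean (w : Config n → ℝ) (T : Fin n → Config n → ℝ) : Prop where
  pos : ∀ x, 0 < w x
  indep : ∀ i x b, T i (Function.update x i b) = T i x
  bal : ∀ i x, w (Function.update x i true) * (1 - T i x)
    = w (Function.update x i false) * (1 + T i x)
  lt : ∀ i x, T i x ^ 2 < 1

lemma CondMean.ibp {w : Config n → ℝ} {T : Fin n → Config n → ℝ} (h : CondMean w T) (i : Fin n)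
    (φ : Config n → ℝ) :
    ∑ x, w x * ((spin (x i) - T i x) * φ x) = ∑ x, w x * ((1 - T i x ^ 2) * dd i φ x) := by
  rw [sum_pair i, sum_pair i (fun x => w x * ((1 - T i x ^ 2) * dd i φ x))]
  congr 1
  refine Finset.sum_congr rfl fun x _ => ?_
  simp only [h.indep, Function.update_self, dd_update_self, spin_true, spin_false]
  have hb := h.bal i x
  have e : dd i φ x = (φ (Function.update x i true) - φ (Function.update x i false)) / 2 := rfl
  rw [e]
  linear_combination (φ (Function.update x i false)
    + (1 - T i x) * (φ (Function.update x i true) - φ (Function.update x i false)) / 2) * hb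

end Vale.Agent.P150
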