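import Vale.Agent.Lib.P150.Final

/-!
The trivial upper bound: the spectral gap is at most one.
-/

namespace Vale.Agent.P150

variable {n : ℕ}

/-- spin flip of a configuration -/
def flipAll (x : Config n) : Config n := fun i => !(x i)

lemma flipAll_bij : Function.Bijective (flipAll (n := n)) := by
  refine Function.Involutive.bijective ?_
  intro x; funext i; simp [flipAll]

lemma spin_not (b : Bool) : spin (!b) = -spin b := by cases b <;> simp

lemma isingW_flip (J : Fin n → Fin n → ℝ) (x : Config n) :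
    isingW J 0 (flipAll x) = isingW J 0 x := by
  unfold isingW flipAll
  simp [spin_not]

lemma sum_isingW_spin (J : Fin n → Fin n → ℝ) (i : Fin n) :
    ∑ x, isingW J 0 x * spin (x i) = 0 := by
  have h : ∑ x, isingW J 0 x * spin (x i)
      = ∑ x, isingW J 0 (flipAll x) * spin (flipAll x i) :=
    (Fintype.sum_bijective flipAll flipAll_bij _ _ fun x => rfl).symm
  have h2 : ∑ x, isingW J 0 (flipAll x) * spin (flipAll x i)
      = -∑ x, isingW J 0 x * spin (x i) := by
    rw [← Finset.sum_neg_distrib]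
    refine Finset.sum_congr rfl fun x _ => ?_
    rw [isingW_flip]
    unfold flipAll
    rw [spin_not]; ring
  linarith [h.trans h2]

lemma variance_spin (β : ℝ) (g : Pair n → ℝ) (i : Fin n) :
    variance β g (fun x => spin (x i)) = 1 := by
  have h := variance_eq β g (fun x => spin (x i))
  have hZ : 0 < ∑ x, isingW (skJ β g) 0 x :=
    Finset.sum_pos (fun x _ => Real.exp_pos _) ⟨fun _ => true, Finset.mem_univ _⟩
  rw [sum_isingW_spin] at h
  simp only [spin_sq, mul_one] at h
  have : variance β g (fun x => spin (x i)) * (∑ x, isingW (skJ β g) 0 x) ^ 2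
      = 1 * (∑ x, isingW (skJ β g) 0 x) ^ 2 := by rw [h]; ring
  exact mul_right_cancel₀ (by positivity) this

lemma dirichlet_spin_le (β : ℝ) (g : Pair n → ℝ) (i : Fin n) :
    dirichlet β g (fun x => spin (x i)) ≤ 1 := by
  have hZ : 0 < ∑ x, isingW (skJ β g) 0 x :=
    Finset.sum_pos (fun x _ => Real.exp_pos _) ⟨fun _ => true, Finset.mem_univ _⟩
  have h := dirichlet_eq β g (fun x => spin (x i))
  have hc := condMean_ising (skJ β g) (skJ_symm β g) (skJ_self β g) 0
  have h2 := sum_condE_linear_le hc (Pi.single i 1)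
  have e : (fun x : Config n => ∑ k, (Pi.single i 1 : Fin n → ℝ) k * spin (x k))
      = fun x => spin (x i) := by
    funext x
    rw [Finset.sum_eq_single i]
    · simp
    · intro b _ hb; rw [Pi.single_eq_of_ne hb]; simp
    · intro h; exact absurd (Finset.mem_univ _) h
  have e1 : ∑ k, (Pi.single i 1 : Fin n → ℝ) k ^ 2 = 1 := by
    rw [Finset.sum_eq_single i]
    · simp
    · intro b _ hb; rw [Pi.single_eq_of_ne hb]; simp
    · intro h; exact absurd (Finset.mem_univ _) h
  rw [e, e1] at h2
  have e2 : ∀ x : Config n, ∑ k, (Pi.single i 1 : Fin n → ℝ) k * spin (x k) = spin (x i) :=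
    fun x => congrFun e x
  simp only [e2] at h2
  rw [← h, one_mul] at h2
  have : dirichlet β g (fun x => spin (x i)) * (∑ x, isingW (skJ β g) 0 x)
      ≤ 1 * ∑ x, isingW (skJ β g) 0 x := by linarith
  exact le_of_mul_le_mul_right this hZ

lemma dirichlet_nonneg (β : ℝ) (g : Pair n → ℝ) (f : Config n → ℝ) : 0 ≤ dirichlet β g f := by
  have hZ : 0 < ∑ x, isingW (skJ β g) 0 x :=
    Finset.sum_pos (fun x _ => Real.exp_pos _) ⟨fun _ => true, Finset.mem_univ _⟩
  have h := dirichlet_eq β g f
  have h2 : 0 ≤ dirichlet β g f * (∑ x, isingW (skJ β g) 0 x) := by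
    rw [h]
    exact Finset.sum_nonneg fun i _ => Finset.sum_nonneg fun x _ =>
      mul_nonneg (Real.exp_pos _).le (sq_nonneg _)
  exact nonneg_of_mul_nonneg_left h2 hZ

lemma variance_nonneg (β : ℝ) (g : Pair n → ℝ) (f : Config n → ℝ) : 0 ≤ variance β g f := by
  refine Finset.sum_nonneg fun x _ => mul_nonneg ?_ (sq_nonneg _)
  rw [gibbs_eq]
  exact div_nonneg (Real.exp_pos _).le (Finset.sum_nonneg fun z _ => (Real.exp_pos _).le)

lemma spectralGap_le_one (β : ℝ) (g : Pair n → ℝ) (hn : 1 ≤ n) : spectralGap β g ≤ 1 := by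
  have i0 : Fin n := ⟨0, by omega⟩
  have hv := variance_spin β g i0
  have hd := dirichlet_spin_le β g i0
  have hb : BddBelow {r : ℝ | ∃ f : Config n → ℝ, variance β g f ≠ 0 ∧
      r = dirichlet β g f / variance β g f} := by
    refine ⟨0, ?_⟩
    rintro r ⟨f, _, rfl⟩
    exact div_nonneg (dirichlet_nonneg β g f) (variance_nonneg β g f)
  have h1 : spectralGap β g ≤ dirichlet β g (fun x => spin (x i0))
      / variance β g (fun x => spin (x i0)) :=
    csInf_le hb ⟨fun x => spin (x i0), by rw [hv]; exact one_ne_zero, rfl⟩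
  refine h1.trans ?_
  rw [hv, div_one]; exact hd

end Vale.Agent.P150
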