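import Vale.Agent.Lib.P150.Semigroup
import Vale.Agent.Lib.P150.GapFinal

/-!
W4, part 1: pointwise gradient bound along the heat-bath semigroup.
-/

namespace Vale.Agent.P150

open Matrix

section Moving
variable {m : Type*} [Fintype m] [DecidableEq m]

set_option backward.isDefEq.respectTransparency false in
open scoped Matrix.Norms.Operator in
lemma hasDerivAt_exp_entry (A : Matrix m m ℝ) (x y : m) (t : ℝ) :
    HasDerivAt (fun s : ℝ => (NormedSpace.exp (s • A)) x y)
      ((NormedSpace.exp (t • A) * A) x y) t := by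
  have h := hasDerivAt_exp_smul_const (𝕂 := ℝ) A t
  let φ : Matrix m m ℝ →ₗ[ℝ] ℝ :=
    { toFun := fun M => M x y
      map_add' := by intro M N; simp
      map_smul' := by intro c M; simp }
  exact (LinearMap.toContinuousLinearMap φ).hasFDerivAt.comp_hasDerivAt t h

lemma hasDerivAt_moving (A : Matrix m m ℝ) (T : ℝ) (g : ℝ → m → ℝ) (g' : m → ℝ) (s : ℝ)
    (hg : ∀ y, HasDerivAt (fun s => g s y) (g' y) s) (x : m) :
    HasDerivAt (fun s => (NormedSpace.exp ((T - s) • A) *ᵥ g s) x)
      ((NormedSpace.exp ((T - s) • A) *ᵥ (fun y => g' y - (A *ᵥ g s) y)) x) s := by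
  have h1 : ∀ y, HasDerivAt (fun s => (NormedSpace.exp ((T - s) • A)) x y * g s y)
      (-(NormedSpace.exp ((T - s) • A) * A) x y * g s y
        + (NormedSpace.exp ((T - s) • A)) x y * g' y) s := by
    intro y
    have h2 : HasDerivAt (fun s : ℝ => T - s) (-1) s := (hasDerivAt_id' s).const_sub T
    have h3 := (hasDerivAt_exp_entry A x y (T - s)).comp s h2
    have h4 : HasDerivAt (fun s => (NormedSpace.exp ((T - s) • A)) x y)
      (-(NormedSpace.exp ((T - s) • A) * A) x y) s := by
      refine h3.congr_deriv ?_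
      ring
    exact h4.mul (hg y)
  have h5 := HasDerivAt.fun_sum (u := Finset.univ) fun y _ => h1 y
  refine h5.congr_deriv ?_
  have e1 : (NormedSpace.exp ((T - s) • A) *ᵥ (fun y => g' y - (A *ᵥ g s) y)) x
      = ∑ y, (NormedSpace.exp ((T - s) • A)) x y * g' y
        - (NormedSpace.exp ((T - s) • A) *ᵥ (A *ᵥ g s)) x := by
    simp only [Matrix.mulVec, dotProduct, mul_sub, Finset.sum_sub_distrib]
  rw [e1, Matrix.mulVec_mulVec, Finset.sum_add_distrib]
  simp only [Matrix.mulVec, dotProduct, neg_mul, Finset.sum_neg_distrib]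
  ring

end Moving

variable {n : ℕ} {w : Config n → ℝ} {T : Fin n → Config n → ℝ}

lemma CondMean.gen_eq (h : CondMean w T) (f : Config n → ℝ) (x : Config n) :
    (genMat w *ᵥ f) x = -∑ i, (spin (x i) - T i x) * dd i f x := by
  rw [genMat_mulVec_apply, ← Finset.sum_neg_distrib]
  refine Finset.sum_congr rfl fun i _ => ?_
  have := condE_sub h i f x
  linarith

lemma dd_Lterm (h : CondMean w T) (i j : Fin n) (u : Config n → ℝ) (x : Config n) :
    dd j (fun y => (spin (y i) - T i y) * dd i u y) x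
      = (if i = j then dd j u x else 0) + (spin (x i) - T i x) * dd i (dd j u) x
        - dd j (T i) x * dd i u x + 2 * spin (x j) * (dd j (T i) x * dd i (dd j u) x) := by
  rw [dd_mul j (fun y => spin (y i) - T i y) (dd i u), dd_sub j (fun y => spin (y i)) (T i),
    dd_spin, dd_comm j i u]
  split_ifs with hij
  · subst hij
    rw [dd_dd_self, dd_eq_zero_of_indep (i := i) (f := T i) (h.indep i)]
    ring
  · ring

lemma dd_neg_sum {ι : Type*} (s : Finset ι) (i : Fin n) (F : ι → Config n → ℝ) (x : Config n) :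
    dd i (fun y => -∑ a ∈ s, F a y) x = -∑ a ∈ s, dd i (F a) x := by
  have := dd_sum s i F x
  unfold dd at *
  linarith

/-- commutation of the discrete derivative with the generator -/
lemma CondMean.dd_gen (h : CondMean w T) (j : Fin n) (u : Config n → ℝ) (x : Config n) :
    dd j (genMat w *ᵥ u) x
      = (genMat w *ᵥ dd j u) x - dd j u x + ∑ i, dd j (T i) x * dd i u x
        - 2 * spin (x j) * ∑ i, dd j (T i) x * dd i (dd j u) x := by
  have e : genMat w *ᵥ u = fun y => -∑ i, (spin (y i) - T i y) * dd i u y := by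
    funext y; exact h.gen_eq u y
  rw [e, dd_neg_sum Finset.univ j (fun i y => (spin (y i) - T i y) * dd i u y), h.gen_eq]
  simp only [dd_Lterm h, Finset.sum_add_distrib, Finset.sum_sub_distrib, ← Finset.mul_sum,
    Finset.sum_ite_eq', Finset.mem_univ, if_true]
  ring

lemma CondMean.gen_sq (h : CondMean w T) (u : Config n → ℝ) (x : Config n) :
    (genMat w *ᵥ (fun y => u y ^ 2)) x
      = 2 * u x * (genMat w *ᵥ u) x
        + 2 * ∑ i, (1 - spin (x i) * T i x) * dd i u x ^ 2 := by
  rw [h.gen_eq, h.gen_eq, mul_neg, Finset.mul_sum, Finset.mul_sum, ← Finset.sum_neg_distrib,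
    ← Finset.sum_neg_distrib, ← Finset.sum_add_distrib]
  refine Finset.sum_congr rfl fun i _ => ?_
  have e : (fun y => u y ^ 2) = fun y => u y * u y := by funext y; ring
  rw [e, dd_mul]
  have hs := spin_mul_self (x i)
  linear_combination (2 * dd i u x ^ 2) * hs

lemma cross_aux {b c B p q : ℝ} (hc : 0 < c) (hb : b ^ 2 ≤ B * c) :
    4 * (p * b * q) ≤ 2 * c * q ^ 2 + 2 * B * p ^ 2 := by
  have h : 0 ≤ c * (2 * c * q ^ 2 + 2 * B * p ^ 2 - 4 * (p * b * q)) := by
    nlinarith [sq_nonneg (c * q - b * p), mul_nonneg (sub_nonneg.mpr hb) (sq_nonneg p)]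
  have := nonneg_of_mul_nonneg_right h hc
  linarith

lemma CondMean.one_sub_pos (h : CondMean w T) (i : Fin n) (x : Config n) :
    0 < 1 - spin (x i) * T i x := by
  have h1 := h.lt i x
  have h2 : |T i x| < 1 := by
    rw [← sq_lt_one_iff_abs_lt_one]; exact h1
  have h3 : spin (x i) * T i x ≤ |T i x| := by
    calc spin (x i) * T i x ≤ |spin (x i) * T i x| := le_abs_self _
      _ = |T i x| := by rw [abs_mul, abs_spin, one_mul]
  linarith

/-- pointwise differential inequality for the squared gradient -/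
theorem CondMean.grad_ineq (h : CondMean w T) (B : Fin n → Fin n → ℝ) (K1 K2 : ℝ)
    (hB : ∀ i j x, dd j (T i) x ^ 2 ≤ B j i * (1 - spin (x i) * T i x))
    (hBs : ∀ j, ∑ i, B j i ≤ K1)
    (hK2 : ∀ x (v : Fin n → ℝ), ∑ j, ∑ i, dd j (T i) x * (v i * v j) ≤ K2 * ∑ i, v i ^ 2)
    (u : Config n → ℝ) (x : Config n) :
    ∑ j, 2 * dd j u x * dd j (genMat w *ᵥ u) x ≤
      (genMat w *ᵥ (fun y => ∑ j, dd j u y ^ 2)) x
        + (2 * K1 + 2 * K2) * ∑ j, dd j u x ^ 2 := by
  have e1 : (genMat w *ᵥ (fun y => ∑ j, dd j u y ^ 2)) x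
      = ∑ j, (2 * dd j u x * (genMat w *ᵥ dd j u) x
        + 2 * ∑ i, (1 - spin (x i) * T i x) * dd i (dd j u) x ^ 2) := by
    have : (fun y => ∑ j, dd j u y ^ 2) = ∑ j, (fun y => dd j u y ^ 2) := by
      funext y; rw [Finset.sum_apply]
    rw [this, Matrix.mulVec_sum, Finset.sum_apply]
    refine Finset.sum_congr rfl fun j _ => ?_
    exact h.gen_sq (dd j u) x
  rw [e1]
  have e2 : ∀ j, 2 * dd j u x * dd j (genMat w *ᵥ u) x ≤
      (2 * dd j u x * (genMat w *ᵥ dd j u) x
        + 2 * ∑ i, (1 - spin (x i) * T i x) * dd i (dd j u) x ^ 2)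
      + 2 * ∑ i, dd j (T i) x * (dd i u x * dd j u x) + 2 * K1 * dd j u x ^ 2 := by
    intro j
    rw [h.dd_gen]
    have c1 : 2 * dd j u x * (-(2 * spin (x j) * ∑ i, dd j (T i) x * dd i (dd j u) x))
        ≤ 2 * ∑ i, (1 - spin (x i) * T i x) * dd i (dd j u) x ^ 2
          + 2 * (∑ i, B j i) * dd j u x ^ 2 := by
      have c2 : ∀ i, 4 * ((-(spin (x j) * dd j u x)) * dd j (T i) x * dd i (dd j u) x)
          ≤ 2 * (1 - spin (x i) * T i x) * dd i (dd j u) x ^ 2
            + 2 * B j i * (-(spin (x j) * dd j u x)) ^ 2 :=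
        fun i => cross_aux (h.one_sub_pos i x) (hB i j x)
      have c3 := Finset.sum_le_sum fun i (_ : i ∈ Finset.univ) => c2 i
      have hs := spin_sq (x j)
      have c4 : (-(spin (x j) * dd j u x)) ^ 2 = dd j u x ^ 2 := by
        rw [neg_sq, mul_pow, hs, one_mul]
      rw [c4] at c3
      have c5 : ∑ i, 4 * ((-(spin (x j) * dd j u x)) * dd j (T i) x * dd i (dd j u) x)
          = 2 * dd j u x * (-(2 * spin (x j) * ∑ i, dd j (T i) x * dd i (dd j u) x)) := by
        simp only [Finset.mul_sum, mul_neg]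
        rw [← Finset.sum_neg_distrib]
        refine Finset.sum_congr rfl fun i _ => ?_
        ring
      have c6 : ∑ i, (2 * (1 - spin (x i) * T i x) * dd i (dd j u) x ^ 2
            + 2 * B j i * dd j u x ^ 2)
          = 2 * ∑ i, (1 - spin (x i) * T i x) * dd i (dd j u) x ^ 2
          + 2 * (∑ i, B j i) * dd j u x ^ 2 := by
        rw [Finset.sum_add_distrib, Finset.mul_sum, Finset.mul_sum, Finset.sum_mul]
        congr 1
        refine Finset.sum_congr rfl fun i _ => ?_
        ring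
      rw [c5, c6] at c3
      exact c3
    have c7 : 2 * (∑ i, B j i) * dd j u x ^ 2 ≤ 2 * K1 * dd j u x ^ 2 :=
      mul_le_mul_of_nonneg_right (by linarith [hBs j]) (sq_nonneg _)
    have c8 : 2 * dd j u x * ∑ i, dd j (T i) x * dd i u x
        = 2 * ∑ i, dd j (T i) x * (dd i u x * dd j u x) := by
      rw [Finset.mul_sum, Finset.mul_sum]
      refine Finset.sum_congr rfl fun i _ => ?_
      ring
    have c9 : 0 ≤ dd j u x ^ 2 := sq_nonneg _
    have c10 : 2 * dd j u x * (((genMat w *ᵥ dd j u) x - dd j u x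
          + ∑ i, dd j (T i) x * dd i u x)
          - 2 * spin (x j) * ∑ i, dd j (T i) x * dd i (dd j u) x)
        = 2 * dd j u x * (genMat w *ᵥ dd j u) x - 2 * dd j u x ^ 2
          + 2 * dd j u x * ∑ i, dd j (T i) x * dd i u x
          + 2 * dd j u x * (-(2 * spin (x j) * ∑ i, dd j (T i) x * dd i (dd j u) x)) := by
      ring
    rw [c10, c8]
    linarith
  refine (Finset.sum_le_sum fun j _ => e2 j).trans ?_
  rw [Finset.sum_add_distrib, Finset.sum_add_distrib, ← Finset.mul_sum, ← Finset.mul_sum]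
  have := hK2 x (fun i => dd i u x)
  linarith

end Vale.Agent.P150
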