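import Vale.Agent.Lib.P150.Defs

/-!
Internal definitions (not used by any statement): general Ising weights, conditional
expectations, entropies, heat-bath matrices for a general positive weight.
-/

namespace Vale.Agent.P150

/-- Ising weight with coupling array `J` (used with `J` symmetric, zero diagonal) and field `θ`. -/
noncomputable def isingW {n : ℕ} (J : Fin n → Fin n → ℝ) (θ : Fin n → ℝ) (x : Config n) : ℝ :=
  Real.exp ((∑ i, ∑ j, J i j * spin (x i) * spin (x j)) / 2 + ∑ i, θ i * spin (x i))

/-- conditional expectation of `f` given the spins off `i`, for the weight `w`. -/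
noncomputable def condE {n : ℕ} (w : Config n → ℝ) (i : Fin n) (f : Config n → ℝ)
    (x : Config n) : ℝ :=
  (w (Function.update x i true) * f (Function.update x i true)
    + w (Function.update x i false) * f (Function.update x i false)) /
  (w (Function.update x i true) + w (Function.update x i false))

/-- `Z * Ent_μ(f)` for the weight `w`, `Z = ∑ w`. -/
noncomputable def entW {n : ℕ} (w : Config n → ℝ) (f : Config n → ℝ) : ℝ :=
  ∑ x, w x * (f x * Real.log (f x)) -
    (∑ x, w x * f x) * Real.log ((∑ x, w x * f x) / ∑ x, w x)

/-- `Z * ∑_i E_μ[Ent_i f]` for the weight `w`. -/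
noncomputable def entLoc {n : ℕ} (w : Config n → ℝ) (f : Config n → ℝ) : ℝ :=
  ∑ i, ∑ x, w x * (f x * (Real.log (f x) - Real.log (condE w i f x)))

/-- heat-bath matrix at site `i` for the weight `w`. -/
noncomputable def hbMat {n : ℕ} (w : Config n → ℝ) (i : Fin n) :
    Matrix (Config n) (Config n) ℝ :=
  fun x y => ∑ s : Bool, if y = Function.update x i s then
    w (Function.update x i s) /
      (w (Function.update x i true) + w (Function.update x i false)) else 0

/-- generator of the heat-bath dynamics for the weight `w`. -/
noncomputable def genMat {n : ℕ} (w : Config n → ℝ) : Matrix (Config n) (Config n) ℝ :=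
  ∑ i : Fin n, (hbMat w i - 1)

end Vale.Agent.P150
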