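import Vale.Agent.Lib.P150.Gradient

/-!
W4, part 2: deterministic lower bound on the total variation distance.
-/

namespace Vale.Agent.P150

open Matrix

variable {n : ℕ} {w : Config n → ℝ} {T : Fin n → Config n → ℝ}

/-- squared discrete gradient -/
noncomputable def grad2 (u : Config n → ℝ) (x : Config n) : ℝ := ∑ j, dd j u x ^ 2

lemma hasDerivAt_heat (w : Config n → ℝ) (f : Config n → ℝ) (y : Config n) (s : ℝ) :
    HasDerivAt (fun s => (heatK w s *ᵥ f) y) ((genMat w *ᵥ (heatK w s *ᵥ f)) y) s :=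
  hasDerivAt_exp_mulVec (genMat w) f y s

lemma hasDerivAt_grad2 (w : Config n → ℝ) (f : Config n → ℝ) (y : Config n) (s : ℝ) :
    HasDerivAt (fun s => grad2 (heatK w s *ᵥ f) y)
      (∑ j, 2 * dd j (heatK w s *ᵥ f) y * dd j (genMat w *ᵥ (heatK w s *ᵥ f)) y) s := by
  have h1 : ∀ j, HasDerivAt (fun s => dd j (heatK w s *ᵥ f) y)
      (dd j (genMat w *ᵥ (heatK w s *ᵥ f)) y) s := by
    intro j
    exact ((hasDerivAt_heat w f (Function.update y j true) s).sub
      (hasDerivAt_heat w f (Function.update y j false) s)).div_const 2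
  have h2 := HasDerivAt.fun_sum (u := Finset.univ) fun j _ => (h1 j).pow 2
  refine h2.congr_deriv ?_
  refine Finset.sum_congr rfl fun j _ => ?_
  simp

lemma heatK_zero (w : Config n → ℝ) (f : Config n → ℝ) : heatK w 0 *ᵥ f = f := by
  simp [heatK]

lemma heatK_mono (hw : ∀ x, 0 < w x) {t : ℝ} (ht : 0 ≤ t) {f g : Config n → ℝ}
    (hfg : ∀ y, f y ≤ g y) (x : Config n) : (heatK w t *ᵥ f) x ≤ (heatK w t *ᵥ g) x :=
  Finset.sum_le_sum fun y _ => mul_le_mul_of_nonneg_left (hfg y) (heatK_nonneg w hw t ht x y)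

lemma heatK_const (hw : ∀ x, 0 < w x) (t c : ℝ) (x : Config n) :
    (heatK w t *ᵥ fun _ => c) x = c := by
  simp only [Matrix.mulVec, dotProduct]
  rw [← Finset.sum_mul, heatK_row w hw, one_mul]

/-- pointwise gradient bound -/
theorem CondMean.grad_bound (h : CondMean w T) (B : Fin n → Fin n → ℝ) (K1 K2 : ℝ)
    (hB : ∀ i j x, dd j (T i) x ^ 2 ≤ B j i * (1 - spin (x i) * T i x))
    (hBs : ∀ j, ∑ i, B j i ≤ K1)
    (hK2 : ∀ x (v : Fin n → ℝ), ∑ j, ∑ i, dd j (T i) x * (v i * v j) ≤ K2 * ∑ i, v i ^ 2)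
    (f : Config n → ℝ) (G : ℝ) (hG : ∀ x, grad2 f x ≤ G) (t : ℝ) (ht : 0 ≤ t) (x : Config n) :
    grad2 (heatK w t *ᵥ f) x ≤ Real.exp ((2 * K1 + 2 * K2) * t) * G := by
  set K : ℝ := 2 * K1 + 2 * K2 with hK
  set g : ℝ → Config n → ℝ := fun s y => Real.exp (-(K * s)) * grad2 (heatK w s *ᵥ f) y with hg
  set g' : ℝ → Config n → ℝ := fun s y => Real.exp (-(K * s)) * (-(K * 1)) *
      grad2 (heatK w s *ᵥ f) y + Real.exp (-(K * s)) *
      (∑ j, 2 * dd j (heatK w s *ᵥ f) y * dd j (genMat w *ᵥ (heatK w s *ᵥ f)) y) with hg'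
  have hgd : ∀ s y, HasDerivAt (fun s => g s y) (g' s y) s := by
    intro s y
    exact (((hasDerivAt_id' s).const_mul K).neg.exp).mul (hasDerivAt_grad2 w f y s)
  set ψ : ℝ → ℝ := fun s => (heatK w (t - s) *ᵥ g s) x with hψ
  have hψd : ∀ s, HasDerivAt ψ
      ((heatK w (t - s) *ᵥ (fun y => g' s y - (genMat w *ᵥ g s) y)) x) s := by
    intro s
    exact hasDerivAt_moving (genMat w) t g (g' s) s (hgd s) x
  have hneg : ∀ s y, g' s y - (genMat w *ᵥ g s) y ≤ 0 := by
    intro s y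
    have h1 := h.grad_ineq B K1 K2 hB hBs hK2 (heatK w s *ᵥ f) y
    have h2 : (genMat w *ᵥ g s) y = Real.exp (-(K * s)) *
        (genMat w *ᵥ (fun y => ∑ j, dd j (heatK w s *ᵥ f) y ^ 2)) y := by
      have : g s = Real.exp (-(K * s)) • (fun y => ∑ j, dd j (heatK w s *ᵥ f) y ^ 2) := rfl
      rw [this, Matrix.mulVec_smul]; rfl
    rw [h2]
    have h3 := Real.exp_pos (-(K * s))
    have h4 : g' s y - Real.exp (-(K * s)) *
        (genMat w *ᵥ (fun y => ∑ j, dd j (heatK w s *ᵥ f) y ^ 2)) y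
        = Real.exp (-(K * s)) *
          ((∑ j, 2 * dd j (heatK w s *ᵥ f) y * dd j (genMat w *ᵥ (heatK w s *ᵥ f)) y)
          - (genMat w *ᵥ (fun y => ∑ j, dd j (heatK w s *ᵥ f) y ^ 2)) y
          - K * ∑ j, dd j (heatK w s *ᵥ f) y ^ 2) := by
      simp only [hg', grad2]; ring
    rw [h4]
    exact mul_nonpos_of_nonneg_of_nonpos h3.le (by linarith)
  have hanti : AntitoneOn ψ (Set.Icc 0 t) := by
    refine antitoneOn_of_deriv_nonpos (convex_Icc 0 t)
      (fun s _ => (hψd s).continuousAt.continuousWithinAt)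
      (fun s _ => (hψd s).differentiableAt.differentiableWithinAt) ?_
    intro s hs
    rw [interior_Icc] at hs
    rw [(hψd s).deriv]
    have := heatK_mono h.pos (t := t - s) (by linarith [hs.2]) (hneg s) x
    rwa [heatK_const h.pos] at this
  have hle := hanti (Set.left_mem_Icc.mpr ht) (Set.right_mem_Icc.mpr ht) ht
  have e1 : ψ t = Real.exp (-(K * t)) * grad2 (heatK w t *ᵥ f) x := by
    simp only [hψ, sub_self, heatK_zero, hg]
  have e2 : ψ 0 ≤ G := by
    have h5 : ψ 0 = (heatK w t *ᵥ g 0) x := by simp only [hψ, sub_zero]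
    rw [h5, ← heatK_const h.pos t G x]
    refine heatK_mono h.pos ht (fun y => ?_) x
    simp only [hg, heatK_zero, mul_zero, neg_zero, Real.exp_zero, one_mul]
    exact hG y
  rw [e1] at hle
  have h6 : Real.exp (-(K * t)) * grad2 (heatK w t *ᵥ f) x ≤ G := hle.trans e2
  calc grad2 (heatK w t *ᵥ f) x
      = Real.exp (K * t) * (Real.exp (-(K * t)) * grad2 (heatK w t *ᵥ f) x) := by
        rw [← mul_assoc, ← Real.exp_add]; simp
    _ ≤ Real.exp (K * t) * G := mul_le_mul_of_nonneg_left h6 (Real.exp_pos _).le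

/-- variance bound along the semigroup -/
theorem CondMean.var_bound (h : CondMean w T) (K G : ℝ) (hK : 0 ≤ K) (hG0 : 0 ≤ G)
    (f : Config n → ℝ)
    (hgrad : ∀ s, 0 ≤ s → ∀ x, grad2 (heatK w s *ᵥ f) x ≤ Real.exp (K * s) * G)
    (t : ℝ) (ht : 0 ≤ t) (x : Config n) :
    (heatK w t *ᵥ (fun y => f y ^ 2)) x - ((heatK w t *ᵥ f) x) ^ 2
      ≤ 4 * Real.exp (K * t) * G * t := by
  set g : ℝ → Config n → ℝ := fun s y => ((heatK w s *ᵥ f) y) ^ 2 with hg
  set g' : ℝ → Config n → ℝ := fun s y =>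
    2 * (heatK w s *ᵥ f) y * (genMat w *ᵥ (heatK w s *ᵥ f)) y with hg'
  have hgd : ∀ s y, HasDerivAt (fun s => g s y) (g' s y) s := by
    intro s y
    refine ((hasDerivAt_heat w f y s).pow 2).congr_deriv ?_
    simp [hg']
  set ψ : ℝ → ℝ := fun s => (heatK w (t - s) *ᵥ g s) x with hψ
  have hψd : ∀ s, HasDerivAt ψ
      ((heatK w (t - s) *ᵥ (fun y => g' s y - (genMat w *ᵥ g s) y)) x) s := by
    intro s
    exact hasDerivAt_moving (genMat w) t g (g' s) s (hgd s) x
  have hlow : ∀ s, 0 ≤ s → s ≤ t → ∀ y,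
      -(4 * Real.exp (K * t) * G) ≤ g' s y - (genMat w *ᵥ g s) y := by
    intro s hs0 hst y
    have h1 := h.gen_sq (heatK w s *ᵥ f) y
    have h2 : (genMat w *ᵥ g s) y = (genMat w *ᵥ (fun y => (heatK w s *ᵥ f) y ^ 2)) y := rfl
    rw [h2, h1]
    have h3 : ∑ i, (1 - spin (y i) * T i y) * dd i (heatK w s *ᵥ f) y ^ 2
        ≤ 2 * grad2 (heatK w s *ᵥ f) y := by
      unfold grad2
      rw [Finset.mul_sum]
      refine Finset.sum_le_sum fun i _ => mul_le_mul_of_nonneg_right ?_ (sq_nonneg _)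
      have h4 : |T i y| < 1 := by
        rw [← sq_lt_one_iff_abs_lt_one]; exact h.lt i y
      have h5 : -(spin (y i) * T i y) ≤ |T i y| := by
        calc -(spin (y i) * T i y) ≤ |spin (y i) * T i y| := neg_le_abs _
          _ = |T i y| := by rw [abs_mul, abs_spin, one_mul]
      linarith
    have h6 := hgrad s hs0 y
    have h7 : Real.exp (K * s) * G ≤ Real.exp (K * t) * G :=
      mul_le_mul_of_nonneg_right (Real.exp_le_exp.mpr (mul_le_mul_of_nonneg_left hst hK)) hG0
    simp only [hg']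
    linarith
  have hmono : MonotoneOn (fun s => ψ s + (4 * Real.exp (K * t) * G) * s) (Set.Icc 0 t) := by
    have hd : ∀ s, HasDerivAt (fun s => ψ s + (4 * Real.exp (K * t) * G) * s)
        ((heatK w (t - s) *ᵥ (fun y => g' s y - (genMat w *ᵥ g s) y)) x
          + (4 * Real.exp (K * t) * G) * 1) s := by
      intro s
      exact (hψd s).add ((hasDerivAt_id' s).const_mul _)
    refine monotoneOn_of_deriv_nonneg (convex_Icc 0 t)
      (fun s _ => (hd s).continuousAt.continuousWithinAt)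
      (fun s _ => (hd s).differentiableAt.differentiableWithinAt) ?_
    intro s hs
    rw [interior_Icc] at hs
    rw [(hd s).deriv]
    have := heatK_mono h.pos (t := t - s) (by linarith [hs.2]) (hlow s hs.1.le hs.2.le) x
    rw [heatK_const h.pos] at this
    linarith
  have hle := hmono (Set.left_mem_Icc.mpr ht) (Set.right_mem_Icc.mpr ht) ht
  have e1 : ψ t = ((heatK w t *ᵥ f) x) ^ 2 := by
    simp only [hψ, sub_self, heatK_zero, hg]
  have e2 : ψ 0 = (heatK w t *ᵥ (fun y => f y ^ 2)) x := by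
    simp only [hψ, sub_zero, hg, heatK_zero]
  simp only [e1, e2] at hle
  linarith

/-! ### autocorrelations -/

lemma inner_gen_symm (h : CondMean w T) (f g : Config n → ℝ) :
    ∑ x, w x * (f x * (genMat w *ᵥ g) x) = ∑ x, w x * ((genMat w *ᵥ f) x * g x) := by
  have e1 : ∑ x, w x * (f x * (genMat w *ᵥ g) x)
      = ∑ x, ∑ y, w x * genMat w x y * (f x * g y) := by
    refine Finset.sum_congr rfl fun x _ => ?_
    simp only [Matrix.mulVec, dotProduct, Finset.mul_sum]
    refine Finset.sum_congr rfl fun y _ => ?_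
    ring
  have e2 : ∑ x, w x * ((genMat w *ᵥ f) x * g x)
      = ∑ x, ∑ y, w x * genMat w x y * (f y * g x) := by
    refine Finset.sum_congr rfl fun x _ => ?_
    simp only [Matrix.mulVec, dotProduct, Finset.sum_mul, Finset.mul_sum]
    refine Finset.sum_congr rfl fun y _ => ?_
    ring
  rw [e1, e2, Finset.sum_comm]
  refine Finset.sum_congr rfl fun y _ => Finset.sum_congr rfl fun x _ => ?_
  rw [genMat_symm w h.pos x y]

lemma inner_heat_symm (h : CondMean w T) (t : ℝ) (f g : Config n → ℝ) :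
    ∑ x, w x * (f x * (heatK w t *ᵥ g) x) = ∑ x, w x * ((heatK w t *ᵥ f) x * g x) := by
  have e1 : ∑ x, w x * (f x * (heatK w t *ᵥ g) x)
      = ∑ x, ∑ y, w x * heatK w t x y * (f x * g y) := by
    refine Finset.sum_congr rfl fun x _ => ?_
    simp only [Matrix.mulVec, dotProduct, Finset.mul_sum]
    refine Finset.sum_congr rfl fun y _ => ?_
    ring
  have e2 : ∑ x, w x * ((heatK w t *ᵥ f) x * g x)
      = ∑ x, ∑ y, w x * heatK w t x y * (f y * g x) := by
    refine Finset.sum_congr rfl fun x _ => ?_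
    simp only [Matrix.mulVec, dotProduct, Finset.sum_mul, Finset.mul_sum]
    refine Finset.sum_congr rfl fun y _ => ?_
    ring
  rw [e1, e2, Finset.sum_comm]
  refine Finset.sum_congr rfl fun y _ => Finset.sum_congr rfl fun x _ => ?_
  rw [heatK_symm w h.pos t x y]

lemma heatK_half (w : Config n → ℝ) (t : ℝ) (f : Config n → ℝ) :
    heatK w t *ᵥ f = heatK w (t / 2) *ᵥ (heatK w (t / 2) *ᵥ f) := by
  rw [Matrix.mulVec_mulVec]
  congr 1
  unfold heatK
  rw [← Matrix.exp_add_of_commute _ _ (Commute.refl _), ← add_smul, add_halves]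

lemma inner_heat_nonneg (h : CondMean w T) (t : ℝ) (f : Config n → ℝ) :
    0 ≤ ∑ x, w x * (f x * (heatK w t *ᵥ f) x) := by
  rw [heatK_half, inner_heat_symm h]
  exact Finset.sum_nonneg fun x _ => mul_nonneg (h.pos x).le (mul_self_nonneg _)

lemma heat_gen_comm (w : Config n → ℝ) (t : ℝ) (f : Config n → ℝ) :
    genMat w *ᵥ (heatK w t *ᵥ f) = heatK w t *ᵥ (genMat w *ᵥ f) := by
  rw [Matrix.mulVec_mulVec, Matrix.mulVec_mulVec]
  congr 1
  have : Commute (genMat w) (NormedSpace.exp (t • genMat w)) :=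
    ((Commute.refl (genMat w)).smul_right t).exp_right
  exact this

lemma gen_spin (h : CondMean w T) (i : Fin n) :
    genMat w *ᵥ (fun x => spin (x i)) = fun x => T i x - spin (x i) := by
  funext x
  rw [h.gen_eq]
  simp only [dd_spin]
  simp

theorem autocorr_bound (h : CondMean w T) (i : Fin n) (t : ℝ) (ht : 0 ≤ t) :
    Real.exp (-t) * ∑ x, w x
      ≤ ∑ x, w x * (spin (x i) * (heatK w t *ᵥ (fun y => spin (y i))) x) := by
  set σ : Config n → ℝ := fun y => spin (y i) with hσ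
  -- ψ
  set ψ : ℝ → ℝ := fun s => ∑ x, w x * (T i x * (heatK w s *ᵥ σ) x) with hψ
  set φ : ℝ → ℝ := fun s => ∑ x, w x * (σ x * (heatK w s *ᵥ σ) x) with hφ
  have hd : ∀ (g : Config n → ℝ) s, HasDerivAt (fun s => ∑ x, w x * (g x * (heatK w s *ᵥ σ) x))
      (∑ x, w x * (g x * (genMat w *ᵥ (heatK w s *ᵥ σ)) x)) s := by
    intro g s
    exact HasDerivAt.fun_sum (u := Finset.univ) fun x _ =>
      ((hasDerivAt_heat w σ x s).const_mul (g x)).const_mul (w x)
  have hψd : ∀ s, HasDerivAt ψ ((∑ x, w x * (T i x * (heatK w s *ᵥ T i) x)) - ψ s) s := by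
    intro s
    refine (hd (T i) s).congr_deriv ?_
    rw [heat_gen_comm, hσ, gen_spin h]
    have : (fun x => T i x - spin (x i)) = T i - σ := rfl
    rw [this, Matrix.mulVec_sub]
    simp only [hψ, Pi.sub_apply, mul_sub, Finset.sum_sub_distrib]
  have hφd : ∀ s, HasDerivAt φ (ψ s - φ s) s := by
    intro s
    refine (hd σ s).congr_deriv ?_
    rw [inner_gen_symm h, hσ, gen_spin h, ← hσ]
    simp only [hψ, hφ, sub_mul, mul_sub, Finset.sum_sub_distrib]
    rfl
  have hψ0 : 0 ≤ ψ 0 := by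
    simp only [hψ, heatK_zero]
    have h1 := h.ibp i (T i)
    have h2 : ∀ x, dd i (T i) x = 0 := fun x => dd_eq_zero_of_indep (h.indep i) x
    simp only [h2, mul_zero, Finset.sum_const_zero] at h1
    have h3 : ∑ x, w x * (T i x * σ x) = ∑ x, w x * ((spin (x i) - T i x) * T i x)
        + ∑ x, w x * (T i x * T i x) := by
      rw [← Finset.sum_add_distrib]
      refine Finset.sum_congr rfl fun x _ => ?_
      simp only [hσ]; ring
    rw [h3, h1, zero_add]
    exact Finset.sum_nonneg fun x _ => mul_nonneg (h.pos x).le (mul_self_nonneg _)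
  have hψnn : ∀ s, 0 ≤ s → 0 ≤ ψ s := by
    intro s hs
    have hm : MonotoneOn (fun s => Real.exp s * ψ s) (Set.Ici 0) := by
      have hd2 : ∀ s, HasDerivAt (fun s => Real.exp s * ψ s)
          (Real.exp s * ψ s + Real.exp s *
            ((∑ x, w x * (T i x * (heatK w s *ᵥ T i) x)) - ψ s)) s := fun s =>
        (Real.hasDerivAt_exp s).mul (hψd s)
      refine monotoneOn_of_deriv_nonneg (convex_Ici 0)
        (fun s _ => (hd2 s).continuousAt.continuousWithinAt)
        (fun s _ => (hd2 s).differentiableAt.differentiableWithinAt) ?_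
      intro s _
      rw [(hd2 s).deriv]
      have h1 := inner_heat_nonneg h s (T i)
      have h2 := Real.exp_pos s
      nlinarith [mul_nonneg h2.le h1]
    have h1 := hm (Set.mem_Ici.mpr le_rfl) (Set.mem_Ici.mpr hs) hs
    simp only [Real.exp_zero, one_mul] at h1
    have h2 := Real.exp_pos s
    have h3 : 0 ≤ Real.exp s * ψ s := hψ0.trans h1
    exact nonneg_of_mul_nonneg_right h3 h2
  have hm : MonotoneOn (fun s => Real.exp s * φ s) (Set.Ici 0) := by
    have hd2 : ∀ s, HasDerivAt (fun s => Real.exp s * φ s)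
        (Real.exp s * φ s + Real.exp s * (ψ s - φ s)) s := fun s =>
      (Real.hasDerivAt_exp s).mul (hφd s)
    refine monotoneOn_of_deriv_nonneg (convex_Ici 0)
      (fun s _ => (hd2 s).continuousAt.continuousWithinAt)
      (fun s _ => (hd2 s).differentiableAt.differentiableWithinAt) ?_
    intro s hs
    rw [interior_Ici] at hs
    rw [(hd2 s).deriv]
    have h1 := hψnn s (le_of_lt hs)
    have h2 := Real.exp_pos s
    nlinarith [mul_nonneg h2.le h1]
  have h1 := hm (Set.mem_Ici.mpr le_rfl) (Set.mem_Ici.mpr ht) ht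
  simp only [Real.exp_zero, one_mul] at h1
  have h2 : φ 0 = ∑ x, w x := by
    simp only [hφ, heatK_zero]
    refine Finset.sum_congr rfl fun x _ => ?_
    simp only [hσ, spin_mul_self, mul_one]
  rw [h2] at h1
  calc Real.exp (-t) * ∑ x, w x ≤ Real.exp (-t) * (Real.exp t * φ t) :=
        mul_le_mul_of_nonneg_left h1 (Real.exp_pos _).le
    _ = φ t := by rw [← mul_assoc, ← Real.exp_add]; simp

/-- the overlap test function -/
noncomputable def overlap (x₀ : Config n) (y : Config n) : ℝ := ∑ i, spin (x₀ i) * spin (y i)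

lemma grad2_overlap (x₀ y : Config n) : grad2 (overlap x₀) y = n := by
  have h1 : ∀ j, dd j (overlap x₀) y = spin (x₀ j) := by
    intro j
    have : overlap x₀ = fun y => ∑ i, (fun i y => spin (x₀ i) * spin (y i)) i y := rfl
    rw [this, dd_sum]
    simp only [dd_const_mul, dd_spin]
    simp
  unfold grad2
  simp only [h1, spin_sq]
  simp

lemma heat_overlap (w : Config n → ℝ) (t : ℝ) (x₀ x : Config n) :
    (heatK w t *ᵥ overlap x₀) x
      = ∑ i, spin (x₀ i) * (heatK w t *ᵥ (fun y => spin (y i))) x := by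
  have : overlap x₀ = ∑ i, spin (x₀ i) • (fun y : Config n => spin (y i)) := by
    funext y
    simp [overlap, Finset.sum_apply]
  rw [this, Matrix.mulVec_sum, Finset.sum_apply]
  refine Finset.sum_congr rfl fun i _ => ?_
  rw [Matrix.mulVec_smul]; rfl

lemma exists_start (h : CondMean w T) (t : ℝ) (ht : 0 ≤ t) :
    ∃ x₀ : Config n, n * Real.exp (-t) ≤ (heatK w t *ᵥ overlap x₀) x₀ := by
  have h1 : ∑ x, w x * (n * Real.exp (-t)) ≤ ∑ x, w x * (heatK w t *ᵥ overlap x) x := by
    have e1 : ∑ x, w x * (heatK w t *ᵥ overlap x) x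
        = ∑ i, ∑ x, w x * (spin (x i) * (heatK w t *ᵥ (fun y => spin (y i))) x) := by
      rw [Finset.sum_comm]
      refine Finset.sum_congr rfl fun x _ => ?_
      rw [heat_overlap, Finset.mul_sum]
    rw [e1]
    calc ∑ x, w x * (n * Real.exp (-t)) = ∑ _i : Fin n, Real.exp (-t) * ∑ x, w x := by
          rw [← Finset.sum_mul]; simp; ring
      _ ≤ _ := Finset.sum_le_sum fun i _ => autocorr_bound h i t ht
  obtain ⟨x, _, hx⟩ := Finset.exists_le_of_sum_le
    (s := (Finset.univ : Finset (Config n))) ⟨fun _ => true, Finset.mem_univ _⟩ h1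
  exact ⟨x, le_of_mul_le_mul_left hx (h.pos x)⟩

/-- deterministic total variation lower bound -/
theorem tv_lower (h : CondMean w T) (hflip : ∀ x, w (fun i => !(x i)) = w x)
    (K : ℝ) (hK : 0 ≤ K) (hn : 0 < n)
    (hgrad : ∀ x₀ : Config n, ∀ s, 0 ≤ s → ∀ x,
      grad2 (heatK w s *ᵥ overlap x₀) x ≤ Real.exp (K * s) * n)
    (t : ℝ) (ht : 0 ≤ t) :
    ∃ x₀ : Config n, 1 / 2 - 4 * t * Real.exp ((K + 2) * t) / n ≤
      (∑ y, |heatK w t x₀ y - w y / ∑ z, w z|) / 2 := by
  classical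
  obtain ⟨x₀, hx₀⟩ := exists_start h t ht
  refine ⟨x₀, ?_⟩
  set f := overlap x₀ with hf
  set P := heatK w t with hP
  set Z := ∑ z, w z with hZd
  have hZ : 0 < Z := Finset.sum_pos (fun x _ => h.pos x) ⟨fun _ => true, Finset.mem_univ _⟩
  have hn0 : (0:ℝ) < n := by exact_mod_cast hn
  set m := (P *ᵥ f) x₀ with hm
  have hmpos : 0 < m := lt_of_lt_of_le (mul_pos hn0 (Real.exp_pos _)) hx₀
  have hvar := h.var_bound K n hK hn0.le f (hgrad x₀) t ht x₀
  -- Chebyshev
  set A : Finset (Config n) := Finset.univ.filter fun y => f y ≤ 0 with hA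
  have hcheb : (∑ y ∈ A, P x₀ y) * m ^ 2 ≤ 4 * Real.exp (K * t) * n * t := by
    have h1 : (∑ y ∈ A, P x₀ y) * m ^ 2 ≤ ∑ y, P x₀ y * (f y - m) ^ 2 := by
      rw [Finset.sum_mul]
      calc ∑ y ∈ A, P x₀ y * m ^ 2 ≤ ∑ y ∈ A, P x₀ y * (f y - m) ^ 2 := by
            refine Finset.sum_le_sum fun y hy => ?_
            have hy0 : f y ≤ 0 := (Finset.mem_filter.mp hy).2
            refine mul_le_mul_of_nonneg_left ?_ (heatK_nonneg w h.pos t ht x₀ y)
            nlinarith
        _ ≤ ∑ y, P x₀ y * (f y - m) ^ 2 := by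
            refine Finset.sum_le_sum_of_subset_of_nonneg (Finset.filter_subset _ _) ?_
            intro y _ _
            exact mul_nonneg (heatK_nonneg w h.pos t ht x₀ y) (sq_nonneg _)
    have h2 : ∑ y, P x₀ y * (f y - m) ^ 2 = (P *ᵥ (fun y => f y ^ 2)) x₀ - m ^ 2 := by
      have e : ∀ y, P x₀ y * (f y - m) ^ 2
          = P x₀ y * f y ^ 2 - 2 * m * (P x₀ y * f y) + m ^ 2 * P x₀ y := by intro y; ring
      simp only [e, Finset.sum_add_distrib, Finset.sum_sub_distrib, ← Finset.mul_sum]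
      rw [hP, heatK_row w h.pos]
      have e2 : ∑ y, heatK w t x₀ y * f y = m := rfl
      rw [e2]
      have e3 : (heatK w t *ᵥ (fun y => f y ^ 2)) x₀ = ∑ y, heatK w t x₀ y * f y ^ 2 := rfl
      rw [e3]; ring
    rw [h2] at h1
    exact h1.trans hvar
  have hPA : ∑ y ∈ A, P x₀ y ≤ 4 * t * Real.exp ((K + 2) * t) / n := by
    have h1 : (n * Real.exp (-t)) ^ 2 ≤ m ^ 2 :=
      pow_le_pow_left₀ (mul_pos hn0 (Real.exp_pos _)).le hx₀ 2
    have h0 : 0 ≤ ∑ y ∈ A, P x₀ y :=
      Finset.sum_nonneg fun y _ => heatK_nonneg w h.pos t ht x₀ y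
    have h2 : (∑ y ∈ A, P x₀ y) * (n * Real.exp (-t)) ^ 2 ≤ 4 * Real.exp (K * t) * n * t :=
      (mul_le_mul_of_nonneg_left h1 h0).trans hcheb
    rw [le_div_iff₀ hn0]
    have h3 : (Real.exp (-t)) ^ 2 * Real.exp (2 * t) = 1 := by
      rw [sq, ← Real.exp_add, ← Real.exp_add]
      have : -t + -t + 2 * t = 0 := by ring
      rw [this, Real.exp_zero]
    have h4 : Real.exp ((K + 2) * t) = Real.exp (K * t) * Real.exp (2 * t) := by
      rw [← Real.exp_add]; congr 1; ring
    have h5 := mul_le_mul_of_nonneg_right h2 (Real.exp_pos (2 * t)).le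
    have h6 : (∑ y ∈ A, P x₀ y) * (n * Real.exp (-t)) ^ 2 * Real.exp (2 * t)
        = n * ((∑ y ∈ A, P x₀ y) * n) := by
      linear_combination ((∑ y ∈ A, P x₀ y) * n ^ 2) * h3
    rw [h6] at h5
    rw [h4]
    have h7 : 4 * Real.exp (K * t) * n * t * Real.exp (2 * t)
        = n * (4 * t * (Real.exp (K * t) * Real.exp (2 * t))) := by ring
    rw [h7] at h5
    exact le_of_mul_le_mul_left h5 hn0
  -- symmetry
  have hπA : Z / 2 ≤ ∑ y ∈ A, w y := by
    have hneg : ∀ y, f (fun i => !(y i)) = -f y := by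
      intro y
      simp only [hf, overlap, ← Finset.sum_neg_distrib]
      refine Finset.sum_congr rfl fun i _ => ?_
      cases y i <;> simp [spin]
    have hinv : Function.Involutive (fun y : Config n => fun i => !(y i)) := by
      intro y; funext i; simp
    have h1 : ∑ y, (if f y ≤ 0 then w y else 0) = ∑ y, (if 0 ≤ f y then w y else 0) := by
      refine Fintype.sum_bijective _ hinv.bijective _ _ fun y => ?_
      rw [hneg, hflip]
      by_cases hy : f y ≤ 0
      · rw [if_pos hy, if_pos (by linarith)]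
      · rw [if_neg hy, if_neg (by linarith)]
    have h2 : Z ≤ ∑ y, (if f y ≤ 0 then w y else 0) + ∑ y, (if 0 ≤ f y then w y else 0) := by
      rw [← Finset.sum_add_distrib]
      refine Finset.sum_le_sum fun y _ => ?_
      have := h.pos y
      rcases le_total (f y) 0 with hy | hy
      · rw [if_pos hy]; split_ifs <;> linarith
      · rw [if_pos hy]; split_ifs <;> linarith
    rw [← h1] at h2
    rw [hA, Finset.sum_filter]
    linarith
  have hπA' : 1 / 2 ≤ ∑ y ∈ A, w y / Z := by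
    rw [← Finset.sum_div, le_div_iff₀ hZ]; linarith
  -- total variation
  have htv : ∑ y ∈ A, w y / Z - ∑ y ∈ A, P x₀ y ≤ (∑ y, |P x₀ y - w y / Z|) / 2 := by
    have h0 : ∑ y, (w y / Z - P x₀ y) = 0 := by
      rw [Finset.sum_sub_distrib, ← Finset.sum_div, hP, heatK_row w h.pos, ← hZd, div_self hZ.ne']
      ring
    have h1 : ∑ y, (w y / Z - P x₀ y) = ∑ y ∈ A, (w y / Z - P x₀ y)
        + ∑ y ∈ Aᶜ, (w y / Z - P x₀ y) := (Finset.sum_add_sum_compl A _).symm
    have h2 : ∑ y ∈ A, (w y / Z - P x₀ y) ≤ ∑ y ∈ A, |P x₀ y - w y / Z| :=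
      Finset.sum_le_sum fun y _ => by rw [abs_sub_comm]; exact le_abs_self _
    have h3 : -∑ y ∈ Aᶜ, (w y / Z - P x₀ y) ≤ ∑ y ∈ Aᶜ, |P x₀ y - w y / Z| := by
      rw [← Finset.sum_neg_distrib]
      exact Finset.sum_le_sum fun y _ => by rw [neg_sub]; exact le_abs_self _
    have h4 : ∑ y, |P x₀ y - w y / Z| = ∑ y ∈ A, |P x₀ y - w y / Z|
        + ∑ y ∈ Aᶜ, |P x₀ y - w y / Z| := (Finset.sum_add_sum_compl A _).symm
    rw [h4, ← Finset.sum_sub_distrib]
    linarith
  linarith

end Vale.Agent.P150
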