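import Mathlib

namespace Vale.Agent.P150

/-- reduced derivative `b'` with `b = (1 - t²) b'` -/
lemma reduced_bounds (t x τ b : ℝ) (hx : |x| = 1) (ht : t ^ 2 < 1) (hτ : |τ| ≤ 1 / 20)
    (hb : b * (1 - 2 * τ * x * t) = τ * (1 - t ^ 2)) :
    ∃ b' : ℝ, b = (1 - t ^ 2) * b' ∧ |b'| ≤ 10 / 9 * |τ| ∧ |b' - τ| ≤ 20 / 9 * τ ^ 2 ∧
      |b' - τ - 2 * τ ^ 2 * x * t| ≤ 5 * |τ| ^ 3 := by
  have ht1 : |t| < 1 := by rw [← sq_lt_one_iff_abs_lt_one]; exact ht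
  have hτ0 : 0 ≤ |τ| := abs_nonneg τ
  have ha : |2 * τ * x * t| ≤ 2 * |τ| := by
    rw [abs_mul, abs_mul, abs_mul, hx, abs_two, mul_one]
    have := mul_le_mul_of_nonneg_left ht1.le (by positivity : 0 ≤ 2 * |τ|)
    linarith
  have hu' := abs_le.mp ha
  obtain ⟨d, hd⟩ : ∃ d, d = 1 - 2 * τ * x * t := ⟨_, rfl⟩
  have hd0 : 9 / 10 ≤ d := by rw [hd]; linarith [hu'.2]
  have hdp : 0 < d := by linarith
  have e2 : |τ| * |τ| = τ ^ 2 := by rw [← abs_mul, ← sq, abs_of_nonneg (sq_nonneg τ)]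
  refine ⟨τ / d, ?_, ?_, ?_, ?_⟩
  · rw [← hd] at hb; field_simp; linarith [hb]
  · rw [abs_div, abs_of_pos hdp, div_le_iff₀ hdp]
    have := mul_le_mul_of_nonneg_left hd0 hτ0
    linarith
  · have e : τ / d - τ = τ * (2 * τ * x * t) / d := by field_simp; rw [hd]; ring
    rw [e, abs_div, abs_of_pos hdp, div_le_iff₀ hdp, abs_mul]
    have h1 : |τ| * |2 * τ * x * t| ≤ |τ| * (2 * |τ|) := mul_le_mul_of_nonneg_left ha hτ0
    have h2 : |τ| * (2 * |τ|) = 2 * τ ^ 2 := by rw [← e2]; ring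
    have h3 := mul_le_mul_of_nonneg_left hd0 (sq_nonneg τ)
    linarith
  · have e : τ / d - τ - 2 * τ ^ 2 * x * t = τ * (2 * τ * x * t) ^ 2 / d := by
      field_simp; rw [hd]; ring
    rw [e, abs_div, abs_of_pos hdp, div_le_iff₀ hdp, abs_mul, abs_pow]
    have hb3 : |2 * τ * x * t| ^ 2 ≤ (2 * |τ|) ^ 2 := pow_le_pow_left₀ (abs_nonneg _) ha 2
    have h1 : |τ| * |2 * τ * x * t| ^ 2 ≤ |τ| * (2 * |τ|) ^ 2 :=
      mul_le_mul_of_nonneg_left hb3 hτ0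
    have h2 : |τ| * (2 * |τ|) ^ 2 = 4 * |τ| ^ 3 := by ring
    have h3 := mul_le_mul_of_nonneg_left hd0 (pow_nonneg hτ0 3)
    linarith [pow_nonneg hτ0 3]

/-- pointwise algebra for the pair bound, reduced form -/
lemma pair_key (ti tj xi xj τ b' c' q' gi gj H : ℝ) (hxi : |xi| = 1)
    (htj : tj ^ 2 < 1) (hτ : |τ| ≤ 1 / 20)
    (hb1 : |b' - τ| ≤ 20 / 9 * τ ^ 2)
    (hb2 : |b' - τ - 2 * τ ^ 2 * xj * ti| ≤ 5 * |τ| ^ 3)
    (hc0 : |c'| ≤ 10 / 9 * |τ|) (hc1 : |c' - τ| ≤ 20 / 9 * τ ^ 2)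
    (hq' : q' = -2 * c' * (tj - xi * ((1 - tj ^ 2) * c'))) :
    -τ * gi * gj - 2 * τ ^ 2 * xj * ti * gi * gj - 5 * |τ| ^ 3 * |gi| * |gj|
      + (3 / 4 * H ^ 2 - 16 * τ ^ 2 * |gj| * |H|)
      ≤ -b' * gi * gj + (2 * tj * b' + q') * gj * H + (1 - 2 * xi * q') * H ^ 2 := by
  have htj1 : |tj| < 1 := by rw [← sq_lt_one_iff_abs_lt_one]; exact htj
  have hτ0 : 0 ≤ |τ| := abs_nonneg τ
  have e2 : |τ| ^ 2 = τ ^ 2 := sq_abs τ
  have hsj1 : 0 < 1 - tj ^ 2 := by linarith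
  have hsj2 : 1 - tj ^ 2 ≤ 1 := by linarith [sq_nonneg tj]
  have hc'2 : |c'| ≤ 1 / 18 := by linarith
  have hc0' := abs_nonneg c'
  have hbc : |b' - c'| ≤ 5 * τ ^ 2 := by
    have : b' - c' = (b' - τ) - (c' - τ) := by ring
    rw [this]
    calc _ ≤ |b' - τ| + |c' - τ| := abs_sub _ _
      _ ≤ 5 * τ ^ 2 := by linarith [sq_nonneg τ]
  have hsc : |xi * ((1 - tj ^ 2) * c')| ≤ |c'| := by
    rw [abs_mul, abs_mul, hxi, abs_of_pos hsj1, one_mul]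
    have := mul_le_mul_of_nonneg_right hsj2 hc0'
    linarith
  have hq'1 : |2 * xi * q'| ≤ 1 / 4 := by
    have h1 : |tj - xi * ((1 - tj ^ 2) * c')| ≤ 1 + 1 / 18 := by
      calc |tj - xi * ((1 - tj ^ 2) * c')| ≤ |tj| + |xi * ((1 - tj ^ 2) * c')| := abs_sub _ _
        _ ≤ 1 + 1 / 18 := by linarith
    have h2 : |(-2 : ℝ)| = 2 := by norm_num
    have h3 : |2 * xi * q'| = 4 * (|c'| * |tj - xi * ((1 - tj ^ 2) * c')|) := by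
      rw [hq', abs_mul, abs_mul, abs_mul, abs_mul, hxi, abs_two, h2]; ring
    rw [h3]
    have h4 : |c'| * |tj - xi * ((1 - tj ^ 2) * c')| ≤ 1 / 18 * (1 + 1 / 18) :=
      mul_le_mul hc'2 h1 (abs_nonneg _) (by norm_num)
    linarith
  have hcross : |2 * tj * b' + q'| ≤ 16 * τ ^ 2 := by
    have e : 2 * tj * b' + q' = 2 * tj * (b' - c') + 2 * xi * (1 - tj ^ 2) * c' ^ 2 := by
      rw [hq']; ring
    have h1 : |2 * tj * (b' - c')| ≤ 10 * τ ^ 2 := by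
      rw [abs_mul, abs_mul, abs_two]
      have : |tj| * |b' - c'| ≤ 1 * (5 * τ ^ 2) :=
        mul_le_mul htj1.le hbc (abs_nonneg _) (by norm_num)
      linarith
    have h2 : |2 * xi * (1 - tj ^ 2) * c' ^ 2| ≤ 3 * τ ^ 2 := by
      rw [abs_mul, abs_mul, abs_mul, hxi, abs_two, abs_of_pos hsj1, abs_pow]
      have h3 : |c'| ^ 2 ≤ (10 / 9 * |τ|) ^ 2 := pow_le_pow_left₀ hc0' hc0 2
      have h4 : (10 / 9 * |τ|) ^ 2 = 100 / 81 * τ ^ 2 := by rw [mul_pow, e2]; norm_num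
      have h5 := mul_le_mul_of_nonneg_right hsj2 (sq_nonneg |c'|)
      have h6 : 2 * 1 * (1 - tj ^ 2) * |c'| ^ 2 = 2 * ((1 - tj ^ 2) * |c'| ^ 2) := by ring
      linarith [sq_nonneg τ]
    rw [e]
    calc _ ≤ |2 * tj * (b' - c')| + |2 * xi * (1 - tj ^ 2) * c' ^ 2| := abs_add_le _ _
      _ ≤ 16 * τ ^ 2 := by linarith [sq_nonneg τ]
  have h1 : (b' - τ - 2 * τ ^ 2 * xj * ti) * (gi * gj) ≤ 5 * |τ| ^ 3 * (|gi| * |gj|) := by
    calc _ ≤ |(b' - τ - 2 * τ ^ 2 * xj * ti) * (gi * gj)| := le_abs_self _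
      _ = |b' - τ - 2 * τ ^ 2 * xj * ti| * (|gi| * |gj|) := by rw [abs_mul, abs_mul gi gj]
      _ ≤ _ := by gcongr
  have h2 : -((2 * tj * b' + q') * (gj * H)) ≤ 16 * τ ^ 2 * (|gj| * |H|) := by
    calc _ ≤ |(2 * tj * b' + q') * (gj * H)| := neg_le_abs _
      _ = |2 * tj * b' + q'| * (|gj| * |H|) := by rw [abs_mul, abs_mul gj H]
      _ ≤ _ := by gcongr
  have h3 : 2 * xi * q' * H ^ 2 ≤ 1 / 4 * H ^ 2 :=
    mul_le_mul_of_nonneg_right (abs_le.mp hq'1).2 (sq_nonneg H)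
  linarith

/-- pointwise algebra for the pair bound -/
lemma pair_pointwise (ti tj xi xj τ b c q gi gj H : ℝ) (hxi : |xi| = 1) (hxj : |xj| = 1)
    (hti : ti ^ 2 < 1) (htj : tj ^ 2 < 1) (hτ : |τ| ≤ 1 / 20)
    (hb : b * (1 - 2 * τ * xj * ti) = τ * (1 - ti ^ 2))
    (hc : c * (1 - 2 * τ * xi * tj) = τ * (1 - tj ^ 2))
    (hq : q = -2 * c * (tj - xi * c)) :
    (1 - ti ^ 2) * (1 - tj ^ 2) * (-τ * gi * gj - 2 * τ ^ 2 * xj * ti * gi * gj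
      - 5 * |τ| ^ 3 * |gi| * |gj| + (3 / 4 * H ^ 2 - 16 * τ ^ 2 * |gj| * |H|))
    ≤ -(1 - tj ^ 2) * b * gi * gj
      + (2 * tj * (1 - tj ^ 2) * b + (1 - ti ^ 2) * q) * gj * H
      + ((1 - ti ^ 2) * (1 - tj ^ 2) - 2 * xi * (1 - ti ^ 2) * q) * H ^ 2 := by
  obtain ⟨b', eb, -, hb1, hb2⟩ := reduced_bounds ti xj τ b hxj hti hτ hb
  obtain ⟨c', ec, hc0, hc1, -⟩ := reduced_bounds tj xi τ c hxi htj hτ hc
  have key := pair_key ti tj xi xj τ b' c' (-2 * c' * (tj - xi * ((1 - tj ^ 2) * c')))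
    gi gj H hxi htj hτ hb1 hb2 hc0 hc1 rfl
  have hsj1 : 0 < 1 - tj ^ 2 := by linarith
  have hsi1 : 0 < 1 - ti ^ 2 := by linarith
  have hss : 0 ≤ (1 - ti ^ 2) * (1 - tj ^ 2) := by positivity
  have h := mul_le_mul_of_nonneg_left key hss
  refine h.trans (le_of_eq ?_)
  rw [hq, eb, ec]; ring

end Vale.Agent.P150
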