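import Vale.Agent.Lib.P150.GapBound
import Vale.Agent.Lib.P150.PairAlg

namespace Vale.Agent.P150

variable {n : ℕ}

/-- exact two-site identity -/
lemma CondMean.pair_identity {w : Config n → ℝ} {T : Fin n → Config n → ℝ} (h : CondMean w T)
    {i j : Fin n} (hij : i ≠ j) (f : Config n → ℝ) :
    ∑ x, w x * ((spin (x i) - T i x) * dd i f x * ((spin (x j) - T j x) * dd j f x))
      = ∑ x, w x * (-(1 - T j x ^ 2) * dd j (T i) x * dd i f x * dd j f x
        + (2 * T j x * (1 - T j x ^ 2) * dd j (T i) x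
            + (1 - T i x ^ 2) * dd i (fun y => 1 - T j y ^ 2) x) * dd j f x * dd i (dd j f) x
        + ((1 - T i x ^ 2) * (1 - T j x ^ 2)
            - 2 * spin (x i) * (1 - T i x ^ 2) * dd i (fun y => 1 - T j y ^ 2) x)
              * dd i (dd j f) x ^ 2) := by
  -- Step 1
  have s1 := h.ibp j (fun y => (spin (y i) - T i y) * dd i f y * dd j f y)
  have l1 : ∀ x, dd j (fun y => (spin (y i) - T i y) * dd i f y * dd j f y) x
      = (-(dd j (T i) x) * dd i f x + (spin (x i) - T i x) * dd i (dd j f) x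
          + 2 * spin (x j) * dd j (T i) x * dd i (dd j f) x) * dd j f x := by
    intro x
    rw [dd_mul j (fun y => (spin (y i) - T i y) * dd i f y) (dd j f), dd_dd_self,
      dd_mul j (fun y => spin (y i) - T i y) (dd i f),
      dd_sub j (fun y => spin (y i)) (T i), dd_spin_ne (Ne.symm hij), dd_comm j i]
    ring
  simp only [l1] at s1
  -- Step 2: the term with (x_i - T_i)
  have s2 := h.ibp i (fun y => (1 - T j y ^ 2) * dd j f y * dd i (dd j f) y)
  have l2 : ∀ x, dd i (fun y => (1 - T j y ^ 2) * dd j f y * dd i (dd j f) y) x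
      = (dd i (fun y => 1 - T j y ^ 2) x * dd j f x + (1 - T j x ^ 2) * dd i (dd j f) x
          - 2 * spin (x i) * dd i (fun y => 1 - T j y ^ 2) x * dd i (dd j f) x)
            * dd i (dd j f) x := by
    intro x
    rw [dd_mul i (fun y => (1 - T j y ^ 2) * dd j f y) (dd i (dd j f)), dd_dd_self,
      dd_mul i (fun y => 1 - T j y ^ 2) (dd j f)]
    ring
  simp only [l2] at s2
  -- Step 3: the term with x_j replaced by T_j
  have s3 := h.ibp j (fun y => (1 - T j y ^ 2) * dd j f y * (dd j (T i) y * dd j (dd i f) y))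
  have l3 : ∀ x, dd j (fun y => (1 - T j y ^ 2) * dd j f y * (dd j (T i) y * dd j (dd i f) y)) x
      = 0 := by
    intro x
    apply dd_eq_zero_of_indep
    intro y b
    simp only [h.indep, dd_update_self]
  simp only [l3, mul_zero, Finset.sum_const_zero] at s3
  have e1 : ∑ x, w x * ((spin (x i) - T i x) * dd i f x * ((spin (x j) - T j x) * dd j f x))
      = ∑ x, w x * ((spin (x j) - T j x) * ((spin (x i) - T i x) * dd i f x * dd j f x)) :=
    Finset.sum_congr rfl fun x _ => by ring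
  rw [e1, s1]
  have e2 : ∑ x, w x * ((1 - T j x ^ 2) *
      ((-(dd j (T i) x) * dd i f x + (spin (x i) - T i x) * dd i (dd j f) x
          + 2 * spin (x j) * dd j (T i) x * dd i (dd j f) x) * dd j f x))
      = ∑ x, w x * (-(1 - T j x ^ 2) * dd j (T i) x * dd i f x * dd j f x)
        + ∑ x, w x * ((spin (x i) - T i x) * ((1 - T j x ^ 2) * dd j f x * dd i (dd j f) x))
        + 2 * ∑ x, w x * ((spin (x j) - T j x) *
            ((1 - T j x ^ 2) * dd j f x * (dd j (T i) x * dd j (dd i f) x)))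
        + ∑ x, w x * (2 * T j x * (1 - T j x ^ 2) * dd j (T i) x * dd j f x
            * dd i (dd j f) x) := by
    rw [Finset.mul_sum, ← Finset.sum_add_distrib, ← Finset.sum_add_distrib,
      ← Finset.sum_add_distrib]
    refine Finset.sum_congr rfl fun x _ => ?_
    rw [dd_comm j i f x]; ring
  rw [e2, s3, s2, mul_zero, add_zero, ← Finset.sum_add_distrib, ← Finset.sum_add_distrib]
  refine Finset.sum_congr rfl fun x _ => ?_
  ring

lemma dd_one_sub_sq (i : Fin n) (T : Config n → ℝ) (x : Config n) :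
    dd i (fun y => 1 - T y ^ 2) x = -2 * dd i T x * (T x - spin (x i) * dd i T x) := by
  have : (fun y => 1 - T y ^ 2) = fun y => (fun _ => (1:ℝ)) y - (fun y => T y * T y) y := by
    funext y; ring
  rw [this, dd_sub, dd_const, dd_mul]; ring

lemma abs_dd_ts (i : Fin n) (T : Config n → ℝ) (hT : ∀ x, T x ^ 2 < 1) (x : Config n) :
    |dd i (fun y => T y * (1 - T y ^ 2)) x| ≤ 2 * |dd i T x| := by
  unfold dd
  have h1 := hT (Function.update x i true)
  have h2 := hT (Function.update x i false)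
  set a := T (Function.update x i true)
  set b := T (Function.update x i false)
  have e : (a * (1 - a ^ 2) - b * (1 - b ^ 2)) / 2 = (1 - (a ^ 2 + a * b + b ^ 2)) * ((a - b) / 2) := by
    ring
  rw [e, abs_mul]
  refine mul_le_mul_of_nonneg_right ?_ (abs_nonneg _)
  rw [abs_le]
  constructor
  · nlinarith [sq_nonneg (a - b)]
  · nlinarith [sq_nonneg (a + b)]

/-- the pair bound in expectation -/
lemma CondMean.pair_bound {w : Config n → ℝ} {T : Fin n → Config n → ℝ} (h : CondMean w T)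
    {i j : Fin n} (hij : i ≠ j) (τ : ℝ) (hτ : |τ| ≤ 1 / 20)
    (hbi : ∀ x, dd j (T i) x * (1 - 2 * τ * spin (x j) * T i x) = τ * (1 - T i x ^ 2))
    (hbj : ∀ x, dd i (T j) x * (1 - 2 * τ * spin (x i) * T j x) = τ * (1 - T j x ^ 2))
    (f : Config n → ℝ) :
    ∑ x, w x * ((1 - T i x ^ 2) * (1 - T j x ^ 2) * (-τ * dd i f x * dd j f x
        - 2 * τ ^ 2 * T i x * T j x * dd i f x * dd j f x)
        - 12 * |τ| ^ 3 * ((1 - T i x ^ 2) * dd i f x ^ 2 + (1 - T j x ^ 2) * dd j f x ^ 2))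
    ≤ ∑ x, w x * ((spin (x i) - T i x) * dd i f x * ((spin (x j) - T j x) * dd j f x)) := by
  rw [h.pair_identity hij]
  -- pointwise bound
  have hpw : ∀ x, w x * ((1 - T i x ^ 2) * (1 - T j x ^ 2) * (-τ * dd i f x * dd j f x
        - 2 * τ ^ 2 * spin (x j) * T i x * dd i f x * dd j f x
      - 5 * |τ| ^ 3 * |dd i f x| * |dd j f x|
      + (3 / 4 * dd i (dd j f) x ^ 2 - 16 * τ ^ 2 * |dd j f x| * |dd i (dd j f) x|)))
      ≤ w x * (-(1 - T j x ^ 2) * dd j (T i) x * dd i f x * dd j f x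
        + (2 * T j x * (1 - T j x ^ 2) * dd j (T i) x
            + (1 - T i x ^ 2) * dd i (fun y => 1 - T j y ^ 2) x) * dd j f x * dd i (dd j f) x
        + ((1 - T i x ^ 2) * (1 - T j x ^ 2)
            - 2 * spin (x i) * (1 - T i x ^ 2) * dd i (fun y => 1 - T j y ^ 2) x)
              * dd i (dd j f) x ^ 2) := by
    intro x
    refine mul_le_mul_of_nonneg_left ?_ (h.pos x).le
    exact pair_pointwise (T i x) (T j x) (spin (x i)) (spin (x j)) τ (dd j (T i) x) (dd i (T j) x)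
      (dd i (fun y => 1 - T j y ^ 2) x) (dd i f x) (dd j f x) (dd i (dd j f) x)
      (abs_spin _) (abs_spin _) (h.lt i x) (h.lt j x) hτ (hbi x) (hbj x) (dd_one_sub_sq _ _ _)
  refine le_trans ?_ (Finset.sum_le_sum fun x _ => hpw x)
  -- replace x_j by T_j in the second order term
  have s := h.ibp j (fun y => (1 - T j y ^ 2) * dd j f y * (T i y * (1 - T i y ^ 2) * dd i f y))
  have l : ∀ x, dd j (fun y => (1 - T j y ^ 2) * dd j f y * (T i y * (1 - T i y ^ 2) * dd i f y)) x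
      = (1 - T j x ^ 2) * dd j f x * (dd j (fun y => T i y * (1 - T i y ^ 2)) x * dd i f x
        + T i x * (1 - T i x ^ 2) * dd i (dd j f) x
        - 2 * spin (x j) * dd j (fun y => T i y * (1 - T i y ^ 2)) x * dd i (dd j f) x) := by
    intro x
    rw [dd_mul j (fun y => (1 - T j y ^ 2) * dd j f y) (fun y => T i y * (1 - T i y ^ 2) * dd i f y),
      dd_eq_zero_of_indep (i := j) (f := fun y => (1 - T j y ^ 2) * dd j f y)
        (fun y b => by simp only [h.indep, dd_update_self]),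
      dd_mul j (fun y => T i y * (1 - T i y ^ 2)) (dd i f), dd_comm j i]
    ring
  simp only [l] at s
  have e1 : ∑ x, w x * ((1 - T i x ^ 2) * (1 - T j x ^ 2) * (-τ * dd i f x * dd j f x
        - 2 * τ ^ 2 * spin (x j) * T i x * dd i f x * dd j f x
      - 5 * |τ| ^ 3 * |dd i f x| * |dd j f x|
      + (3 / 4 * dd i (dd j f) x ^ 2 - 16 * τ ^ 2 * |dd j f x| * |dd i (dd j f) x|)))
      = ∑ x, w x * ((1 - T i x ^ 2) * (1 - T j x ^ 2) * (-τ * dd i f x * dd j f x
        - 2 * τ ^ 2 * T j x * T i x * dd i f x * dd j f x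
      - 5 * |τ| ^ 3 * |dd i f x| * |dd j f x|
      + (3 / 4 * dd i (dd j f) x ^ 2 - 16 * τ ^ 2 * |dd j f x| * |dd i (dd j f) x|)))
      - 2 * τ ^ 2 * ∑ x, w x * ((spin (x j) - T j x) *
          ((1 - T j x ^ 2) * dd j f x * (T i x * (1 - T i x ^ 2) * dd i f x))) := by
    rw [Finset.mul_sum, ← Finset.sum_sub_distrib]
    refine Finset.sum_congr rfl fun x _ => ?_
    ring
  rw [e1, s, Finset.mul_sum, ← Finset.sum_sub_distrib]
  refine Finset.sum_le_sum fun x _ => ?_
  have hw := (h.pos x).le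
  have e2 : w x * ((1 - T i x ^ 2) * (1 - T j x ^ 2) * (-τ * dd i f x * dd j f x
        - 2 * τ ^ 2 * T j x * T i x * dd i f x * dd j f x
      - 5 * |τ| ^ 3 * |dd i f x| * |dd j f x|
      + (3 / 4 * dd i (dd j f) x ^ 2 - 16 * τ ^ 2 * |dd j f x| * |dd i (dd j f) x|)))
      - 2 * τ ^ 2 * (w x * ((1 - T j x ^ 2) * ((1 - T j x ^ 2) * dd j f x *
        (dd j (fun y => T i y * (1 - T i y ^ 2)) x * dd i f x
        + T i x * (1 - T i x ^ 2) * dd i (dd j f) x
        - 2 * spin (x j) * dd j (fun y => T i y * (1 - T i y ^ 2)) x * dd i (dd j f) x))))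
      = w x * ((1 - T i x ^ 2) * (1 - T j x ^ 2) * (-τ * dd i f x * dd j f x
        - 2 * τ ^ 2 * T j x * T i x * dd i f x * dd j f x
      - 5 * |τ| ^ 3 * |dd i f x| * |dd j f x|
      + (3 / 4 * dd i (dd j f) x ^ 2 - 16 * τ ^ 2 * |dd j f x| * |dd i (dd j f) x|))
      - 2 * τ ^ 2 * ((1 - T j x ^ 2) * ((1 - T j x ^ 2) * dd j f x *
        (dd j (fun y => T i y * (1 - T i y ^ 2)) x * dd i f x
        + T i x * (1 - T i x ^ 2) * dd i (dd j f) x
        - 2 * spin (x j) * dd j (fun y => T i y * (1 - T i y ^ 2)) x * dd i (dd j f) x)))) := by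
    ring
  rw [e2]
  refine mul_le_mul_of_nonneg_left ?_ hw
  -- pure real inequality
  obtain ⟨b', eb, hb0, -, -⟩ := reduced_bounds (T i x) (spin (x j)) τ (dd j (T i) x) (abs_spin _)
    (h.lt i x) hτ (hbi x)
  have hsi : 0 < 1 - T i x ^ 2 := by linarith [h.lt i x]
  have hsj : 0 < 1 - T j x ^ 2 := by linarith [h.lt j x]
  have hsj1 : 1 - T j x ^ 2 ≤ 1 := by linarith [sq_nonneg (T j x)]
  have hsi1 : 1 - T i x ^ 2 ≤ 1 := by linarith [sq_nonneg (T i x)]
  have hti : |T i x| ≤ 1 := by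
    rw [← sq_le_one_iff_abs_le_one]; exact (h.lt i x).le
  have hd : |dd j (fun y => T i y * (1 - T i y ^ 2)) x| ≤ 20 / 9 * |τ| * (1 - T i x ^ 2) := by
    have h1 := abs_dd_ts j (T i) (h.lt i) x
    have h2 : |dd j (T i) x| ≤ 10 / 9 * |τ| * (1 - T i x ^ 2) := by
      rw [eb, abs_mul, abs_of_pos hsi]
      have := mul_le_mul_of_nonneg_left hb0 hsi.le
      linarith
    linarith
  set si := 1 - T i x ^ 2 with hsi'
  set sj := 1 - T j x ^ 2 with hsj'
  set gi := dd i f x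
  set gj := dd j f x
  set H := dd i (dd j f) x
  set D := dd j (fun y => T i y * (1 - T i y ^ 2)) x
  have hτ0 := abs_nonneg τ
  have hgi := abs_nonneg gi
  have hgj := abs_nonneg gj
  have hH := abs_nonneg H
  have hinner : |D * gi + T i x * si * H - 2 * spin (x j) * D * H|
      ≤ si * (20 / 9 * |τ| * |gi| + 11 / 9 * |H|) := by
    have a1 : |D * gi| ≤ 20 / 9 * |τ| * si * |gi| := by
      rw [abs_mul]; exact mul_le_mul_of_nonneg_right hd hgi
    have a2 : |T i x * si * H| ≤ si * |H| := by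
      rw [abs_mul, abs_mul, abs_of_pos hsi]
      have := mul_le_mul_of_nonneg_right hti (mul_nonneg hsi.le hH)
      linarith
    have a3 : |2 * spin (x j) * D * H| ≤ 2 / 9 * (si * |H|) := by
      rw [abs_mul, abs_mul, abs_mul, abs_spin, abs_two]
      have b1 : |D| ≤ 1 / 9 * si := by
        have := mul_le_mul_of_nonneg_right hτ hsi.le
        linarith
      have := mul_le_mul_of_nonneg_right b1 hH
      linarith
    calc |D * gi + T i x * si * H - 2 * spin (x j) * D * H|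
        ≤ |D * gi + T i x * si * H| + |2 * spin (x j) * D * H| := abs_sub _ _
      _ ≤ |D * gi| + |T i x * si * H| + |2 * spin (x j) * D * H| := by
          have := abs_add_le (D * gi) (T i x * si * H); linarith
      _ ≤ _ := by linarith
  have hprod : sj * (sj * gj * (D * gi + T i x * si * H - 2 * spin (x j) * D * H))
      ≤ si * sj * (20 / 9 * |τ| * |gi| * |gj| + 11 / 9 * |gj| * |H|) := by
    calc sj * (sj * gj * (D * gi + T i x * si * H - 2 * spin (x j) * D * H))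
        ≤ |sj * (sj * gj * (D * gi + T i x * si * H - 2 * spin (x j) * D * H))| := le_abs_self _
      _ = sj * sj * |gj| * |D * gi + T i x * si * H - 2 * spin (x j) * D * H| := by
          rw [abs_mul, abs_mul, abs_mul, abs_of_pos hsj]; ring
      _ ≤ sj * sj * |gj| * (si * (20 / 9 * |τ| * |gi| + 11 / 9 * |H|)) := by gcongr
      _ ≤ sj * 1 * |gj| * (si * (20 / 9 * |τ| * |gi| + 11 / 9 * |H|)) := by gcongr
      _ = _ := by ring
  have hτ2 : 0 ≤ 2 * τ ^ 2 := by positivity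
  have hprod2 := mul_le_mul_of_nonneg_left hprod hτ2
  -- absorb
  have e2 : |τ| ^ 2 = τ ^ 2 := sq_abs τ
  have e3 : |τ| ^ 3 = |τ| * τ ^ 2 := by rw [← e2]; ring
  have absorb : 0 ≤ si * sj * (3 / 4 * H ^ 2 - 19 * τ ^ 2 * |gj| * |H| + 7 * |τ| ^ 3 * gj ^ 2) := by
    refine mul_nonneg (mul_nonneg hsi.le hsj.le) ?_
    have h1 : H ^ 2 = |H| ^ 2 := (sq_abs H).symm
    have h2 : gj ^ 2 = |gj| ^ 2 := (sq_abs gj).symm
    rw [h1, h2]
    have h3 : τ ^ 2 * τ ^ 2 ≤ 1 / 20 * |τ| ^ 3 := by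
      rw [e3, ← e2]
      have := mul_le_mul_of_nonneg_right hτ (pow_nonneg hτ0 3)
      calc |τ| ^ 2 * |τ| ^ 2 = |τ| * |τ| ^ 3 := by ring
        _ ≤ 1 / 20 * |τ| ^ 3 := this
        _ = _ := by ring
    have h4 : 3 / 4 * |H| ^ 2 - 19 * τ ^ 2 * |gj| * |H| + 7 * |τ| ^ 3 * |gj| ^ 2
        = 3 / 4 * (|H| - 38 / 3 * τ ^ 2 * |gj|) ^ 2
          + (7 * |τ| ^ 3 - 361 / 3 * (τ ^ 2 * τ ^ 2)) * |gj| ^ 2 := by ring
    rw [h4]
    have h5 : 0 ≤ 7 * |τ| ^ 3 - 361 / 3 * (τ ^ 2 * τ ^ 2) := by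
      linarith [pow_nonneg hτ0 3]
    exact add_nonneg (mul_nonneg (by norm_num) (sq_nonneg _)) (mul_nonneg h5 (sq_nonneg _))
  have hgg : 10 * |τ| ^ 3 * |gi| * |gj| ≤ 5 * |τ| ^ 3 * (gi ^ 2 + gj ^ 2) := by
    have h1 : gi ^ 2 = |gi| ^ 2 := (sq_abs gi).symm
    have h2 : gj ^ 2 = |gj| ^ 2 := (sq_abs gj).symm
    rw [h1, h2]
    have h3 := mul_nonneg (pow_nonneg hτ0 3) (sq_nonneg (|gi| - |gj|))
    linarith
  have hgg2 := mul_le_mul_of_nonneg_left hgg (mul_nonneg hsi.le hsj.le)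
  have hss1 : si * sj * gi ^ 2 ≤ si * gi ^ 2 := by
    have := mul_le_mul_of_nonneg_left hsj1 (mul_nonneg hsi.le (sq_nonneg gi)); linarith
  have hss2 : si * sj * gj ^ 2 ≤ sj * gj ^ 2 := by
    have := mul_le_mul_of_nonneg_left hsi1 (mul_nonneg hsj.le (sq_nonneg gj)); linarith
  have hss1' := mul_le_mul_of_nonneg_left hss1 (pow_nonneg hτ0 3)
  have hss2' := mul_le_mul_of_nonneg_left hss2 (pow_nonneg hτ0 3)
  have p1 : 0 ≤ |τ| ^ 3 * (si * gi ^ 2) := by positivity
  have p2 : 0 ≤ |τ| ^ 3 * (sj * gj ^ 2) := by positivity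
  have p3 : 0 ≤ si * sj * (|τ| ^ 3 * |gi| * |gj|) := by positivity
  have p4 : 0 ≤ si * sj * (τ ^ 2 * |gj| * |H|) := by positivity
  have e4 : 2 * τ ^ 2 * (si * sj * (20 / 9 * |τ| * |gi| * |gj| + 11 / 9 * |gj| * |H|))
      = 40 / 9 * (si * sj * (|τ| ^ 3 * |gi| * |gj|)) + 22 / 9 * (si * sj * (τ ^ 2 * |gj| * |H|)) := by
    rw [e3]; ring
  rw [e4] at hprod2
  linarith

end Vale.Agent.P150
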