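import Vale.Agent.Lib.P150.Bochner

namespace Vale.Agent.P150

variable {n : ℕ}

lemma const_of_dd_zero (f : Config n → ℝ) (hf : ∀ i x, dd i f x = 0) (x y : Config n) :
    f x = f y := by
  have hup : ∀ (z : Config n) i b, f (Function.update z i b) = f z := by
    intro z i b
    rw [update_eq_cases z i b f, hf i z]; ring
  have : ∀ s : Finset (Fin n), f (s.piecewise y x) = f x := by
    intro s
    induction s using Finset.induction_on with
    | empty => simp
    | insert a s ha ih =>
      rw [Finset.piecewise_insert, hup, ih]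
  have h := this Finset.univ
  rw [Finset.piecewise_univ] at h
  exact h.symm

/-- the operator `-L` -/
noncomputable def negL (T : Fin n → Config n → ℝ) (f : Config n → ℝ) (x : Config n) : ℝ :=
  ∑ i, (spin (x i) - T i x) * dd i f x

/-- the Dirichlet form -/
noncomputable def dirF (w : Config n → ℝ) (T : Fin n → Config n → ℝ) (f g : Config n → ℝ) : ℝ :=
  ∑ x, w x * ∑ i, (1 - T i x ^ 2) * (dd i f x * dd i g x)

lemma CondMean.dirF_eq {w : Config n → ℝ} {T : Fin n → Config n → ℝ} (h : CondMean w T)
    (f g : Config n → ℝ) : ∑ x, w x * (f x * negL T g x) = dirF w T f g := by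
  unfold negL dirF
  have e1 : ∑ x, w x * (f x * ∑ i, (spin (x i) - T i x) * dd i g x)
      = ∑ i, ∑ x, w x * ((spin (x i) - T i x) * (f x * dd i g x)) := by
    rw [Finset.sum_comm]
    refine Finset.sum_congr rfl fun x _ => ?_
    rw [Finset.mul_sum, Finset.mul_sum]
    refine Finset.sum_congr rfl fun i _ => ?_
    ring
  have e2 : ∑ x, w x * ∑ i, (1 - T i x ^ 2) * (dd i f x * dd i g x)
      = ∑ i, ∑ x, w x * ((1 - T i x ^ 2) * (dd i f x * dd i g x)) := by
    rw [Finset.sum_comm]
    refine Finset.sum_congr rfl fun x _ => ?_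
    rw [Finset.mul_sum]
  rw [e1, e2]
  refine Finset.sum_congr rfl fun i _ => ?_
  rw [h.ibp i (fun x => f x * dd i g x)]
  refine Finset.sum_congr rfl fun x _ => ?_
  rw [dd_mul i f (dd i g), dd_dd_self]; ring

lemma dirF_comm (w : Config n → ℝ) (T : Fin n → Config n → ℝ) (f g : Config n → ℝ) :
    dirF w T f g = dirF w T g f := by
  unfold dirF
  refine Finset.sum_congr rfl fun x _ => ?_
  congr 1
  refine Finset.sum_congr rfl fun i _ => ?_
  ring

lemma CondMean.dirF_nonneg {w : Config n → ℝ} {T : Fin n → Config n → ℝ} (h : CondMean w T)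
    (f : Config n → ℝ) : 0 ≤ dirF w T f f := by
  refine Finset.sum_nonneg fun x _ => mul_nonneg (h.pos x).le (Finset.sum_nonneg fun i _ => ?_)
  exact mul_nonneg (by linarith [h.lt i x]) (mul_self_nonneg _)

lemma CondMean.dirF_sq_le {w : Config n → ℝ} {T : Fin n → Config n → ℝ} (h : CondMean w T)
    (f g : Config n → ℝ) : dirF w T f g ^ 2 ≤ dirF w T f f * dirF w T g g := by
  have hq : ∀ t : ℝ, 0 ≤ dirF w T g g * (t * t) + (2 * dirF w T f g) * t + dirF w T f f := by
    intro t
    have h0 := h.dirF_nonneg (fun x => f x + t * g x)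
    have e : dirF w T (fun x => f x + t * g x) (fun x => f x + t * g x)
        = dirF w T g g * (t * t) + (2 * dirF w T f g) * t + dirF w T f f := by
      unfold dirF
      have : ∀ i x, dd i (fun x => f x + t * g x) x = dd i f x + t * dd i g x := by
        intro i x
        rw [dd_add i f (fun x => t * g x), dd_const_mul]
      simp only [this]
      rw [Finset.sum_mul, Finset.mul_sum, Finset.sum_mul, ← Finset.sum_add_distrib,
        ← Finset.sum_add_distrib]
      refine Finset.sum_congr rfl fun x _ => ?_
      have : ∀ a b c d : ℝ, a * b * (t * t) + 2 * (a * c) * t + a * d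
          = a * (b * (t * t) + 2 * c * t + d) := by intros; ring
      rw [this]
      congr 1
      rw [Finset.sum_mul, Finset.mul_sum, Finset.sum_mul, ← Finset.sum_add_distrib,
        ← Finset.sum_add_distrib]
      refine Finset.sum_congr rfl fun i _ => ?_
      ring
    rw [← e]; exact h0
  have hd := discrim_le_zero hq
  unfold discrim at hd
  nlinarith [hd]

/-- Poincaré inequality from the Bochner inequality -/
theorem CondMean.poincare {w : Config n → ℝ} {T : Fin n → Config n → ℝ} (h : CondMean w T)
    (κ : ℝ) (hκ : 0 < κ)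
    (hB : ∀ f : Config n → ℝ, κ * dirF w T f f ≤ ∑ x, w x * (negL T f x) ^ 2)
    (f : Config n → ℝ) :
    κ * ((∑ x, w x * f x ^ 2) * (∑ x, w x) - (∑ x, w x * f x) ^ 2)
      ≤ (∑ x, w x) * dirF w T f f := by
  classical
  -- linear operator
  let A : (Config n → ℝ) →ₗ[ℝ] (Config n → ℝ) :=
    { toFun := fun f x => negL T f x
      map_add' := by
        intro f g; funext x
        simp only [negL, Pi.add_apply]
        rw [← Finset.sum_add_distrib]
        refine Finset.sum_congr rfl fun i _ => ?_
        have : dd i (f + g) x = dd i f x + dd i g x := dd_add i f g x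
        rw [this]; ring
      map_smul' := by
        intro c f; funext x
        simp only [negL, Pi.smul_apply, smul_eq_mul, RingHom.id_apply]
        rw [Finset.mul_sum]
        refine Finset.sum_congr rfl fun i _ => ?_
        have : dd i (c • f) x = c * dd i f x := dd_const_mul i c f x
        rw [this]; ring }
  let ℓ : (Config n → ℝ) →ₗ[ℝ] ℝ :=
    { toFun := fun f => ∑ x, w x * f x
      map_add' := by
        intro f g
        simp only [Pi.add_apply, mul_add, Finset.sum_add_distrib]
      map_smul' := by
        intro c f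
        simp only [Pi.smul_apply, smul_eq_mul, RingHom.id_apply]
        rw [Finset.mul_sum]
        refine Finset.sum_congr rfl fun i _ => ?_
        ring }
  let V := LinearMap.ker ℓ
  have hV : ∀ f ∈ V, A f ∈ V := by
    intro f _
    change ∑ x, w x * negL T f x = 0
    have := h.dirF_eq (fun _ => 1) f
    simp only [one_mul] at this
    rw [this]
    unfold dirF
    simp only [dd_const, zero_mul, mul_zero, Finset.sum_const_zero]
  let AV : V →ₗ[ℝ] V := A.restrict hV
  have hZ : 0 < ∑ x, w x := Finset.sum_pos (fun x _ => h.pos x) ⟨fun _ => true, Finset.mem_univ _⟩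
  have hinj : Function.Injective AV := by
    rw [← LinearMap.ker_eq_bot, LinearMap.ker_eq_bot']
    intro f hf
    have hf1 : A f.1 = 0 := by
      have := congrArg Subtype.val hf
      simpa [AV] using this
    have hd : dirF w T f.1 f.1 = 0 := by
      rw [← h.dirF_eq]
      refine Finset.sum_eq_zero fun x _ => ?_
      have : negL T f.1 x = 0 := congrFun hf1 x
      rw [this]; ring
    have hdd : ∀ i x, dd i f.1 x = 0 := by
      intro i x
      unfold dirF at hd
      have h1 := (Finset.sum_eq_zero_iff_of_nonneg (fun x _ => mul_nonneg (h.pos x).le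
        (Finset.sum_nonneg fun i _ => mul_nonneg (by linarith [h.lt i x])
          (mul_self_nonneg (dd i f.1 x))))).mp hd x (Finset.mem_univ _)
      have h2 := (mul_eq_zero.mp h1).resolve_left (h.pos x).ne'
      have h3 := (Finset.sum_eq_zero_iff_of_nonneg (fun i _ => mul_nonneg
        (by linarith [h.lt i x]) (mul_self_nonneg (dd i f.1 x)))).mp h2 i (Finset.mem_univ _)
      have h4 := (mul_eq_zero.mp h3).resolve_left (by linarith [h.lt i x])
      exact mul_self_eq_zero.mp h4
    have hc := const_of_dd_zero f.1 hdd
    have hmem : ∑ x, w x * f.1 x = 0 := f.2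
    have hx0 : ∀ x, f.1 x = 0 := by
      intro x0
      have : ∑ x, w x * f.1 x = (∑ x, w x) * f.1 x0 := by
        rw [Finset.sum_mul]
        refine Finset.sum_congr rfl fun x _ => ?_
        rw [hc x x0]
      rw [this] at hmem
      exact (mul_eq_zero.mp hmem).resolve_left hZ.ne'
    exact Subtype.ext (funext hx0)
  have hsurj : Function.Surjective AV := (LinearMap.injective_iff_surjective).mp hinj
  -- mean-zero case
  have hmz : ∀ f : Config n → ℝ, ∑ x, w x * f x = 0 →
      κ * ∑ x, w x * f x ^ 2 ≤ dirF w T f f := by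
    intro f hf
    obtain ⟨z, hz⟩ := hsurj ⟨f, hf⟩
    have hz1 : ∀ x, negL T z.1 x = f x := by
      intro x
      have := congrArg Subtype.val hz
      exact congrFun this x
    have e1 : ∑ x, w x * f x ^ 2 = dirF w T f z.1 := by
      rw [← h.dirF_eq]
      refine Finset.sum_congr rfl fun x _ => ?_
      rw [hz1 x]; ring
    have e2 : κ * dirF w T z.1 z.1 ≤ ∑ x, w x * f x ^ 2 := by
      have := hB z.1
      simpa only [hz1] using this
    have e3 := h.dirF_sq_le f z.1
    rw [← e1] at e3
    set S := ∑ x, w x * f x ^ 2 with hS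
    have hS0 : 0 ≤ S := Finset.sum_nonneg fun x _ => mul_nonneg (h.pos x).le (sq_nonneg _)
    have hF0 := h.dirF_nonneg f
    rcases hS0.eq_or_lt with hs | hs
    · rw [← hs]; simpa using hF0
    · have : κ * S ^ 2 ≤ dirF w T f f * S := by
        calc κ * S ^ 2 ≤ κ * (dirF w T f f * dirF w T z.1 z.1) :=
              mul_le_mul_of_nonneg_left e3 hκ.le
          _ = dirF w T f f * (κ * dirF w T z.1 z.1) := by ring
          _ ≤ dirF w T f f * S := mul_le_mul_of_nonneg_left e2 hF0
      have h5 : (κ * S) * S ≤ dirF w T f f * S := by nlinarith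
      exact le_of_mul_le_mul_right h5 hs
  -- general case
  set Z := ∑ x, w x with hZdef
  set m := (∑ x, w x * f x) / Z with hm
  have hmean : ∑ x, w x * (f x - m) = 0 := by
    have : ∑ x, w x * (f x - m) = ∑ x, w x * f x - m * Z := by
      rw [hZdef, Finset.mul_sum, ← Finset.sum_sub_distrib]
      refine Finset.sum_congr rfl fun x _ => ?_
      ring
    rw [this, hm]; field_simp; ring
  have hfin := hmz (fun x => f x - m) hmean
  have e4 : dirF w T (fun x => f x - m) (fun x => f x - m) = dirF w T f f := by
    unfold dirF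
    have : ∀ i x, dd i (fun x => f x - m) x = dd i f x := by
      intro i x
      rw [dd_sub i f (fun _ => m), dd_const]; ring
    simp only [this]
  have e5 : Z * ∑ x, w x * (f x - m) ^ 2 = (∑ x, w x * f x ^ 2) * Z - (∑ x, w x * f x) ^ 2 := by
    have : ∑ x, w x * (f x - m) ^ 2
        = ∑ x, w x * f x ^ 2 - 2 * m * ∑ x, w x * f x + m ^ 2 * Z := by
      rw [hZdef, Finset.mul_sum, Finset.mul_sum, ← Finset.sum_sub_distrib,
        ← Finset.sum_add_distrib]
      refine Finset.sum_congr rfl fun x _ => ?_
      ring
    rw [this, hm]; field_simp; ring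
  rw [← e5]
  rw [e4] at hfin
  have := mul_le_mul_of_nonneg_left hfin hZ.le
  linarith

end Vale.Agent.P150
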