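import Vale.Agent.Lib.P150.Calc

/-!
W3: from an approximate tensorization of entropy to total variation convergence of the
heat-bath semigroup.
-/

namespace Vale.Agent.P150

open Matrix

section ExpFacts
variable {m : Type*} [Fintype m] [DecidableEq m]

set_option backward.isDefEq.respectTransparency false in
open scoped Matrix.Norms.Operator in
lemma hasDerivAt_exp_mulVec (A : Matrix m m ℝ) (f : m → ℝ) (x : m) (t : ℝ) :
    HasDerivAt (fun s : ℝ => (NormedSpace.exp (s • A) *ᵥ f) x)
      ((A *ᵥ (NormedSpace.exp (t • A) *ᵥ f)) x) t := by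
  have h := hasDerivAt_exp_smul_const' (𝕂 := ℝ) A t
  let φ : Matrix m m ℝ →ₗ[ℝ] ℝ :=
    { toFun := fun M => (M *ᵥ f) x
      map_add' := by intro M N; simp [Matrix.add_mulVec]
      map_smul' := by intro c M; simp [Matrix.smul_mulVec] }
  have h2 := (LinearMap.toContinuousLinearMap φ).hasFDerivAt.comp_hasDerivAt t h
  have e : (A *ᵥ (NormedSpace.exp (t • A) *ᵥ f)) x = φ (A * NormedSpace.exp (t • A)) := by
    simp [φ, Matrix.mulVec_mulVec]
  rw [e]
  exact h2

set_option backward.isDefEq.respectTransparency false in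
open scoped Matrix.Norms.Operator in
lemma exp_nonneg_of_nonneg (A : Matrix m m ℝ) (hA : ∀ x y, 0 ≤ A x y) (x y : m) :
    0 ≤ (NormedSpace.exp A) x y := by
  have h := NormedSpace.exp_series_hasSum_exp' (𝕂 := ℝ) A
  have h2 : HasSum (fun k : ℕ => (((k.factorial : ℝ)⁻¹ • A ^ k) : Matrix m m ℝ) x y)
      ((NormedSpace.exp A) x y) := by
    have := h.map (Matrix.entryAddMonoidHom ℝ x y) ?_
    · exact this
    · exact continuous_id.matrix_elem x y
  refine h2.nonneg fun k => ?_
  have hk : ∀ k : ℕ, ∀ x y, 0 ≤ (A ^ k) x y := by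
    intro k
    induction k with
    | zero => intro x y; simp [Matrix.one_apply]; split_ifs <;> norm_num
    | succ k ih =>
      intro x y
      rw [pow_succ, Matrix.mul_apply]
      exact Finset.sum_nonneg fun z _ => mul_nonneg (ih x z) (hA z y)
  have : 0 ≤ ((k.factorial : ℝ)⁻¹) * (A ^ k) x y := mul_nonneg (by positivity) (hk k x y)
  simpa using this

lemma exp_smul_one (c : ℝ) :
    NormedSpace.exp (c • (1 : Matrix m m ℝ)) = Real.exp c • (1 : Matrix m m ℝ) := by
  have : c • (1 : Matrix m m ℝ) = Matrix.diagonal (fun _ => c) := by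
    ext i j; simp [Matrix.one_apply, Matrix.diagonal_apply]
  rw [this, Matrix.exp_diagonal]
  ext i j
  simp only [Matrix.diagonal_apply, Matrix.smul_apply, Matrix.one_apply, smul_eq_mul]
  split_ifs with h
  · rw [Pi.coe_exp, Real.exp_eq_exp_ℝ]; simp
  · simp

/-- if `B ≥ 0` entrywise then `exp (t (B - c))` is entrywise nonnegative for `t ≥ 0`. -/
lemma exp_smul_sub_nonneg (B : Matrix m m ℝ) (hB : ∀ x y, 0 ≤ B x y) (c t : ℝ) (ht : 0 ≤ t)
    (x y : m) : 0 ≤ (NormedSpace.exp (t • (B - c • (1 : Matrix m m ℝ)))) x y := by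
  have e : t • (B - c • (1 : Matrix m m ℝ)) = t • B + (-(t * c)) • (1 : Matrix m m ℝ) := by
    rw [smul_sub, smul_smul, neg_smul, sub_eq_add_neg]
  have hcomm : Commute (t • B) ((-(t * c)) • (1 : Matrix m m ℝ)) := by
    exact (Commute.one_right _).smul_right _
  rw [e, Matrix.exp_add_of_commute _ _ hcomm, exp_smul_one]
  have h1 := exp_nonneg_of_nonneg (t • B) (fun x y => by
    simpa using mul_nonneg ht (hB x y)) x y
  have h2 := (Real.exp_pos (-(t * c))).le
  have : 0 ≤ Real.exp (-(t * c)) * (NormedSpace.exp (t • B)) x y := mul_nonneg h2 h1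
  simpa using this

/-- detailed balance passes to the semigroup. -/
lemma exp_reversible (A : Matrix m m ℝ) (w : m → ℝ) (hw : ∀ x, w x ≠ 0)
    (hA : ∀ x y, w x * A x y = w y * A y x) (t : ℝ) (x y : m) :
    w x * (NormedSpace.exp (t • A)) x y = w y * (NormedSpace.exp (t • A)) y x := by
  have hU : IsUnit (Matrix.diagonal w) := by
    rw [Matrix.isUnit_iff_isUnit_det, Matrix.det_diagonal, isUnit_iff_ne_zero]
    exact Finset.prod_ne_zero_iff.mpr fun x _ => hw x
  have hdet : IsUnit (Matrix.diagonal w).det := (Matrix.isUnit_iff_isUnit_det _).mp hU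
  have h1 : Matrix.diagonal w * (t • A) = (t • A)ᵀ * Matrix.diagonal w := by
    ext x y
    rw [Matrix.diagonal_mul, Matrix.mul_diagonal]
    simp only [Matrix.smul_apply, Matrix.transpose_apply, smul_eq_mul]
    linear_combination t * hA x y
  have h2 : Matrix.diagonal w * (t • A) * (Matrix.diagonal w)⁻¹ = (t • A)ᵀ := by
    rw [h1, Matrix.mul_assoc, Matrix.mul_nonsing_inv _ hdet, Matrix.mul_one]
  have h3 := Matrix.exp_conj (Matrix.diagonal w) (t • A) hU
  rw [h2, Matrix.exp_transpose] at h3
  have h4 : (NormedSpace.exp (t • A))ᵀ * Matrix.diagonal w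
      = Matrix.diagonal w * NormedSpace.exp (t • A) := by
    rw [h3, Matrix.mul_assoc, Matrix.nonsing_inv_mul _ hdet, Matrix.mul_one]
  have h5 := congrFun (congrFun h4 x) y
  rw [Matrix.diagonal_mul, Matrix.mul_diagonal] at h5
  simp only [Matrix.transpose_apply] at h5
  linarith [h5]

/-- the semigroup fixes vectors in the kernel of the generator. -/
lemma exp_mulVec_of_ker (A : Matrix m m ℝ) (f : m → ℝ) (hf : A *ᵥ f = 0) (t : ℝ) :
    NormedSpace.exp (t • A) *ᵥ f = f := by
  funext x
  have hd : ∀ s : ℝ, HasDerivAt (fun s : ℝ => (NormedSpace.exp (s • A) *ᵥ f) x) 0 s := by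
    intro s
    have h := hasDerivAt_exp_mulVec A f x s
    have hcomm : A *ᵥ (NormedSpace.exp (s • A) *ᵥ f) = NormedSpace.exp (s • A) *ᵥ (A *ᵥ f) := by
      rw [Matrix.mulVec_mulVec, Matrix.mulVec_mulVec]
      congr 1
      have : Commute A (NormedSpace.exp (s • A)) := (Commute.refl A).smul_right s |>.exp_right
      exact this
    rw [hcomm, hf] at h
    simpa using h
  have hconst : (NormedSpace.exp (t • A) *ᵥ f) x = (NormedSpace.exp ((0:ℝ) • A) *ᵥ f) x :=
    is_const_of_deriv_eq_zero (fun s => (hd s).differentiableAt)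
      (fun s => (hd s).deriv) t 0
  rw [hconst]
  simp

end ExpFacts

variable {n : ℕ}

section Heat
variable (w : Config n → ℝ)

lemma condE_update (i : Fin n) (f : Config n → ℝ) (x : Config n) (b : Bool) :
    condE w i f (Function.update x i b) = condE w i f x := by
  unfold condE; simp

lemma hbMat_mulVec_apply (i : Fin n) (f : Config n → ℝ) (x : Config n) :
    (hbMat w i *ᵥ f) x = condE w i f x := by
  unfold Matrix.mulVec dotProduct hbMat condE
  simp only [Finset.sum_mul]
  rw [Finset.sum_comm]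
  simp only [ite_mul, zero_mul, Finset.sum_ite_eq', Finset.mem_univ, if_true, Fintype.sum_bool]
  rw [add_div]
  ring

lemma hbMat_nonneg (hw : ∀ x, 0 < w x) (i : Fin n) (x y : Config n) : 0 ≤ hbMat w i x y := by
  unfold hbMat
  refine Finset.sum_nonneg fun s _ => ?_
  split_ifs
  · exact div_nonneg (hw _).le (add_pos (hw _) (hw _)).le
  · exact le_refl _

lemma condE_const (hw : ∀ x, 0 < w x) (i : Fin n) (c : ℝ) (x : Config n) :
    condE w i (fun _ => c) x = c := by
  unfold condE
  have := add_pos (hw (Function.update x i true)) (hw (Function.update x i false))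
  field_simp

lemma condE_pos (hw : ∀ x, 0 < w x) (i : Fin n) {f : Config n → ℝ} (hf : ∀ x, 0 < f x)
    (x : Config n) : 0 < condE w i f x := by
  unfold condE
  exact div_pos (add_pos (mul_pos (hw _) (hf _)) (mul_pos (hw _) (hf _)))
    (add_pos (hw _) (hw _))

/-- self-adjointness of the conditional expectation -/
lemma sum_condE_mul (hw : ∀ x, 0 < w x) (i : Fin n) (f g : Config n → ℝ) :
    ∑ x, w x * (condE w i f x * g x) = ∑ x, w x * (f x * condE w i g x) := by
  rw [sum_pair i, sum_pair i (fun x => w x * (f x * condE w i g x))]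
  congr 1
  refine Finset.sum_congr rfl fun x _ => ?_
  simp only [condE_update]
  unfold condE
  have := add_pos (hw (Function.update x i true)) (hw (Function.update x i false))
  field_simp

lemma condE_of_indep (hw : ∀ x, 0 < w x) (i : Fin n) (g : Config n → ℝ)
    (hg : ∀ x b, g (Function.update x i b) = g x) (x : Config n) : condE w i g x = g x := by
  unfold condE
  rw [hg, hg]
  have := add_pos (hw (Function.update x i true)) (hw (Function.update x i false))
  field_simp

lemma sum_condE (hw : ∀ x, 0 < w x) (i : Fin n) (f : Config n → ℝ) :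
    ∑ x, w x * condE w i f x = ∑ x, w x * f x := by
  have h := sum_condE_mul w hw i f (fun _ => 1)
  simp only [condE_const w hw, mul_one] at h
  exact h

lemma hbMat_symm (hw : ∀ x, 0 < w x) (i : Fin n) (x y : Config n) :
    w x * hbMat w i x y = w y * hbMat w i y x := by
  have h1 : ∀ a b, hbMat w i a b = condE w i (Pi.single b (1:ℝ)) a := by
    intro a b
    rw [← hbMat_mulVec_apply]; simp
  have h := sum_condE_mul w hw i (Pi.single y (1:ℝ)) (Pi.single x (1:ℝ))
  rw [h1, h1]
  have e1 : ∑ z, w z * (condE w i (Pi.single y (1:ℝ)) z * (Pi.single x (1:ℝ) : Config n → ℝ) z)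
      = w x * condE w i (Pi.single y (1:ℝ)) x := by
    rw [Finset.sum_eq_single x]
    · simp
    · intro b _ hb; rw [Pi.single_eq_of_ne hb]; simp
    · intro h; exact absurd (Finset.mem_univ _) h
  have e2 : ∑ z, w z * ((Pi.single y (1:ℝ) : Config n → ℝ) z * condE w i (Pi.single x (1:ℝ)) z)
      = w y * condE w i (Pi.single x (1:ℝ)) y := by
    rw [Finset.sum_eq_single y]
    · simp
    · intro b _ hb; rw [Pi.single_eq_of_ne hb]; simp
    · intro h; exact absurd (Finset.mem_univ _) h
  rw [e1, e2] at h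
  exact h

lemma genMat_mulVec_apply (f : Config n → ℝ) (x : Config n) :
    (genMat w *ᵥ f) x = ∑ i, (condE w i f x - f x) := by
  unfold genMat
  rw [Matrix.sum_mulVec]
  rw [Finset.sum_apply]
  refine Finset.sum_congr rfl fun i _ => ?_
  rw [Matrix.sub_mulVec, Pi.sub_apply, hbMat_mulVec_apply, Matrix.one_mulVec]

lemma genMat_symm (hw : ∀ x, 0 < w x) (x y : Config n) :
    w x * genMat w x y = w y * genMat w y x := by
  unfold genMat
  simp only [Matrix.sum_apply, Matrix.sub_apply, Finset.mul_sum]
  refine Finset.sum_congr rfl fun i _ => ?_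
  rw [mul_sub, mul_sub, hbMat_symm w hw i x y]
  congr 1
  by_cases h : x = y
  · subst h; rfl
  · rw [Matrix.one_apply_ne h, Matrix.one_apply_ne (Ne.symm h)]; simp

lemma genMat_const (hw : ∀ x, 0 < w x) (c : ℝ) : genMat w *ᵥ (fun _ => c) = 0 := by
  funext x
  rw [genMat_mulVec_apply]
  simp [condE_const w hw]

/-- the heat-bath kernel -/
noncomputable def heatK (t : ℝ) : Matrix (Config n) (Config n) ℝ :=
  NormedSpace.exp (t • genMat w)

lemma heatK_nonneg (hw : ∀ x, 0 < w x) (t : ℝ) (ht : 0 ≤ t) (x y : Config n) :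
    0 ≤ heatK w t x y := by
  have e : genMat w = (∑ i : Fin n, hbMat w i) - (n : ℝ) • (1 : Matrix (Config n) (Config n) ℝ) := by
    unfold genMat
    rw [Finset.sum_sub_distrib]
    simp [← Nat.cast_smul_eq_nsmul ℝ]
  unfold heatK
  rw [e]
  refine exp_smul_sub_nonneg _ (fun x y => ?_) _ t ht x y
  rw [Matrix.sum_apply]
  exact Finset.sum_nonneg fun i _ => hbMat_nonneg w hw i x y

lemma heatK_symm (hw : ∀ x, 0 < w x) (t : ℝ) (x y : Config n) :
    w x * heatK w t x y = w y * heatK w t y x :=
  exp_reversible _ w (fun x => (hw x).ne') (genMat_symm w hw) t x y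

lemma heatK_row (hw : ∀ x, 0 < w x) (t : ℝ) (x : Config n) : ∑ y, heatK w t x y = 1 := by
  have h := congrFun (exp_mulVec_of_ker (genMat w) (fun _ => (1:ℝ)) (genMat_const w hw 1) t) x
  simpa [Matrix.mulVec, dotProduct, heatK] using h

lemma heatK_sum (hw : ∀ x, 0 < w x) (t : ℝ) (f : Config n → ℝ) :
    ∑ x, w x * (heatK w t *ᵥ f) x = ∑ x, w x * f x := by
  have e : ∀ x, w x * (heatK w t *ᵥ f) x = ∑ y, w x * heatK w t x y * f y := by
    intro x
    rw [Matrix.mulVec, dotProduct, Finset.mul_sum]
    refine Finset.sum_congr rfl fun y _ => ?_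
    ring
  simp only [e]
  rw [Finset.sum_comm]
  refine Finset.sum_congr rfl fun y _ => ?_
  have : ∀ x, w x * heatK w t x y * f y = w y * f y * heatK w t y x := by
    intro x; rw [heatK_symm w hw]; ring
  simp only [this]
  rw [← Finset.mul_sum, heatK_row w hw, mul_one]

lemma heatK_pos (hw : ∀ x, 0 < w x) (t : ℝ) (ht : 0 ≤ t) {f : Config n → ℝ}
    (hf : ∀ x, 0 < f x) (x : Config n) : 0 < (heatK w t *ᵥ f) x := by
  have hnn : ∀ y, 0 ≤ heatK w t x y * f y := fun y =>
    mul_nonneg (heatK_nonneg w hw t ht x y) (hf y).le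
  rcases (Finset.sum_nonneg fun y _ => hnn y).lt_or_eq with h | h
  · exact h
  · exfalso
    have h0 := (Finset.sum_eq_zero_iff_of_nonneg (fun y _ => hnn y)).mp h.symm
    have h1 : ∀ y, heatK w t x y = 0 := by
      intro y
      have := h0 y (Finset.mem_univ y)
      rcases mul_eq_zero.mp this with h | h
      · exact h
      · exact absurd h (hf y).ne'
    have := heatK_row w hw t x
    simp [h1] at this

/-- entropy production bound for one site -/
lemma ent_prod_le (hw : ∀ x, 0 < w x) (i : Fin n) {u : Config n → ℝ} (hu : ∀ x, 0 < u x) :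
    ∑ x, w x * ((condE w i u x - u x) * Real.log (u x)) ≤
      -∑ x, w x * (u x * (Real.log (u x) - Real.log (condE w i u x))) := by
  have h1 : ∑ x, w x * (condE w i u x * Real.log (condE w i u x))
      = ∑ x, w x * (u x * Real.log (condE w i u x)) := by
    rw [sum_condE_mul w hw i u (fun x => Real.log (condE w i u x))]
    refine Finset.sum_congr rfl fun x _ => ?_
    rw [condE_of_indep w hw i (fun x => Real.log (condE w i u x))]
    intro x b
    simp only [condE_update]
  have h2 : ∑ x, w x * (condE w i u x * (Real.log (u x) - Real.log (condE w i u x))) ≤ 0 := by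
    calc ∑ x, w x * (condE w i u x * (Real.log (u x) - Real.log (condE w i u x)))
        ≤ ∑ x, w x * (u x - condE w i u x) := by
          refine Finset.sum_le_sum fun x _ => mul_le_mul_of_nonneg_left ?_ (hw x).le
          have hc := condE_pos w hw i hu x
          rw [← Real.log_div (hu x).ne' hc.ne']
          have h3 := Real.log_le_sub_one_of_pos (div_pos (hu x) hc)
          calc condE w i u x * Real.log (u x / condE w i u x)
              ≤ condE w i u x * (u x / condE w i u x - 1) :=
                mul_le_mul_of_nonneg_left h3 hc.le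
            _ = u x - condE w i u x := by field_simp
      _ = 0 := by
          simp only [mul_sub, Finset.sum_sub_distrib]
          rw [sum_condE w hw]; ring
  have e1 : ∑ x, w x * ((condE w i u x - u x) * Real.log (u x))
      = ∑ x, w x * (condE w i u x * (Real.log (u x) - Real.log (condE w i u x)))
        + ∑ x, w x * (condE w i u x * Real.log (condE w i u x))
        - ∑ x, w x * (u x * Real.log (u x)) := by
    rw [← Finset.sum_add_distrib, ← Finset.sum_sub_distrib]
    refine Finset.sum_congr rfl fun x _ => ?_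
    ring
  have e2 : ∑ x, w x * (u x * (Real.log (u x) - Real.log (condE w i u x)))
      = ∑ x, w x * (u x * Real.log (u x)) - ∑ x, w x * (u x * Real.log (condE w i u x)) := by
    rw [← Finset.sum_sub_distrib]
    refine Finset.sum_congr rfl fun x _ => ?_
    ring
  rw [e1, e2, h1]
  linarith

lemma ent_prod_total (hw : ∀ x, 0 < w x) {u : Config n → ℝ} (hu : ∀ x, 0 < u x) :
    ∑ x, w x * ((genMat w *ᵥ u) x * Real.log (u x)) ≤ -entLoc w u := by
  have e : ∑ x, w x * ((genMat w *ᵥ u) x * Real.log (u x))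
      = ∑ i, ∑ x, w x * ((condE w i u x - u x) * Real.log (u x)) := by
    rw [Finset.sum_comm]
    refine Finset.sum_congr rfl fun x _ => ?_
    rw [genMat_mulVec_apply, Finset.sum_mul, Finset.mul_sum]
  rw [e]
  unfold entLoc
  rw [← Finset.sum_neg_distrib]
  exact Finset.sum_le_sum fun i _ => ent_prod_le w hw i hu

lemma sum_genMat (hw : ∀ x, 0 < w x) (u : Config n → ℝ) :
    ∑ x, w x * (genMat w *ᵥ u) x = 0 := by
  have e : ∑ x, w x * (genMat w *ᵥ u) x = ∑ i, ∑ x, (w x * condE w i u x - w x * u x) := by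
    rw [Finset.sum_comm]
    refine Finset.sum_congr rfl fun x _ => ?_
    rw [genMat_mulVec_apply, Finset.mul_sum]
    refine Finset.sum_congr rfl fun i _ => ?_
    ring
  rw [e]
  refine Finset.sum_eq_zero fun i _ => ?_
  rw [Finset.sum_sub_distrib, sum_condE w hw]; ring

/-- exponential decay of entropy -/
lemma ent_decay (hw : ∀ x, 0 < w x) (C : ℝ) (hC : 0 < C)
    (hAT : ∀ f : Config n → ℝ, (∀ x, 0 < f x) → entW w f ≤ C * entLoc w f)
    {f : Config n → ℝ} (hf : ∀ x, 0 < f x) (t : ℝ) (ht : 0 ≤ t) :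
    entW w (heatK w t *ᵥ f) ≤ Real.exp (-t / C) * entW w f := by
  set u : ℝ → Config n → ℝ := fun s => heatK w s *ᵥ f with hu
  have hpos : ∀ s, 0 ≤ s → ∀ x, 0 < u s x := fun s hs x => heatK_pos w hw s hs hf x
  have hd : ∀ s x, HasDerivAt (fun s => u s x) ((genMat w *ᵥ u s) x) s := by
    intro s x; exact hasDerivAt_exp_mulVec (genMat w) f x s
  set M : ℝ := ∑ x, w x * f x with hM
  set Z : ℝ := ∑ x, w x with hZ
  have hEnt : ∀ s, entW w (u s) = ∑ x, w x * (u s x * Real.log (u s x)) - M * Real.log (M / Z) := by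
    intro s
    unfold entW
    rw [heatK_sum w hw s f]
  set H : ℝ → ℝ := fun s => entW w (u s) with hH
  set H' : ℝ → ℝ := fun s => ∑ x, w x * ((genMat w *ᵥ u s) x * Real.log (u s x)) with hH'
  have hHd : ∀ s, 0 ≤ s → HasDerivAt H (H' s) s := by
    intro s hs
    have h1 : ∀ x, HasDerivAt (fun s => w x * (u s x * Real.log (u s x)))
        (w x * ((genMat w *ᵥ u s) x * Real.log (u s x)
          + u s x * ((genMat w *ᵥ u s) x / u s x))) s := by
      intro x
      exact ((hd s x).mul ((hd s x).log (hpos s hs x).ne')).const_mul (w x)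
    have h2 := (HasDerivAt.fun_sum (u := Finset.univ) fun x _ => h1 x).sub_const
      (M * Real.log (M / Z))
    have e1 : H = fun s => ∑ x, w x * (u s x * Real.log (u s x)) - M * Real.log (M / Z) := by
      funext s; exact hEnt s
    have e2 : ∀ x, w x * ((genMat w *ᵥ u s) x * Real.log (u s x)
          + u s x * ((genMat w *ᵥ u s) x / u s x))
        = w x * ((genMat w *ᵥ u s) x * Real.log (u s x)) + w x * (genMat w *ᵥ u s) x := by
      intro x
      have := (hpos s hs x).ne'
      field_simp
    rw [Finset.sum_congr rfl fun x _ => e2 x, Finset.sum_add_distrib, sum_genMat w hw,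
      add_zero] at h2
    rw [e1]
    exact h2
  have hH'le : ∀ s, 0 ≤ s → H' s ≤ -(H s) / C := by
    intro s hs
    have h1 := ent_prod_total w hw (hpos s hs)
    have h2 := hAT (u s) (hpos s hs)
    have h3 : H s / C ≤ entLoc w (u s) := by
      rw [div_le_iff₀ hC]; simp only [hH]; linarith
    have h4 : -(H s) / C = -(H s / C) := by ring
    have h5 : H' s ≤ -entLoc w (u s) := h1
    rw [h4]
    linarith
  set G : ℝ → ℝ := fun s => Real.exp (s / C) * H s with hG
  have hGd : ∀ s, 0 ≤ s → HasDerivAt G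
      (Real.exp (s / C) * (1 / C) * H s + Real.exp (s / C) * H' s) s := by
    intro s hs
    have h1 : HasDerivAt (fun s : ℝ => Real.exp (s / C)) (Real.exp (s / C) * (1 / C)) s :=
      ((hasDerivAt_id s).div_const C).exp
    exact h1.mul (hHd s hs)
  have hanti : AntitoneOn G (Set.Ici 0) := by
    refine antitoneOn_of_deriv_nonpos (convex_Ici 0) ?_ ?_ ?_
    · intro s hs
      exact (hGd s hs).continuousAt.continuousWithinAt
    · intro s hs
      rw [interior_Ici] at hs
      exact (hGd s (le_of_lt hs)).differentiableAt.differentiableWithinAt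
    · intro s hs
      rw [interior_Ici] at hs
      have hs0 : 0 ≤ s := le_of_lt hs
      rw [(hGd s hs0).deriv]
      have h1 := hH'le s hs0
      have h2 := Real.exp_pos (s / C)
      have e : Real.exp (s / C) * (1 / C) * H s + Real.exp (s / C) * H' s
          = Real.exp (s / C) * (H s / C + H' s) := by ring
      rw [e]
      refine mul_nonpos_of_nonneg_of_nonpos h2.le ?_
      have h4 : -(H s) / C = -(H s / C) := by ring
      rw [h4] at h1
      linarith
  have hle := hanti (Set.mem_Ici.mpr le_rfl) (Set.mem_Ici.mpr ht) ht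
  have hu0 : u 0 = f := by
    simp only [hu, heatK]
    simp
  have hG0 : G 0 = entW w f := by
    simp only [hG, hH, hu0]; simp
  rw [hG0] at hle
  have e5 : -t / C = -(t / C) := by ring
  rw [e5, Real.exp_neg]
  have hpe := Real.exp_pos (t / C)
  have : Real.exp (t / C) * entW w (heatK w t *ᵥ f) ≤ entW w f := hle
  calc entW w (heatK w t *ᵥ f)
      = (Real.exp (t / C))⁻¹ * (Real.exp (t / C) * entW w (heatK w t *ᵥ f)) := by
        field_simp
    _ ≤ (Real.exp (t / C))⁻¹ * entW w f :=
        mul_le_mul_of_nonneg_left this (inv_nonneg.mpr hpe.le)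

lemma sqrt_ineq {a : ℝ} (ha : 0 < a) : (Real.sqrt a - 1) ^ 2 ≤ a * Real.log a - a + 1 := by
  have hs := Real.sqrt_pos.mpr ha
  have h1 := Real.log_le_sub_one_of_pos (inv_pos.mpr hs)
  rw [Real.log_inv] at h1
  have h2 : Real.log a = 2 * Real.log (Real.sqrt a) := by
    rw [Real.log_sqrt ha.le]; ring
  have h3 : Real.sqrt a * Real.sqrt a = a := Real.mul_self_sqrt ha.le
  have h4 : a * (-Real.log (Real.sqrt a)) ≤ a * ((Real.sqrt a)⁻¹ - 1) :=
    mul_le_mul_of_nonneg_left h1 ha.le
  have h5 : a * (Real.sqrt a)⁻¹ = Real.sqrt a := by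
    field_simp; rw [sq, h3]
  rw [h2]
  nlinarith [h4, h5, h3]

/-- a weak Pinsker inequality -/
lemma pinsker (hw : ∀ x, 0 < w x) {u : Config n → ℝ} (hu : ∀ x, 0 < u x)
    (hsum : ∑ x, w x * u x = ∑ x, w x) :
    (∑ x, w x * |u x - 1|) ^ 2 ≤ 4 * (∑ x, w x) * entW w u := by
  have hZ : 0 < ∑ x, w x := Finset.sum_pos (fun x _ => hw x) ⟨fun _ => true, Finset.mem_univ _⟩
  have e : entW w u = ∑ x, w x * (u x * Real.log (u x) - u x + 1) := by
    unfold entW
    rw [hsum, div_self hZ.ne', Real.log_one, mul_zero, sub_zero]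
    have : ∀ x, w x * (u x * Real.log (u x) - u x + 1)
        = w x * (u x * Real.log (u x)) - w x * u x + w x := by intro x; ring
    simp only [this, Finset.sum_add_distrib, Finset.sum_sub_distrib, hsum]
    ring
  have h1 : ∑ x, w x * (Real.sqrt (u x) - 1) ^ 2 ≤ entW w u := by
    rw [e]
    exact Finset.sum_le_sum fun x _ => mul_le_mul_of_nonneg_left (sqrt_ineq (hu x)) (hw x).le
  have h2 : ∑ x, w x * (Real.sqrt (u x) + 1) ^ 2 ≤ 4 * ∑ x, w x := by
    have : ∀ x, w x * (Real.sqrt (u x) + 1) ^ 2 ≤ 2 * (w x * u x) + 2 * w x := by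
      intro x
      have h3 : Real.sqrt (u x) * Real.sqrt (u x) = u x := Real.mul_self_sqrt (hu x).le
      have h4 : (Real.sqrt (u x) + 1) ^ 2 ≤ 2 * u x + 2 := by
        nlinarith [sq_nonneg (Real.sqrt (u x) - 1)]
      nlinarith [mul_le_mul_of_nonneg_left h4 (hw x).le]
    calc ∑ x, w x * (Real.sqrt (u x) + 1) ^ 2 ≤ ∑ x, (2 * (w x * u x) + 2 * w x) :=
          Finset.sum_le_sum fun x _ => this x
      _ = 4 * ∑ x, w x := by
          rw [Finset.sum_add_distrib, ← Finset.mul_sum, ← Finset.mul_sum, hsum]; ring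
  have h3 : (∑ x, w x * |u x - 1|) ^ 2 ≤
      (∑ x, w x * (Real.sqrt (u x) - 1) ^ 2) * (∑ x, w x * (Real.sqrt (u x) + 1) ^ 2) := by
    refine Finset.sum_sq_le_sum_mul_sum_of_sq_le_mul _
      (fun x _ => mul_nonneg (hw x).le (sq_nonneg _))
      (fun x _ => mul_nonneg (hw x).le (sq_nonneg _)) (fun x _ => ?_)
    have h4 : Real.sqrt (u x) * Real.sqrt (u x) = u x := Real.mul_self_sqrt (hu x).le
    rw [mul_pow, sq_abs]
    have : u x - 1 = (Real.sqrt (u x) - 1) * (Real.sqrt (u x) + 1) := by nlinarith
    rw [this]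
    refine le_of_eq ?_
    ring
  have h4 : 0 ≤ ∑ x, w x * (Real.sqrt (u x) - 1) ^ 2 :=
    Finset.sum_nonneg fun x _ => mul_nonneg (hw x).le (sq_nonneg _)
  calc (∑ x, w x * |u x - 1|) ^ 2 ≤ _ := h3
    _ ≤ (∑ x, w x * (Real.sqrt (u x) - 1) ^ 2) * (4 * ∑ x, w x) :=
        mul_le_mul_of_nonneg_left h2 h4
    _ ≤ entW w u * (4 * ∑ x, w x) := mul_le_mul_of_nonneg_right h1 (by positivity)
    _ = 4 * (∑ x, w x) * entW w u := by ring

end Heat

/-- W3 -/
theorem tv_of_entropy_tensorization {n : ℕ} (w : Config n → ℝ) (hw : ∀ x, 0 < w x)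
    (C : ℝ) (hC : 0 < C)
    (hAT : ∀ f : Config n → ℝ, (∀ x, 0 < f x) → entW w f ≤ C * entLoc w f)
    (t : ℝ) (ht : 0 ≤ t) (x : Config n) :
    (∑ y, |(NormedSpace.exp (t • genMat w)) x y - w y / ∑ z, w z|) / 2 ≤
      Real.sqrt (Real.exp (-t / C) * Real.log ((∑ z, w z) / w x)) := by
  set Z : ℝ := ∑ z, w z with hZdef
  have hZ : 0 < Z := Finset.sum_pos (fun x _ => hw x) ⟨fun _ => true, Finset.mem_univ _⟩
  have hwZ : w x ≤ Z := Finset.single_le_sum (fun y _ => (hw y).le) (Finset.mem_univ x)
  have hr1 : 1 ≤ Z / w x := by rw [le_div_iff₀ (hw x)]; linarith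
  set P := heatK w t with hP
  set TV : ℝ := (∑ y, |P x y - w y / Z|) / 2 with hTV
  set R : ℝ := Real.exp (-t / C) * Real.log (Z / w x) with hR
  have hR0 : 0 ≤ R := mul_nonneg (Real.exp_pos _).le (Real.log_nonneg hr1)
  have hTV0 : 0 ≤ TV := by
    simp only [hTV]
    have : 0 ≤ ∑ y, |P x y - w y / Z| := Finset.sum_nonneg fun y _ => abs_nonneg _
    linarith
  have key : ∀ ε : ℝ, 0 < ε → ε < 1 → ((1 - ε) * TV) ^ 2 ≤ R := by
    intro ε hε0 hε1
    set f : Config n → ℝ := fun y => (1 - ε) * (if y = x then Z / w x else 0) + ε with hf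
    have hfpos : ∀ y, 0 < f y := by
      intro y
      have : 0 ≤ (1 - ε) * (if y = x then Z / w x else 0) := by
        refine mul_nonneg (by linarith) ?_
        split_ifs
        · linarith
        · exact le_refl _
      simp only [hf]; linarith
    have hfle : ∀ y, f y ≤ Z / w x := by
      intro y
      simp only [hf]
      split_ifs
      · nlinarith
      · nlinarith
    have hfsum : ∑ y, w y * f y = Z := by
      have : ∀ y, w y * f y = (1 - ε) * (if y = x then w y * (Z / w x) else 0) + ε * w y := by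
        intro y; simp only [hf]; split_ifs <;> ring
      simp only [this, Finset.sum_add_distrib, ← Finset.mul_sum, Finset.sum_ite_eq',
        Finset.mem_univ, if_true]
      rw [← hZdef]
      have := (hw x).ne'
      field_simp
      ring
    have hent : entW w f ≤ Z * Real.log (Z / w x) := by
      unfold entW
      rw [hfsum, ← hZdef, div_self hZ.ne', Real.log_one, mul_zero, sub_zero]
      calc ∑ y, w y * (f y * Real.log (f y)) ≤ ∑ y, (w y * f y) * Real.log (Z / w x) := by
            refine Finset.sum_le_sum fun y _ => ?_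
            rw [← mul_assoc]
            exact mul_le_mul_of_nonneg_left (Real.log_le_log (hfpos y) (hfle y))
              (mul_nonneg (hw y).le (hfpos y).le)
        _ = Z * Real.log (Z / w x) := by rw [← Finset.sum_mul, hfsum]
    have hdec := ent_decay w hw C hC hAT hfpos t ht
    have hupos := heatK_pos w hw t ht hfpos
    have husum : ∑ y, w y * (P *ᵥ f) y = ∑ y, w y := by
      rw [hP, heatK_sum w hw, hfsum]
    have hpin := pinsker w hw hupos husum
    have hu : ∀ y, (P *ᵥ f) y = (1 - ε) * (P x y * Z / w y) + ε := by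
      intro y
      have e1 : (P *ᵥ f) y = ∑ z, P y z * f z := rfl
      rw [e1]
      have : ∀ z, P y z * f z = (1 - ε) * (if z = x then P y z * (Z / w x) else 0) + ε * P y z := by
        intro z; simp only [hf]; split_ifs <;> ring
      simp only [this, Finset.sum_add_distrib, ← Finset.mul_sum, Finset.sum_ite_eq',
        Finset.mem_univ, if_true]
      rw [hP, heatK_row w hw, mul_one]
      have hs := heatK_symm w hw t x y
      have h1 := (hw x).ne'
      have h2 := (hw y).ne'
      congr 2
      field_simp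
      linear_combination (-1 : ℝ) * hs
    have habs : ∑ y, w y * |(P *ᵥ f) y - 1| = (1 - ε) * Z * (2 * TV) := by
      have : ∀ y, w y * |(P *ᵥ f) y - 1| = (1 - ε) * Z * |P x y - w y / Z| := by
        intro y
        rw [hu y]
        have h2 := (hw y).ne'
        have e1 : (1 - ε) * (P x y * Z / w y) + ε - 1
            = ((1 - ε) * Z) * ((P x y - w y / Z) / w y) := by
          field_simp
          ring
        rw [e1, abs_mul, abs_of_pos (mul_pos (by linarith) hZ), abs_div, abs_of_pos (hw y)]
        field_simp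
      simp only [this, ← Finset.mul_sum, hTV]
      ring
    rw [habs, ← hZdef] at hpin
    have h5 : ((1 - ε) * Z * (2 * TV)) ^ 2 ≤ 4 * Z * (Z * R) := by
      refine hpin.trans (mul_le_mul_of_nonneg_left ?_ (by positivity))
      refine hdec.trans ?_
      calc Real.exp (-t / C) * entW w f ≤ Real.exp (-t / C) * (Z * Real.log (Z / w x)) :=
            mul_le_mul_of_nonneg_left hent (Real.exp_pos _).le
        _ = Z * R := by simp only [hR]; ring
    have h6 : (4 * Z ^ 2) * ((1 - ε) * TV) ^ 2 ≤ (4 * Z ^ 2) * R := by nlinarith [h5]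
    exact le_of_mul_le_mul_left h6 (by positivity)
  have key2 : ∀ ε : ℝ, 0 < ε → ε < 1 → (1 - ε) * TV ≤ Real.sqrt R := by
    intro ε h0 h1
    exact Real.le_sqrt_of_sq_le (key ε h0 h1)
  have hfin : TV ≤ Real.sqrt R := by
    by_contra hcon
    push Not at hcon
    have hTVpos : 0 < TV := lt_of_le_of_lt (Real.sqrt_nonneg _) hcon
    set ε : ℝ := (TV - Real.sqrt R) / (2 * TV) with hε
    have h1 : 0 < ε := div_pos (by linarith) (by linarith)
    have h2 : ε < 1 := by
      rw [hε, div_lt_one (by linarith)]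
      have := Real.sqrt_nonneg R
      linarith
    have h3 := key2 ε h1 h2
    have h4 : ε * TV = (TV - Real.sqrt R) / 2 := by rw [hε]; field_simp
    nlinarith
  exact hfin

end Vale.Agent.P150
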